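import Vale.Agent.P116.F.Kq

/-! P116 F/Bd (task, block of helper24). Helper names start with `fbd_`.
Plan. `k ζ = f ζ⁻¹ - ζ⁻¹`, `k 0 = 0` is holomorphic on `ball 0 R⁻¹` (removable singularity, `differentiableOn_compl_singleton_and_continuousAt_iff`, `tendsto_inv₀_nhdsNE_zero`, `Metric.cobounded_eq_cocompact`). `bd_core`: `φ ζ = ζ / (1 + ζ (k ζ - w))` is `1 / (f ζ⁻¹ - w)` off `0`, univalent on `ball 0 R⁻¹`, `φ 0 = 0`, `φ' 0 = 1`; `cov` on `ball 0 (2 R)⁻¹` and injectivity give `‖f z - w‖ ≤ 20 R` on `‖z‖ = 2 R`; maximum principle (`Complex.norm_le_of_forall_mem_frontier_norm_le`) for `k - w` on `ball 0 (2 R)⁻¹`. `bd_all`: for `‖z‖ ≤ 4 R` the value `f z` is omitted on `4 R < ‖·‖`; else use `bd_core` with `2 R` and `w = f (2 R)`.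
-/

open Metric Set Filter Function Topology Complex MeasureTheory
open scoped ComplexConjugate Real

noncomputable section

namespace Vale.Agent.P116.F

open Vale.Agent.P116.W

variable {ι : Type} [Fintype ι] {A B C : Cfg ι} {b r r' R : ℝ} {c c' p : ℂ} {S : Set ι} {j : ι}
  {m n : ℕ} {e f g g' G G' h : ℂ → ℂ} {K K' T Ω : Set ℂ}

theorem fbd_inv (hR : 0 < R) {ζ : ℂ} (h : ζ ∈ ball (0 : ℂ) R⁻¹) (h0 : ζ ≠ 0) : R < ‖ζ⁻¹‖ := by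
  rw [norm_inv]
  exact (lt_inv_comm₀ hR (norm_pos_iff.2 h0)).2 (mem_ball_zero_iff.1 h)

theorem fbd_k (hR : 0 < R) (hd : DifferentiableOn ℂ f {z | R < ‖z‖}) (hn : Nm f) :
    ∃ k : ℂ → ℂ, DifferentiableOn ℂ k (ball 0 R⁻¹) ∧ k 0 = 0 ∧
      ∀ ζ, ζ ≠ 0 → k ζ = f ζ⁻¹ - ζ⁻¹ := by
  classical
  obtain ⟨k, k0, k1⟩ : ∃ k : ℂ → ℂ, k 0 = 0 ∧ ∀ ζ, ζ ≠ 0 → k ζ = f ζ⁻¹ - ζ⁻¹ :=
    ⟨fun ζ => if ζ = 0 then 0 else f ζ⁻¹ - ζ⁻¹, if_pos rfl, fun ζ h => if_neg h⟩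
  refine ⟨k, (differentiableOn_compl_singleton_and_continuousAt_iff
    (ball_mem_nhds 0 (inv_pos.2 hR))).1 ⟨?_, ?_⟩, k0, k1⟩
  · have h1 : DifferentiableOn ℂ (fun ζ : ℂ => ζ⁻¹) (ball 0 R⁻¹ \ {0}) :=
      differentiableOn_inv.mono fun ζ h => h.2
    refine ((hd.comp h1 fun ζ h => fbd_inv hR h.1 h.2).sub h1).congr fun ζ h => k1 ζ h.2
  · rw [← continuousWithinAt_compl_self, ContinuousWithinAt, k0]
    have h2 : Tendsto (fun ζ : ℂ => ζ⁻¹) (𝓝[≠] 0) (cocompact ℂ) := by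
      rw [← Metric.cobounded_eq_cocompact]
      exact tendsto_inv₀_nhdsNE_zero
    refine (Tendsto.comp hn h2).congr' ?_
    filter_upwards [self_mem_nhdsWithin] with ζ h
    exact (k1 ζ h).symm

theorem bd_core (hR : 0 < R) (hd : DifferentiableOn ℂ f {z | R < ‖z‖})
    (hi : InjOn f {z | R < ‖z‖}) (hn : Nm f) {w : ℂ} (hw : w ∉ f '' {z | R < ‖z‖}) :
    ‖w‖ ≤ 22 * R ∧ ∀ z, 2 * R ≤ ‖z‖ → ‖f z - z - w‖ ≤ 22 * R := by
  obtain ⟨k, kd, k0, k1⟩ := fbd_k hR hd hn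
  have hne : ∀ ζ ∈ ball (0 : ℂ) R⁻¹, ζ ≠ 0 → f ζ⁻¹ - w ≠ 0 := fun ζ h h0 e =>
    hw ⟨ζ⁻¹, fbd_inv hR h h0, sub_eq_zero.1 e⟩
  have hD : ∀ ζ, ζ ≠ 0 → 1 + ζ * (k ζ - w) = ζ * (f ζ⁻¹ - w) := fun ζ h0 => by
    rw [k1 ζ h0]
    field_simp
    ring
  have hD0 : ∀ ζ ∈ ball (0 : ℂ) R⁻¹, 1 + ζ * (k ζ - w) ≠ 0 := fun ζ h => by
    by_cases h0 : ζ = 0
    · simp [h0]
    · rw [hD ζ h0]
      exact mul_ne_zero h0 (hne ζ h h0)
  have hDd : DifferentiableOn ℂ (fun ζ => 1 + ζ * (k ζ - w)) (ball 0 R⁻¹) :=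
    (differentiableOn_id.mul (kd.sub_const w)).const_add 1
  obtain ⟨φ, hφ⟩ : ∃ φ : ℂ → ℂ, φ = fun ζ => ζ / (1 + ζ * (k ζ - w)) := ⟨_, rfl⟩
  have p0 : φ 0 = 0 := by simp [hφ]
  have p1 : ∀ ζ, ζ ≠ 0 → φ ζ = (f ζ⁻¹ - w)⁻¹ := fun ζ h0 => by
    rw [hφ]
    simp only
    rw [hD ζ h0, div_mul_cancel_left₀ h0]
  have pd : DifferentiableOn ℂ φ (ball 0 R⁻¹) := by
    rw [hφ]
    exact differentiableOn_id.div hDd hD0
  have pi : InjOn φ (ball 0 R⁻¹) := by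
    intro ζ h ζ' h' e
    by_cases h0 : ζ = 0 <;> by_cases h0' : ζ' = 0
    · rw [h0, h0']
    · rw [h0, p0, p1 ζ' h0'] at e
      exact absurd e.symm (inv_ne_zero (hne ζ' h' h0'))
    · rw [h0', p0, p1 ζ h0] at e
      exact absurd e (inv_ne_zero (hne ζ h h0))
    · rw [p1 ζ h0, p1 ζ' h0', inv_inj, sub_left_inj] at e
      exact inv_injective (hi (fbd_inv hR h h0) (fbd_inv hR h' h0') e)
  have hb := ball_mem_nhds (0 : ℂ) (inv_pos.2 hR)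
  have p2 : deriv φ 0 = 1 := by
    have h1 := (hasDerivAt_id (0 : ℂ)).fun_div (hDd.differentiableAt hb).hasDerivAt
      (hD0 0 (mem_of_mem_nhds hb))
    rw [hφ]
    refine h1.deriv.trans ?_
    simp
  have h2R : 0 < 2 * R := by positivity
  have hlt : (2 * R)⁻¹ < R⁻¹ := (inv_lt_inv₀ h2R hR).2 (by linarith)
  have hc := cov (inv_pos.2 h2R) (pd.mono (ball_subset_ball hlt.le))
    (pi.mono (ball_subset_ball hlt.le))
  rw [p0, p2, norm_one, mul_one] at hc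
  have hfr : ∀ ζ ∈ frontier (ball (0 : ℂ) (2 * R)⁻¹), ‖k ζ - w‖ ≤ 22 * R := by
    intro ζ h
    rw [frontier_ball _ (inv_pos.2 h2R).ne', mem_sphere_zero_iff_norm] at h
    have h0 : ζ ≠ 0 := norm_pos_iff.1 (h ▸ inv_pos.2 h2R)
    have h1 : ζ ∈ ball (0 : ℂ) R⁻¹ := mem_ball_zero_iff.2 (h ▸ hlt)
    have h2 : (2 * R)⁻¹ / 10 ≤ ‖φ ζ‖ := by
      by_contra h3
      obtain ⟨ζ', h4, h5⟩ := hc (mem_ball_zero_iff.2 (not_le.1 h3))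
      have h6 := pi (ball_subset_ball hlt.le h4) h1 h5
      rw [h6, mem_ball_zero_iff, h] at h4
      exact lt_irrefl _ h4
    rw [p1 ζ h0, norm_inv, le_inv_comm₀ (by positivity) (norm_pos_iff.2 (hne ζ h1 h0))] at h2
    have h7 : ((2 * R)⁻¹ / 10)⁻¹ = 20 * R := by
      field_simp
      norm_num
    have h8 : ‖ζ⁻¹‖ = 2 * R := by rw [norm_inv, h, inv_inv]
    have h9 : k ζ - w = f ζ⁻¹ - w - ζ⁻¹ := by
      rw [k1 ζ h0]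
      ring
    rw [h9]
    linarith [norm_sub_le (f ζ⁻¹ - w) ζ⁻¹]
  have hmx : ∀ ζ : ℂ, ‖ζ‖ ≤ (2 * R)⁻¹ → ‖k ζ - w‖ ≤ 22 * R := fun ζ h =>
    norm_le_of_forall_mem_frontier_norm_le (f := fun ζ => k ζ - w) isBounded_ball
      ((kd.sub_const w).diffContOnCl_ball (closedBall_subset_ball hlt)) hfr
      (by rwa [closure_ball _ (inv_pos.2 h2R).ne', mem_closedBall_zero_iff])
  refine ⟨?_, fun z hz => ?_⟩
  · have h1 := hmx 0 (by simpa using (inv_pos.2 h2R).le)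
    rwa [k0, zero_sub, norm_neg] at h1
  · have h0 : z ≠ 0 := norm_pos_iff.1 (h2R.trans_le hz)
    have h1 := hmx z⁻¹ (by rw [norm_inv]; exact inv_anti₀ h2R hz)
    rwa [k1 _ (inv_ne_zero h0), inv_inv] at h1

theorem bd_all (hR : 0 < R) (hs : {z | R < ‖z‖} ⊆ Ω) (hd : DifferentiableOn ℂ f {z | R < ‖z‖})
    (hi : InjOn f Ω) (hn : Nm f) : ∀ z ∈ Ω, ‖f z - z‖ ≤ 100 * R := by
  have key : ∀ T : ℝ, R ≤ T → ∀ y ∈ Ω, ‖y‖ ≤ T →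
      ‖f y‖ ≤ 22 * T ∧ ∀ z, 2 * T ≤ ‖z‖ → ‖f z - z - f y‖ ≤ 22 * T := by
    intro T hT y hy hyT
    have h1 : {z : ℂ | T < ‖z‖} ⊆ {z | R < ‖z‖} := fun z hz => hT.trans_lt hz
    refine bd_core (hR.trans_le hT) (hd.mono h1) (hi.mono (h1.trans hs)) hn ?_
    rintro ⟨x, hx, e⟩
    have h2 := hi (hs (h1 hx)) hy e
    rw [h2] at hx
    exact not_lt.2 hyT hx
  intro z hz
  rcases le_total ‖z‖ (4 * R) with h | h
  · linarith [(key (4 * R) (by linarith) z hz h).1, norm_sub_le (f z) z]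
  · have h1 : ‖((2 * R : ℝ) : ℂ)‖ = 2 * R := by
      rw [norm_real, Real.norm_eq_abs, abs_of_pos (by positivity)]
    obtain ⟨h2, h3⟩ := key (2 * R) (by linarith) ((2 * R : ℝ) : ℂ)
      (hs (show R < ‖((2 * R : ℝ) : ℂ)‖ by linarith)) h1.le
    linarith [h3 z (by linarith), norm_le_insert' (f z - z) (f ((2 * R : ℝ) : ℂ))]

end Vale.Agent.P116.F
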