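import Vale.Agent.P116.F.Defs

/-! P116 F/Kq (task, block of helper24). Helper names start with `fkq_`.
Plan. `cov`: rescale to the unit disc, `F 0 = 0`, `F' 0 = a ≠ 0` (`P142.deriv_ne`; if `a = 0` the ball is empty). If `w` is omitted, `w F / (w - F)` is univalent with first derivative `a` and second derivative `F'' 0 + 2 a ^ 2 / w` at `0`; `P164.kb_disc` for both gives `2 ‖a‖ ^ 2 / ‖w‖ ≤ 20 ‖a‖`. `area_ge`: `cov`, `Complex.volume_ball`, `measure_mono`, `ENNReal.toReal_mono`, `3 ≤ π`.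
-/

open Metric Set Filter Function Topology Complex MeasureTheory
open scoped ComplexConjugate Real

noncomputable section

namespace Vale.Agent.P116.F

open Vale.Agent.P116.W

variable {ι : Type} [Fintype ι] {A B C : Cfg ι} {b r r' R : ℝ} {c c' p : ℂ} {S : Set ι} {j : ι}
  {m n : ℕ} {e f g g' G G' h : ℂ → ℂ} {K K' T Ω : Set ℂ}

theorem fkq_unit {F : ℂ → ℂ} (hd : DifferentiableOn ℂ F (ball 0 1)) (hi : InjOn F (ball 0 1))
    (h0 : F 0 = 0) {w : ℂ} (hw : ∀ u ∈ ball (0 : ℂ) 1, F u ≠ w) : ‖deriv F 0‖ ≤ 10 * ‖w‖ := by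
  have hz : (0 : ℂ) ∈ ball (0 : ℂ) 1 := mem_ball_self one_pos
  have hw0 : w ≠ 0 := fun h => hw 0 hz (by rw [h0, h])
  have hne : ∀ u ∈ ball (0 : ℂ) 1, w - F u ≠ 0 := fun u hu => sub_ne_zero.2 (hw u hu).symm
  set H : ℂ → ℂ := fun u => w ^ 2 / (w - F u) with hH
  have hHd : DifferentiableOn ℂ H (ball 0 1) :=
    (differentiableOn_const _).div ((differentiableOn_const _).sub hd) hne
  have hHi : InjOn H (ball 0 1) := by
    intro u hu v hv huv
    apply hi hu hv
    have h1 : w ^ 2 / (w - F u) = w ^ 2 / (w - F v) := huv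
    rw [div_eq_div_iff (hne u hu) (hne v hv)] at h1
    have h2 := mul_left_cancel₀ (pow_ne_zero 2 hw0) h1
    linear_combination h2
  have hFd : ∀ u ∈ ball (0 : ℂ) 1, HasDerivAt F (deriv F u) u := fun u hu =>
    (hd.differentiableAt (isOpen_ball.mem_nhds hu)).hasDerivAt
  have hH1 : ∀ u ∈ ball (0 : ℂ) 1, deriv H u = w ^ 2 * deriv F u / (w - F u) ^ 2 := by
    intro u hu
    have h1 : HasDerivAt H ((0 * (w - F u) - w ^ 2 * (0 - deriv F u)) / (w - F u) ^ 2) u :=
      (hasDerivAt_const u (w ^ 2)).div ((hasDerivAt_const u w).sub (hFd u hu)) (hne u hu)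
    rw [h1.deriv]
    ring
  have hF2 : HasDerivAt (deriv F) (deriv (deriv F) 0) 0 :=
    ((hd.deriv isOpen_ball).differentiableAt (isOpen_ball.mem_nhds hz)).hasDerivAt
  have hH2 : deriv (deriv H) 0 = deriv (deriv F) 0 + 2 * deriv F 0 ^ 2 / w := by
    have he : deriv H =ᶠ[𝓝 0] fun u => w ^ 2 * deriv F u / (w - F u) ^ 2 := by
      filter_upwards [isOpen_ball.mem_nhds hz] with u hu using hH1 u hu
    rw [he.deriv_eq]
    have hsq : HasDerivAt (fun u => (w - F u) ^ 2) (2 * (w - F 0) * (0 - deriv F 0)) 0 := by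
      have h3 : HasDerivAt (fun u => (w - F u) ^ 2)
          (((2 : ℕ) : ℂ) * (w - F 0) ^ (2 - 1) * (0 - deriv F 0)) 0 :=
        ((hasDerivAt_const (0 : ℂ) w).fun_sub (hFd 0 hz)).fun_pow 2
      refine h3.congr_deriv ?_
      norm_num
    have h1 : HasDerivAt (fun u => w ^ 2 * deriv F u / (w - F u) ^ 2)
        ((w ^ 2 * deriv (deriv F) 0 * (w - F 0) ^ 2 -
          w ^ 2 * deriv F 0 * (2 * (w - F 0) * (0 - deriv F 0))) / ((w - F 0) ^ 2) ^ 2) 0 :=
      (hF2.const_mul (w ^ 2)).div hsq (pow_ne_zero 2 (hne 0 hz))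
    rw [h1.deriv, h0, sub_zero]
    field_simp
    ring
  have hH0 : deriv H 0 = deriv F 0 := by
    rw [hH1 0 hz, h0, sub_zero]
    field_simp
  have k1 := Vale.Agent.P164.kb_disc hd hi
  have k2 := Vale.Agent.P164.kb_disc hHd hHi
  rw [hH2, hH0] at k2
  have k3 : ‖2 * deriv F 0 ^ 2 / w‖ ≤ 20 * ‖deriv F 0‖ := by
    have h4 : 2 * deriv F 0 ^ 2 / w =
        (deriv (deriv F) 0 + 2 * deriv F 0 ^ 2 / w) - deriv (deriv F) 0 := by ring
    rw [h4]
    refine (norm_sub_le _ _).trans ?_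
    linarith
  have hwp : 0 < ‖w‖ := norm_pos_iff.2 hw0
  rw [norm_div, norm_mul, norm_pow, div_le_iff₀ hwp] at k3
  have h2 : ‖(2 : ℂ)‖ = 2 := by simp
  rw [h2] at k3
  rcases (norm_nonneg (deriv F 0)).eq_or_lt with h5 | h5
  · rw [← h5]; positivity
  · nlinarith

theorem cov {z : ℂ} {δ : ℝ} (hδ : 0 < δ) (hd : DifferentiableOn ℂ f (ball z δ))
    (hi : InjOn f (ball z δ)) : ball (f z) (δ * ‖deriv f z‖ / 10) ⊆ f '' ball z δ := by
  intro y hy
  by_contra hny
  have hδc : (δ : ℂ) ≠ 0 := by exact_mod_cast hδ.ne'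
  have hmaps : ∀ u ∈ ball (0 : ℂ) 1, z + δ * u ∈ ball z δ := by
    intro u hu
    rw [mem_ball_zero_iff] at hu
    rw [mem_ball_iff_norm, add_sub_cancel_left, norm_mul, Complex.norm_real, Real.norm_eq_abs,
      abs_of_pos hδ]
    nlinarith
  set F : ℂ → ℂ := fun u => f (z + δ * u) - f z with hF
  have hl : ∀ u : ℂ, HasDerivAt (fun u : ℂ => z + δ * u) (δ : ℂ) u := fun u => by
    simpa using ((hasDerivAt_id u).const_mul (δ : ℂ)).const_add z
  have hFd : DifferentiableOn ℂ F (ball 0 1) := by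
    refine DifferentiableOn.sub_const ?_ _
    exact hd.comp (fun u _ => (hl u).differentiableAt.differentiableWithinAt) hmaps
  have hFi : InjOn F (ball 0 1) := by
    intro u hu v hv huv
    have h1 : f (z + δ * u) - f z = f (z + δ * v) - f z := huv
    have h2 := hi (hmaps u hu) (hmaps v hv) (sub_left_injective h1)
    exact mul_left_cancel₀ hδc (add_left_cancel h2)
  have hF0 : F 0 = 0 := by simp [hF]
  have hw : ∀ u ∈ ball (0 : ℂ) 1, F u ≠ y - f z := by
    intro u hu h1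
    have h2 : f (z + δ * u) - f z = y - f z := h1
    exact hny ⟨_, hmaps u hu, sub_left_injective h2⟩
  have hk := fkq_unit hFd hFi hF0 hw
  have hD : deriv F 0 = deriv f z * δ := by
    have h1 : HasDerivAt f (deriv f z) (z + δ * 0) := by
      rw [mul_zero, add_zero]
      exact (hd.differentiableAt (isOpen_ball.mem_nhds (mem_ball_self hδ))).hasDerivAt
    exact ((h1.comp 0 (hl 0)).sub_const (f z)).deriv
  rw [hD, norm_mul, Complex.norm_real, Real.norm_eq_abs, abs_of_pos hδ] at hk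
  rw [mem_ball_iff_norm] at hy
  linarith

theorem area_ge {z : ℂ} {δ : ℝ} (hδ : 0 < δ) (hd : DifferentiableOn ℂ f (ball z δ))
    (hi : InjOn f (ball z δ)) (hs : f '' ball z δ ⊆ Ω) (hΩ : volume Ω ≠ ⊤) :
    (δ * ‖deriv f z‖ / 10) ^ 2 ≤ (volume Ω).toReal := by
  have h1 : volume (ball (f z) (δ * ‖deriv f z‖ / 10)) ≤ volume Ω :=
    measure_mono ((cov hδ hd hi).trans hs)
  have h2 := ENNReal.toReal_mono hΩ h1
  have h0 : 0 ≤ δ * ‖deriv f z‖ / 10 := by positivity
  rw [Complex.volume_ball, ENNReal.toReal_mul, ENNReal.toReal_pow, ENNReal.toReal_ofReal h0,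
    ENNReal.coe_toReal, NNReal.coe_real_pi] at h2
  have h3 := Real.pi_gt_three
  nlinarith [sq_nonneg (δ * ‖deriv f z‖ / 10)]

end Vale.Agent.P116.F
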