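import Vale.Agent.P116.F.Cau
import Vale.Agent.P116.F.Kq

/-! P116 F/Bnd (task, block of helper24). Helper names start with `fbnd_`.
Plan. `ρ = (1 + b) / 2`, `δ = (b - 1) / 2`: `ball w δ ⊆ An 1 b` for `‖w‖ = ρ`. `area_ge` gives `‖e' w‖ ≤ 10 √a / δ`, `‖h' w‖ ≤ 10 √a' / δ` on the circle; along `θ ↦ h (circleMap 0 ρ θ)` the mean value inequality (`norm_image_sub_le_of_norm_deriv_le_segment'` or `Convex.norm_image_sub_le_of_norm_hasDerivWithin_le`) gives `‖h w - h ρ‖ ≤ 2 π ρ * 10 √a' / δ`; `cau_norm`, `√a √a' ≤ a + a'`.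
-/

open Metric Set Filter Function Topology Complex MeasureTheory
open scoped ComplexConjugate Real

noncomputable section

namespace Vale.Agent.P116.F

open Vale.Agent.P116.W

variable {ι : Type} [Fintype ι] {A B C : Cfg ι} {b r r' R : ℝ} {c c' p : ℂ} {S : Set ι} {j : ι}
  {m n : ℕ} {e f g g' G G' h : ℂ → ℂ} {K K' T Ω : Set ℂ}

theorem fbnd_ball {w : ℂ} (hw : ‖w‖ = (1 + b) / 2) : ball w ((b - 1) / 2) ⊆ An 1 b := by
  intro z hz
  have h1 := abs_lt.1 ((abs_norm_sub_norm_le z w).trans_lt (mem_ball_iff_norm.1 hz))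
  exact ⟨by linarith [h1.1], by linarith [h1.2]⟩

theorem fbnd_der (hb : 1 < b) (hd : DifferentiableOn ℂ f (An 1 b)) (hi : InjOn f (An 1 b))
    (hv : volume (f '' An 1 b) ≠ ⊤) {w : ℂ} (hw : ‖w‖ = (1 + b) / 2) :
    ‖deriv f w‖ ≤ 10 / ((b - 1) / 2) * √(volume (f '' An 1 b)).toReal := by
  have hδ : 0 < (b - 1) / 2 := by linarith
  have h1 := Real.le_sqrt_of_sq_le (area_ge hδ (hd.mono (fbnd_ball hw)) (hi.mono (fbnd_ball hw))
    (image_mono (fbnd_ball hw)) hv)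
  rw [div_mul_eq_mul_div, le_div_iff₀ hδ]
  linarith

theorem fbnd_osc (hb : 1 < b) (hd : DifferentiableOn ℂ f (An 1 b)) {M : ℝ}
    (hM : ∀ w : ℂ, ‖w‖ = (1 + b) / 2 → ‖deriv f w‖ ≤ M) {w : ℂ} (hw : ‖w‖ = (1 + b) / 2) :
    ‖f w - f ((1 + b) / 2 : ℝ)‖ ≤ M * ((1 + b) / 2) * (2 * π) := by
  have hρ : 0 < (1 + b) / 2 := by linarith
  have hn : ∀ θ, ‖circleMap 0 ((1 + b) / 2) θ‖ = (1 + b) / 2 := fun θ => by
    rw [norm_circleMap_zero, abs_of_pos hρ]
  have h0 : w ∈ sphere (0 : ℂ) |(1 + b) / 2| := by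
    rw [mem_sphere_zero_iff_norm, abs_of_pos hρ, hw]
  rw [← image_circleMap_Ioc] at h0
  obtain ⟨θ, hθ, rfl⟩ := h0
  have h1 : ∀ t : ℝ, HasDerivAt (f ∘ circleMap 0 ((1 + b) / 2))
      (deriv f (circleMap 0 ((1 + b) / 2) t) * (circleMap 0 ((1 + b) / 2) t * I)) t := fun t =>
    (hd.differentiableAt ((isOpen_An 1 b).mem_nhds
      ⟨by rw [hn]; linarith, by rw [hn]; linarith⟩)).hasDerivAt.comp t (hasDerivAt_circleMap _ _ t)
  have h2 := Convex.norm_image_sub_le_of_norm_hasDerivWithin_le (s := univ)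
    (C := M * ((1 + b) / 2)) (x := 0) (y := θ) (fun t _ => (h1 t).hasDerivWithinAt)
    (fun t _ => by
      rw [norm_mul, norm_mul, norm_I, mul_one, hn]
      exact mul_le_mul_of_nonneg_right (hM _ (hn t)) hρ.le) convex_univ (mem_univ _) (mem_univ _)
  have h3 : circleMap 0 ((1 + b) / 2) 0 = ((1 + b) / 2 : ℝ) := by simp [circleMap]
  rw [comp_apply, comp_apply, h3, sub_zero, Real.norm_of_nonneg hθ.1.le] at h2
  exact h2.trans (mul_le_mul_of_nonneg_left hθ.2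
    (mul_nonneg ((norm_nonneg _).trans (hM _ (hn 0))) hρ.le))

theorem cau_area (hb : 1 < b) : ∃ C : ℝ, 0 < C ∧ ∀ (e h : ℂ → ℂ) (z : ℂ) (d : ℝ),
    DifferentiableOn ℂ e (An 1 b) → InjOn e (An 1 b) → DifferentiableOn ℂ h (An 1 b) →
    InjOn h (An 1 b) → volume (e '' An 1 b) ≠ ⊤ → volume (h '' An 1 b) ≠ ⊤ → 0 < d →
    (∀ w ∈ An 1 b, d ≤ ‖e w - z‖) →
    ‖cau (fun ζ => h ζ - h ((1 + b) / 2 : ℝ)) e ((1 + b) / 2) z‖ * d ≤
      C * ((volume (e '' An 1 b)).toReal + (volume (h '' An 1 b)).toReal) := by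
  have hρ : 0 < (1 + b) / 2 := by linarith
  have hδ : 0 < (b - 1) / 2 := by linarith
  refine ⟨(1 + b) / 2 * (10 / ((b - 1) / 2) * ((1 + b) / 2) * (2 * π) * (10 / ((b - 1) / 2))),
    by positivity, fun e h z d he hei hh hhi hv hv' hd hz => ?_⟩
  have h1 := cau_norm (h := fun ζ => h ζ - h ((1 + b) / 2 : ℝ)) (e := e) (z := z)
    (M := 10 / ((b - 1) / 2) * √(volume (h '' An 1 b)).toReal * ((1 + b) / 2) * (2 * π) *
      (10 / ((b - 1) / 2) * √(volume (e '' An 1 b)).toReal)) hρ hd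
    (fun w hw => mul_le_mul
      (fbnd_osc hb hh (fun w hw => fbnd_der hb hh hhi hv' hw) (mem_sphere_zero_iff_norm.1 hw))
      (fbnd_der hb he hei hv (mem_sphere_zero_iff_norm.1 hw)) (norm_nonneg _) (by positivity))
    fun w hw => hz w ⟨by rw [mem_sphere_zero_iff_norm.1 hw]; linarith,
      by rw [mem_sphere_zero_iff_norm.1 hw]; linarith⟩
  rw [← mul_div_assoc, le_div_iff₀ hd] at h1
  refine h1.trans ?_
  have a1 := Real.sq_sqrt (ENNReal.toReal_nonneg (a := volume (e '' An 1 b)))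
  have a2 := Real.sq_sqrt (ENNReal.toReal_nonneg (a := volume (h '' An 1 b)))
  have a3 : √(volume (h '' An 1 b)).toReal * √(volume (e '' An 1 b)).toReal ≤
      (volume (e '' An 1 b)).toReal + (volume (h '' An 1 b)).toReal := by
    nlinarith [sq_nonneg (√(volume (h '' An 1 b)).toReal - √(volume (e '' An 1 b)).toReal)]
  refine le_trans (le_of_eq ?_) (mul_le_mul_of_nonneg_left a3 (by positivity))
  ring

end Vale.Agent.P116.F
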