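import Vale.Agent.P116.F.Defs

/-! P116 F/Cau (task, block of helper24). Helper names start with `fcau_`.
Plan. Copy `diff_four`, `lim_four` of W/Four (the curve is `e (circleMap 0 ρ θ)`, compact image). `cau_norm`: `circleIntegral.norm_two_pi_i_inv_smul_integral_le_of_norm_le_const`. `cau_jump`: `k w = h w * deriv e w / dslope e ζ w` is holomorphic on the annulus (`differentiableOn_dslope`; `dslope e ζ w ≠ 0` by injectivity and `P142.deriv_ne`), `k ζ = h ζ`, `jump_four`, and `(w - ζ)⁻¹ • k w = h w * deriv e w / (e w - e ζ)` on both circles (`circleIntegral.integral_congr`).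
-/

open Metric Set Filter Function Topology Complex MeasureTheory
open scoped ComplexConjugate Real

noncomputable section

namespace Vale.Agent.P116.F

open Vale.Agent.P116.W

variable {ι : Type} [Fintype ι] {A B C : Cfg ι} {b r r' R : ℝ} {c c' p : ℂ} {S : Set ι} {j : ι}
  {m n : ℕ} {e f g g' G G' h : ℂ → ℂ} {K K' T Ω : Set ℂ}

theorem fcau_sub {a ρ : ℝ} (h1 : a < ρ) (h2 : ρ < b) : sphere (0 : ℂ) ρ ⊆ An a b := fun w hw => by
  have : ‖w‖ = ρ := by simpa using hw
  exact ⟨this ▸ h1, this ▸ h2⟩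

theorem fcau_cd {a : ℝ} (he : DifferentiableOn ℂ e (An a b)) :
    DifferentiableOn ℂ (deriv e) (An a b) :=
  he.deriv (isOpen_An a b)

theorem cau_diff {a ρ : ℝ} (ha : 0 < a) (h1 : a < ρ) (h2 : ρ < b)
    (hh : DifferentiableOn ℂ h (An a b)) (he : DifferentiableOn ℂ e (An a b)) {z : ℂ}
    (hz : z ∉ e '' sphere 0 ρ) : DifferentiableAt ℂ (cau h e ρ) z := by
  have hr : 0 < ρ := ha.trans h1
  have hs := fcau_sub h1 h2
  have hm : ∀ θ, circleMap 0 ρ θ ∈ sphere (0 : ℂ) ρ := circleMap_mem_sphere 0 hr.le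
  have ec : Continuous fun θ => e (circleMap 0 ρ θ) :=
    (he.continuousOn.mono hs).comp_continuous (continuous_circleMap 0 ρ) hm
  set u : ℝ → ℂ := fun θ => deriv (circleMap 0 ρ) θ *
    (h (circleMap 0 ρ θ) * deriv e (circleMap 0 ρ θ)) with hu
  have gc : Continuous u := by
    refine Continuous.mul ?_ (((hh.continuousOn.mul (fcau_cd he).continuousOn).mono
      hs).comp_continuous (continuous_circleMap 0 ρ) hm)
    rw [show deriv (circleMap 0 ρ) = fun θ => circleMap 0 ρ θ * I from funext (deriv_circleMap 0 ρ)]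
    exact (continuous_circleMap 0 ρ).mul continuous_const
  have hc : IsClosed (e '' sphere 0 ρ) :=
    ((isCompact_sphere (0 : ℂ) ρ).image_of_continuousOn (he.continuousOn.mono hs)).isClosed
  obtain ⟨δ, δ0, hδ⟩ := Metric.isOpen_iff.1 hc.isOpen_compl z hz
  set ε := δ / 2 with hε
  have ε0 : 0 < ε := half_pos δ0
  have far : ∀ θ, ∀ x ∈ ball z ε, ε ≤ ‖e (circleMap 0 ρ θ) - x‖ := by
    intro θ x hx
    have k1 : δ ≤ dist (e (circleMap 0 ρ θ)) z :=
      not_lt.1 fun k => hδ (mem_ball.2 k) ⟨_, hm θ, rfl⟩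
    have k2 := dist_triangle (e (circleMap 0 ρ θ)) x z
    rw [mem_ball] at hx
    rw [← dist_eq_norm]
    linarith
  have ne : ∀ θ, ∀ x ∈ ball z ε, e (circleMap 0 ρ θ) - x ≠ 0 := fun θ x hx =>
    norm_pos_iff.1 (ε0.trans_le (far θ x hx))
  have ci : ∀ x ∈ ball z ε, Continuous fun θ => (e (circleMap 0 ρ θ) - x)⁻¹ := fun x hx =>
    (ec.sub continuous_const).inv₀ fun θ => ne θ x hx
  have key := intervalIntegral.hasDerivAt_integral_of_dominated_loc_of_deriv_le
    (μ := MeasureTheory.volume) (a := 0) (b := 2 * π)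
    (F := fun x θ => (e (circleMap 0 ρ θ) - x)⁻¹ * u θ)
    (F' := fun x θ => (e (circleMap 0 ρ θ) - x)⁻¹ ^ 2 * u θ) (bound := fun θ => ε⁻¹ ^ 2 * ‖u θ‖)
    (ball_mem_nhds z ε0)
    (by
      filter_upwards [ball_mem_nhds z ε0] with x hx
      exact ((ci x hx).mul gc).aestronglyMeasurable)
    (((ci z (mem_ball_self ε0)).mul gc).intervalIntegrable _ _)
    (((ci z (mem_ball_self ε0)).pow 2).mul gc).aestronglyMeasurable
    (Eventually.of_forall fun θ _ x hx => by
      rw [norm_mul, norm_pow, norm_inv]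
      gcongr
      exact far θ x hx)
    ((continuous_const.mul gc.norm).intervalIntegrable _ _)
    (Eventually.of_forall fun θ _ x hx => by
      have k := (((hasDerivAt_id x).const_sub (e (circleMap 0 ρ θ))).inv (ne θ x hx)).mul_const (u θ)
      refine k.congr_deriv ?_
      simp only [id, neg_neg, one_div, inv_pow])
  have eq : cau h e ρ = fun x => (2 * π * I : ℂ)⁻¹ •
      ∫ θ in (0 : ℝ)..2 * π, (e (circleMap 0 ρ θ) - x)⁻¹ * u θ := by
    funext x
    unfold cau circleIntegral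
    congr 2
    funext θ
    simp only [hu, smul_eq_mul]
    ring
  rw [eq]
  exact key.2.differentiableAt.fun_const_smul _

theorem cau_norm {ρ M d : ℝ} (hρ : 0 < ρ) (hd : 0 < d) {z : ℂ}
    (h1 : ∀ w ∈ sphere (0 : ℂ) ρ, ‖h w‖ * ‖deriv e w‖ ≤ M)
    (h2 : ∀ w ∈ sphere (0 : ℂ) ρ, d ≤ ‖e w - z‖) : ‖cau h e ρ z‖ ≤ ρ * (M / d) := by
  refine circleIntegral.norm_two_pi_i_inv_smul_integral_le_of_norm_le_const hρ.le fun w hw => ?_
  rw [norm_div, norm_mul]
  exact div_le_div₀ ((mul_nonneg (norm_nonneg _) (norm_nonneg _)).trans (h1 w hw)) (h1 w hw) hd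
    (h2 w hw)

theorem cau_lim {a ρ : ℝ} (ha : 0 < a) (h1 : a < ρ) (h2 : ρ < b)
    (hh : DifferentiableOn ℂ h (An a b)) (he : DifferentiableOn ℂ e (An a b)) :
    Tendsto (cau h e ρ) (cocompact ℂ) (𝓝 0) := by
  have hs := fcau_sub h1 h2
  obtain ⟨M, hM⟩ := (isCompact_sphere (0 : ℂ) ρ).exists_bound_of_continuousOn
    ((hh.continuousOn.mul (fcau_cd he).continuousOn).mono hs)
  obtain ⟨L, hL⟩ := (isCompact_sphere (0 : ℂ) ρ).exists_bound_of_continuousOn
    (he.continuousOn.mono hs)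
  have t0 : Tendsto (fun z : ℂ => ‖z‖ - L) (cocompact ℂ) atTop :=
    tendsto_atTop_add_const_right _ (-L) tendsto_norm_cocompact_atTop
  have t1 : Tendsto (fun z : ℂ => ρ * (M / (‖z‖ - L))) (cocompact ℂ) (𝓝 (ρ * 0)) :=
    (t0.const_div_atTop M).const_mul ρ
  rw [mul_zero] at t1
  refine squeeze_zero_norm' ?_ t1
  filter_upwards [t0.eventually_gt_atTop 0] with z hz
  refine cau_norm (ha.trans h1) hz (fun w hw => ?_) fun w hw => ?_
  · rw [← norm_mul]
    exact hM w hw
  · have k1 := norm_sub_norm_le z (e w)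
    rw [norm_sub_rev] at k1
    linarith [hL w hw]

theorem cau_jump {a ρ ρ' : ℝ} (ha : 0 < a) (h1 : a < ρ) (h2 : ρ' < b)
    (hh : DifferentiableOn ℂ h (An a b)) (he : DifferentiableOn ℂ e (An a b))
    (hi : InjOn e (An a b)) {ζ : ℂ} (h3 : ρ < ‖ζ‖) (h4 : ‖ζ‖ < ρ') :
    h ζ = cau h e ρ' (e ζ) - cau h e ρ (e ζ) := by
  have hζ : ζ ∈ An a b := ⟨h1.trans h3, h4.trans h2⟩
  have d0 : deriv e ζ ≠ 0 := Vale.Agent.P142.deriv_ne (isOpen_An a b) he hi hζ
  have ne : ∀ w ∈ An a b, dslope e ζ w ≠ 0 := fun w hw => by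
    rcases eq_or_ne w ζ with rfl | k
    · rwa [dslope_same]
    · rw [dslope_of_ne _ k, slope_def_field]
      exact div_ne_zero (sub_ne_zero.2 fun k' => k (hi hw hζ k')) (sub_ne_zero.2 k)
  have hk : DifferentiableOn ℂ (fun w => h w * deriv e w / dslope e ζ w) (An a b) :=
    (hh.mul (fcau_cd he)).div
      ((differentiableOn_dslope ((isOpen_An a b).mem_nhds hζ)).2 he) ne
  have k1 := jump_four ha hk h1 h2 h3 h4
  have k2 : ∀ s, 0 ≤ s → s ≠ ‖ζ‖ →
      cau_four (fun w => h w * deriv e w / dslope e ζ w) s ζ = cau h e s (e ζ) := by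
    intro s s0 s1
    unfold cau_four cau
    congr 1
    refine circleIntegral.integral_congr s0 fun w hw => ?_
    have k : w ≠ ζ := fun k => s1 (by rw [← k]; simpa using hw.symm)
    have k' : w - ζ ≠ 0 := sub_ne_zero.2 k
    simp only [dslope_of_ne _ k, slope_def_field, smul_eq_mul]
    rw [div_div_eq_mul_div, mul_div_assoc', mul_comm (h w * deriv e w), inv_mul_cancel_left₀ k']
  rw [k2 ρ' ((norm_nonneg ζ).trans h4.le) h4.ne', k2 ρ (ha.trans h1).le h3.ne] at k1
  rw [← k1]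
  simp only [dslope_same]
  rw [mul_div_cancel_right₀ _ d0]

end Vale.Agent.P116.F
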