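import Vale.Agent.P116.F.Lay

/-! P116 F/Cf (task, block of helper24). Helper names start with `fcf_`.
Plan. Set algebra with `Ok.dis`, `End.dis`. `TrD.N_sub`: `T l ⊆ A.K l`, `T j = ∅`. `TrD.img_N`: `img`, `col`. `TrD.lv`: `A.D ⊆ (⋃ T)ᶜ`, `eq`, `Nm.congr`. `Lv.bound`: points of `B.N b l` are omitted by `f` on `R < ‖z‖` (`ext`, `col`, `inj`), `bd_core`.
-/

open Metric Set Filter Function Topology Complex MeasureTheory
open scoped ComplexConjugate Real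

noncomputable section

namespace Vale.Agent.P116.F

open Vale.Agent.P116.W

variable {ι : Type} [Fintype ι] {A B C : Cfg ι} {b r r' R : ℝ} {c c' p : ℂ} {S : Set ι} {j : ι}
  {m n : ℕ} {e f g g' G G' h : ℂ → ℂ} {K K' T Ω : Set ℂ}

theorem Cfg.Ok.col_sub (h : A.Ok b) (l : ι) : A.e l '' An 1 b ⊆ A.D := by
  intro z hz hk
  obtain ⟨i, hi⟩ := mem_iUnion.1 hk
  by_cases e : i = l
  · subst e
    exact Set.disjoint_left.1 (h.en i).dis hi hz
  · exact Set.disjoint_left.1 (h.dis e) (Or.inl hi) (Or.inr hz)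

theorem Cfg.Ok.open_N (h : A.Ok b) (l : ι) : IsOpen (A.N b l) := by
  exact (h.en l).op b (h.en l).lt le_rfl

theorem Cfg.Ok.cpt (h : A.Ok b) : IsCompact (⋃ l, A.K l) := by
  exact isCompact_iUnion fun l => (h.en l).isCompact

theorem Cfg.Ok.open_D (h : A.Ok b) : IsOpen A.D := by
  exact h.cpt.isClosed.isOpen_compl

theorem Cfg.Ok.ball (h : A.Ok b) : ∃ R, 0 < R ∧ ∀ l, A.N b l ⊆ ball 0 R := by
  obtain ⟨R, h1, h2⟩ := (Bornology.isBounded_iUnion.2 h.bd).subset_ball_lt 0 0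
  exact ⟨R, h1, fun l => (subset_iUnion _ l).trans h2⟩

theorem Cfg.Ok.compl (h : A.Ok b) (j : ι) : (A.K j)ᶜ = A.D ∪ ⋃ l ∈ {l | l ≠ j}, A.K l := by
  ext z
  constructor
  · intro hz
    by_cases hk : z ∈ ⋃ l, A.K l
    · obtain ⟨l, hl⟩ := mem_iUnion.1 hk
      exact Or.inr (mem_iUnion₂.2 ⟨l, fun e => hz (e ▸ hl), hl⟩)
    · exact Or.inl hk
  · rintro (hz | hz) hj
    · exact hz (mem_iUnion.2 ⟨j, hj⟩)
    · obtain ⟨l, h1, h2⟩ := mem_iUnion₂.1 hz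
      exact Set.disjoint_left.1 (h.dis h1) (Or.inl h2) (Or.inl hj)

theorem TrD.N_sub {T : ι → Set ℂ} (hA : A.Ok b) (h : TrD A B b S m g T G) (hj : j ∉ S) :
    A.N b j ⊆ (⋃ l, T l)ᶜ := by
  intro z hz hk
  obtain ⟨l, hl⟩ := mem_iUnion.1 hk
  by_cases e : l = j
  · rw [e, h.emp j hj] at hl
    exact hl
  · exact Set.disjoint_left.1 (hA.dis e) (Or.inl (h.sub l hl)) hz

theorem TrD.img_N {T : ι → Set ℂ} (h : TrD A B b S m g T G) (hj : j ∉ S) :
    G '' A.N b j = B.N b j := by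
  rw [Cfg.N, Cfg.N, image_union, h.img j hj, ← image_comp, (h.col j).image_eq]

theorem TrD.img_compl {T : ι → Set ℂ} (hA : A.Ok b) (hB : B.Ok b) (h : TrD A B b {j} m g T G) :
    (A.K j)ᶜ ⊆ (⋃ l, T l)ᶜ ∧ G '' (A.K j)ᶜ = (B.K j)ᶜ := by
  refine ⟨fun z hz hk => ?_, ?_⟩
  · obtain ⟨l, hl⟩ := mem_iUnion.1 hk
    by_cases e : l = j
    · exact hz (e ▸ h.sub l hl)
    · rw [h.emp l e] at hl
      exact hl
  · rw [hA.compl j, hB.compl j, image_union, h.ext, image_iUnion₂]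
    exact congrArg _ (iUnion₂_congr fun l hl => h.img l hl)

theorem Tr.lv (hA : A.Ok b) (h : Tr A B b S m g) : Lv A B b g := by
  obtain ⟨T, G, h⟩ := h
  have hs : A.D ⊆ (⋃ l, T l)ᶜ := compl_subset_compl.2 (iUnion_mono h.sub)
  exact ⟨(h.hol.mono hs).congr fun z hz => (h.eq hz).symm, (h.inj.mono hs).congr h.eq,
    h.nm.congr hA.cpt.isBounded h.eq,
    fun l z hz => (h.col l hz).trans (h.eq (hA.col_sub l ⟨z, hz, rfl⟩)),
    h.eq.image_eq.symm.trans h.ext⟩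

theorem lv_refl : Lv A A b id := by
  exact ⟨differentiableOn_id, injOn_id _, nm_id, fun _ _ _ => rfl, image_id _⟩

theorem Lv.comp (h : Lv A B b f) (h' : Lv B C b g) : Lv A C b (g ∘ f) := by
  have hm : MapsTo f A.D B.D := fun z hz => h.ext ▸ mem_image_of_mem f hz
  refine ⟨h'.hol.comp h.hol hm, h'.inj.comp h.inj hm, h'.nm.comp h.nm, fun l z hz => ?_, ?_⟩
  · exact (h'.col l hz).trans (congrArg g (h.col l hz))
  · rw [image_comp, h.ext, h'.ext]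

theorem tr_refl : Tr A A b ∅ m id := by
  exact ⟨fun _ => ∅, id, fun _ => isCompact_empty, fun _ => empty_subset _, fun _ _ => rfl,
    fun _ => lay_empty, differentiableOn_id, injOn_id _, nm_id, fun _ _ _ => rfl,
    fun _ _ => image_id _, fun _ => (image_id _).subset.trans sdiff_subset, image_id _,
    fun _ _ => rfl⟩

theorem Tr.anti (h : Tr A B b S m g) (hn : n ≤ m) : Tr A B b S n g := by
  obtain ⟨T, G, h⟩ := h
  exact ⟨T, G, { h with lay := fun l => (h.lay l).anti hn }⟩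

theorem Lv.bound (hA : A.Ok b) (h : Lv A B b f) (hR : 0 < R) (hs : ∀ l, A.N b l ⊆ ball 0 R) :
    (∀ l, B.N b l ⊆ ball 0 (23 * R)) ∧ ∀ z ∈ A.D, ‖f z - z‖ ≤ 100 * R := by
  have h1 : {z : ℂ | R < ‖z‖} ⊆ A.D := fun z hz hk => by
    obtain ⟨l, hl⟩ := mem_iUnion.1 hk
    exact lt_asymm hz (mem_ball_zero_iff.1 (hs l (Or.inl hl)))
  refine ⟨fun l w hw => ?_, bd_all hR h1 (h.hol.mono h1) h.inj h.nm⟩
  have h2 : w ∉ f '' {z : ℂ | R < ‖z‖} := by
    rintro ⟨z, hz, rfl⟩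
    rcases hw with hw | ⟨u, hu, hw⟩
    · have h3 : f z ∈ B.D := h.ext ▸ mem_image_of_mem f (h1 hz)
      exact h3 (mem_iUnion.2 ⟨l, hw⟩)
    · have h3 := h.inj (hA.col_sub l ⟨u, hu, rfl⟩) (h1 hz) ((h.col l hu).symm.trans hw)
      have h4 := mem_ball_zero_iff.1 (hs l (Or.inr ⟨u, hu, h3⟩))
      exact lt_asymm hz h4
  have h3 := (bd_core hR (h.hol.mono h1) (h.inj.mono h1) h.nm h2).1
  exact mem_ball_zero_iff.2 (by linarith)

end Vale.Agent.P116.F
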