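import Vale.Agent.P116.F.One
import Vale.Agent.P116.F.Bnd

/-! P116 F/Est (task, block of helper24). Helper names start with `fest_`.
Plan. For each level `l < m` apply `one_level` to the subtype `lv i = l` (`T ⊆ ⋃ K i` by `cov`) with `w i = G (e i ρ)`, and `cau_area` with `d = R`. Sum over the levels (`Finset.sum_fiberwise_of_maps_to` or `Finset.sum_sigma`): `m ‖G z - z‖ R ≤ C ∑ i (vol (e i An) + vol (G (e i An)))`. Both families are open (`open_image`), pairwise disjoint, inside `ball 0 R`: `measure_iUnion` or `sum_measure_le_measure_univ` style (`measure_biUnion_finset`), `Complex.volume_ball`.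
-/

open Metric Set Filter Function Topology Complex MeasureTheory
open scoped ComplexConjugate Real

noncomputable section

namespace Vale.Agent.P116.F

open Vale.Agent.P116.W

variable {ι : Type} [Fintype ι] {A B C : Cfg ι} {b r r' R : ℝ} {c c' p : ℂ} {S : Set ι} {j : ι}
  {m n : ℕ} {e f g g' G G' h : ℂ → ℂ} {K K' T Ω : Set ℂ}

theorem sum_vol {κ : Type} [Fintype κ] {U : κ → Set ℂ} (hR : 0 < R) (ho : ∀ i, IsOpen (U i))
    (hd : Pairwise fun i i' => Disjoint (U i) (U i')) (hs : ∀ i, U i ⊆ ball 0 R) :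
    ∑ i, (volume (U i)).toReal ≤ π * R ^ 2 := by
  have hf : ∀ i, volume (U i) ≠ ⊤ := fun i =>
    ((measure_mono (hs i)).trans_lt measure_ball_lt_top).ne
  have h1 : ∑ i, volume (U i) ≤ volume (ball (0 : ℂ) R) := by
    rw [← tsum_fintype (L := SummationFilter.unconditional κ),
      ← measure_iUnion hd fun i => (ho i).measurableSet]
    exact measure_mono (iUnion_subset hs)
  rw [← ENNReal.toReal_sum fun i _ => hf i]
  refine (ENNReal.toReal_mono measure_ball_lt_top.ne h1).trans (le_of_eq ?_)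
  rw [Complex.volume_ball, ENNReal.toReal_mul, ENNReal.toReal_pow, ENNReal.toReal_ofReal hR.le,
    ENNReal.coe_toReal, NNReal.coe_real_pi, mul_comm]

theorem est (hb : 1 < b) : ∃ C : ℝ, 0 < C ∧ ∀ (m : ℕ) (T Ω : Set ℂ) (G : ℂ → ℂ) (R : ℝ),
    Lay b m T Ω → DifferentiableOn ℂ G Tᶜ → InjOn G Tᶜ → Nm G → 0 < R → Ω ⊆ ball 0 R →
    G '' (Ω \ T) ⊆ ball 0 R → ∀ z, 2 * R ≤ ‖z‖ → m * ‖G z - z‖ ≤ C * R := by
  obtain ⟨C, hC, hA⟩ := cau_area hb
  refine ⟨2 * π * C, by positivity, ?_⟩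
  rintro m T Ω G R ⟨κ, _, lv, K, e, L⟩ hG hi hn hR hΩ hGΩ z hz
  classical
  have hmap : ∀ i, MapsTo (e i) (An 1 b) Tᶜ := fun i w hw hT =>
    disjoint_left.1 (L.off i) (mem_image_of_mem _ hw) hT
  have hd : ∀ i, DifferentiableOn ℂ (G ∘ e i) (An 1 b) := fun i =>
    hG.comp (L.en i).hol (hmap i)
  have hj : ∀ i, InjOn (G ∘ e i) (An 1 b) := fun i => hi.comp (L.en i).inj (hmap i)
  have hs1 : ∀ i, e i '' An 1 b ⊆ ball 0 R := fun i w hw => hΩ (L.mem i (Or.inr hw))
  have hs2 : ∀ i, (G ∘ e i) '' An 1 b ⊆ ball 0 R := by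
    rintro i _ ⟨w, hw, rfl⟩
    exact hGΩ ⟨e i w, ⟨L.mem i (Or.inr (mem_image_of_mem _ hw)), hmap i hw⟩, rfl⟩
  have hv1 : ∑ i, (volume (e i '' An 1 b)).toReal ≤ π * R ^ 2 :=
    sum_vol hR (fun i => open_image (isOpen_An 1 b) (L.en i).hol (L.en i).inj (isOpen_An 1 b)
      subset_rfl) L.col hs1
  have hv2 : ∑ i, (volume ((G ∘ e i) '' An 1 b)).toReal ≤ π * R ^ 2 := by
    refine sum_vol hR (fun i => open_image (isOpen_An 1 b) (hd i) (hj i) (isOpen_An 1 b)
      subset_rfl) ?_ hs2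
    intro i i' hii
    refine disjoint_left.2 ?_
    rintro _ ⟨w, hw, rfl⟩ ⟨w', hw', h⟩
    have h1 : e i' w' = e i w := hi (hmap i' hw') (hmap i hw) h
    exact disjoint_left.1 (L.col hii) (mem_image_of_mem _ hw) ⟨w', hw', h1⟩
  have hzn : ∀ i, z ∉ K i ∪ e i '' An 1 b := by
    intro i h
    have h1 := hΩ (L.mem i h)
    rw [mem_ball_zero_iff] at h1
    linarith
  have hone : ∀ i, ‖cau (fun ζ => G (e i ζ) - G (e i ((1 + b) / 2 : ℝ))) (e i) ((1 + b) / 2) z‖ * R
      ≤ C * ((volume (e i '' An 1 b)).toReal + (volume ((G ∘ e i) '' An 1 b)).toReal) := by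
    intro i
    refine hA (e i) (G ∘ e i) z R (L.en i).hol (L.en i).inj (hd i) (hj i)
      ((measure_mono (hs1 i)).trans_lt measure_ball_lt_top).ne
      ((measure_mono (hs2 i)).trans_lt measure_ball_lt_top).ne hR ?_
    intro w hw
    have h1 := hs1 i (mem_image_of_mem _ hw)
    rw [mem_ball_zero_iff] at h1
    have h2 := norm_sub_norm_le z (e i w)
    rw [norm_sub_rev] at h2
    linarith
  have hlev : ∀ l ∈ Finset.range m, ‖G z - z‖ * R ≤ ∑ i ∈ Finset.univ.filter fun i => lv i = l,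
      C * ((volume (e i '' An 1 b)).toReal + (volume ((G ∘ e i) '' An 1 b)).toReal) := by
    intro l hl
    have h1 := one_level (κ := {i // lv i = l}) (K := fun i => K i.1) (e := fun i => e i.1)
      (G := G) (b := b) (fun i => L.en i.1)
      (fun i i' h => L.dis i.1 i'.1 (fun h' => h (Subtype.ext h')) (i.2.trans i'.2.symm))
      (hG.mono (compl_subset_compl.2 fun x hx => by
        obtain ⟨i, h1, h2⟩ := L.cov l (Finset.mem_range.1 hl) x hx
        exact mem_iUnion.2 ⟨⟨i, h1⟩, h2⟩)) hn (fun i => G (e i.1 ((1 + b) / 2 : ℝ)))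
      (ρ := (1 + b) / 2) (by linarith) (by linarith) (z := z) (fun i => hzn i.1)
    rw [h1, norm_neg, Finset.sum_subtype (p := fun i => lv i = l) _ (by simp)]
    refine (mul_le_mul_of_nonneg_right (norm_sum_le _ _) hR.le).trans ?_
    rw [Finset.sum_mul]
    exact Finset.sum_le_sum fun i _ => hone i.1
  have h2 := Finset.sum_le_sum hlev
  rw [Finset.sum_fiberwise_of_maps_to (fun i _ => Finset.mem_range.2 (L.lt i)), Finset.sum_const,
    Finset.card_range, nsmul_eq_mul, ← Finset.mul_sum, Finset.sum_add_distrib] at h2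
  have h3 : (m : ℝ) * ‖G z - z‖ * R ≤ 2 * π * C * R * R := by
    have h4 := mul_le_mul_of_nonneg_left (add_le_add hv1 hv2) hC.le
    nlinarith
  exact le_of_mul_le_mul_right h3 hR

end Vale.Agent.P116.F
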