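import Vale.Agent.P116.F.Seq
import Vale.Agent.P116.F.Est

/-! P116 F/Cls (task, block of helper24). Helper names start with `fcls_`.
Plan. `Cfg.Ok.ball` for `B 0` gives `R₀`, `Lv.bound` gives `R = 23 R₀` for all `B k`. `It.depth` with `m = k / n`; `⋃ T = T j` (`emp`), `G (N j \\ T j) ⊆ (B (k + 1)).N b j` (`mem`, `col`); `est`. For `‖z‖ ≥ 146 R₀` we have `‖f k z‖ ≥ 2 R`, `f k z ∈ (B k).D`, so `(k / n) ‖f (k + 1) z - f k z‖ ≤ C R` (`eq`, `succ`), and `k / n → ∞`.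
-/

open Metric Set Filter Function Topology Complex MeasureTheory
open scoped ComplexConjugate Real

noncomputable section

namespace Vale.Agent.P116.F

open Vale.Agent.P116.W

variable {ι : Type} [Fintype ι] {A B C : Cfg ι} {b r r' R : ℝ} {c c' p : ℂ} {S : Set ι} {j : ι}
  {m n : ℕ} {e f g g' G G' h : ℂ → ℂ} {K K' T Ω : Set ℂ}

theorem It.close {J : ℕ → ι} {B : ℕ → Cfg ι} {g f : ℕ → ℂ → ℂ} {c : ℕ → ℂ} {r : ℕ → ℝ}
    (hb : 1 < b) (h : It b J B g f c r) (hJ : Cyc n J) : ∃ R₁ : ℝ, ∀ z, R₁ ≤ ‖z‖ →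
      Tendsto (fun k => f (k + 1) z - f k z) atTop (𝓝 0) := by
  obtain ⟨R₀, hR, hs⟩ := (h.ok 0).ball
  obtain ⟨C, hC, he⟩ := est hb
  refine ⟨146 * R₀, fun z hz => ?_⟩
  have hD : z ∈ (B 0).D := fun hz' => by
    obtain ⟨l, hl⟩ := mem_iUnion.1 hz'
    have := mem_ball_zero_iff.1 (hs l (Or.inl hl))
    linarith
  have key : ∀ k, ((k / n : ℕ) : ℝ) * ‖f (k + 1) z - f k z‖ ≤ C * (23 * R₀) := fun k => by
    obtain ⟨T, G, hT⟩ := h.depth hJ (k / n) k (Nat.div_mul_le_self k n)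
    have h1 : ⋃ l, T l = T (J (k + 1)) := by
      refine Subset.antisymm (iUnion_subset fun l => ?_) (subset_iUnion _ _)
      rcases eq_or_ne l (J (k + 1)) with rfl | hl
      · exact Subset.rfl
      · rw [hT.emp l hl]
        exact empty_subset _
    have h2 := ((h.lv k).bound (h.ok 0) hR hs).2 z hD
    have h3 : f k z ∈ (B k).D := (h.lv k).ext ▸ mem_image_of_mem _ hD
    rw [h.succ, comp_apply, ← hT.eq h3]
    refine he _ _ _ G _ (hT.lay (J (k + 1))) (h1 ▸ hT.hol) (h1 ▸ hT.inj) hT.nm (by positivity)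
      (((h.lv k).bound (h.ok 0) hR hs).1 _)
      (Subset.trans ?_ (((h.lv (k + 1)).bound (h.ok 0) hR hs).1 (J (k + 1)))) _ ?_
    · rintro _ ⟨w, ⟨hw | ⟨u, hu, rfl⟩, hw'⟩, rfl⟩
      · exact Or.inl (hT.mem _ ⟨w, ⟨hw, hw'⟩, rfl⟩)
      · exact Or.inr ⟨u, hu, hT.col _ hu⟩
    · have := norm_sub_norm_le z (f k z)
      rw [norm_sub_rev] at this
      linarith
  have hn : Tendsto (fun k : ℕ => ((k / n : ℕ) : ℝ)) atTop atTop :=
    tendsto_natCast_atTop_atTop.comp (Nat.tendsto_div_const_atTop hJ.pos.ne')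
  refine squeeze_zero_norm' ?_ (hn.const_div_atTop (C * (23 * R₀)))
  filter_upwards [hn.eventually_gt_atTop 0] with k hk
  rw [le_div_iff₀' hk]
  exact key k

end Vale.Agent.P116.F
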