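import Vale.Agent.P116.F.Cf

/-! P116 F/Comp (task, block of helper24). Helper names start with `fcomp_`.
Plan. New holes: `T'' j = invFunOn G (A.N b j) (T' j)`, `T'' l = T l` else; the map is `G' ∘ G`. `G` maps `A.N b j` bijectively onto `B.N b j` (`TrD.N_sub`, `TrD.img_N`), `inv_hol`, `Lay.map` for the inverse. If `z` is outside the new holes then `G z ∉ T' j` (else `G z ∈ B.K j = G (A.K j)`, injectivity), and `T' l = ∅` for `l ≠ j`.
-/

open Metric Set Filter Function Topology Complex MeasureTheory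
open scoped ComplexConjugate Real

noncomputable section

namespace Vale.Agent.P116.F

open Vale.Agent.P116.W

variable {ι : Type} [Fintype ι] {A B C : Cfg ι} {b r r' R : ℝ} {c c' p : ℂ} {S : Set ι} {j : ι}
  {m n : ℕ} {e f g g' G G' h : ℂ → ℂ} {K K' T Ω : Set ℂ}

theorem Tr.comp (hA : A.Ok b) (hB : B.Ok b) (h : Tr A B b S m g) (h' : Tr B C b {j} m g')
    (hj : j ∉ S) : Tr A C b (insert j S) m (g' ∘ g) := by
  classical
  obtain ⟨T, G, h⟩ := h
  obtain ⟨T', G', h'⟩ := h'
  have hN := h.N_sub hA hj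
  have GN := h.img_N hj
  have Gi : InjOn G (A.N b j) := h.inj.mono hN
  have KN : A.K j ⊆ A.N b j := subset_union_left
  have ψd := inv_hol (hA.open_N j) (h.hol.mono hN) Gi
  have ψi := invFunOn_injOn_image G (A.N b j)
  have ψN := Gi.invFunOn_image subset_rfl
  have ψK := Gi.invFunOn_image KN
  rw [GN] at ψd ψi ψN
  rw [h.img j hj] at ψK
  have e' : ∀ l, l ≠ j → T' l = ∅ := fun l hl => h'.emp l hl
  have back : ∀ z ∈ A.N b j, G z ∈ T' j → z ∈ invFunOn G (A.N b j) '' T' j := fun z hz hz' =>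
    ⟨G z, hz', Gi.leftInvOn_invFunOn hz⟩
  set U : ι → Set ℂ := update T j (invFunOn G (A.N b j) '' T' j) with hU
  have Uj : U j = invFunOn G (A.N b j) '' T' j := update_self _ _ _
  have Ul : ∀ l, l ≠ j → U l = T l := fun l hl => update_of_ne hl _ _
  have TU : ∀ l, T l ⊆ U l := fun l => by
    by_cases hl : l = j
    · rw [hl, h.emp j hj]
      exact empty_subset _
    · rw [Ul l hl]
  have k1 : (⋃ l, U l)ᶜ ⊆ (⋃ l, T l)ᶜ := compl_subset_compl.2 (iUnion_mono TU)
  have k2 : MapsTo G (⋃ l, U l)ᶜ (⋃ l, T' l)ᶜ := by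
    intro z hz hz'
    obtain ⟨l, hl⟩ := mem_iUnion.1 hz'
    by_cases e : l = j
    · rw [e] at hl
      obtain ⟨x, hx, hx'⟩ := (h.img j hj).symm.subset (h'.sub j hl)
      have : x = z := h.inj (hN (KN hx)) (k1 hz) hx'
      exact hz (mem_iUnion.2 ⟨j, Uj ▸ back z (this ▸ KN hx) hl⟩)
    · rw [e' l e] at hl
      exact hl
  refine ⟨U, G' ∘ G, fun l => ?_, fun l => ?_, fun l hl => ?_, fun l => ?_,
    h'.hol.comp (h.hol.mono k1) k2, h'.inj.comp (h.inj.mono k1) k2, h'.nm.comp h.nm,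
    fun l z hz => ?_, fun l hl => ?_, fun l => ?_, ?_, fun z hz => ?_⟩
  · by_cases e : l = j
    · rw [e, Uj]
      exact (h'.cpt j).image_of_continuousOn
        (ψd.continuousOn.mono ((h'.sub j).trans subset_union_left))
    · rw [Ul l e]
      exact h.cpt l
  · by_cases e : l = j
    · rw [e, Uj, ← ψK]
      exact image_mono (h'.sub j)
    · rw [Ul l e]
      exact h.sub l
  · rw [mem_insert_iff, not_or] at hl
    rw [Ul l hl.1, h.emp l hl.2]
  · by_cases e : l = j
    · have := (h'.lay j).map ψd ψi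
      rwa [ψN, ← Uj, ← e] at this
    · rw [Ul l e]
      exact h.lay l
  · rw [h'.col l hz, comp_apply, h.col l hz]
    rfl
  · rw [mem_insert_iff, not_or] at hl
    rw [image_comp, h.img l hl.2, h'.img l hl.1]
  · rintro _ ⟨z, hz, rfl⟩
    refine h'.mem l ⟨G z, ⟨h.mem l ⟨z, ⟨hz.1, fun k => hz.2 (TU l k)⟩, rfl⟩, fun k => ?_⟩, rfl⟩
    by_cases e : l = j
    · rw [e] at hz k
      exact hz.2 (Uj ▸ back z (KN hz.1) k)
    · rw [e' l e] at k
      exact k
  · rw [image_comp, h.ext, h'.ext]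
  · rw [comp_apply, comp_apply, h'.eq (h.ext.subset ⟨z, hz, rfl⟩), h.eq hz]

end Vale.Agent.P116.F
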