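import Vale.Agent.P116.T.Pl
import Vale.Agent.P116.W.Weld
import Vale.Agent.P164.Univ

/-! P116 F/Defs (owner helper24, no task): definitions for the Koebe iteration.
-/

open Metric Set Filter Function Topology Complex MeasureTheory
open scoped ComplexConjugate Real

noncomputable section

namespace Vale.Agent.P116.F

open Vale.Agent.P116.W

/-- Normalised at infinity. -/
def Nm (g : ℂ → ℂ) : Prop := Tendsto (fun z => g z - z) (cocompact ℂ) (𝓝 0)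

/-- The reflection in a circle. -/
def rf (c : ℂ) (r : ℝ) (z : ℂ) : ℂ := c + (r : ℂ) ^ 2 / conj (z - c)

/-- The exterior of `K`, seen from `p`. -/
def invS (p : ℂ) (K : Set ℂ) : Set ℂ := {w | w = 0 ∨ p + w⁻¹ ∉ K}

/-- The data of `m` layers of collars around `T` inside `Ω`. -/
structure LayD (b : ℝ) (m : ℕ) (T Ω : Set ℂ) {κ : Type} (lv : κ → ℕ) (K : κ → Set ℂ)
    (e : κ → ℂ → ℂ) : Prop where
  sub : T ⊆ Ω
  lt : ∀ i, lv i < m
  en : ∀ i, End (K i) (e i) 1 b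
  mem : ∀ i, K i ∪ e i '' An 1 b ⊆ Ω
  off : ∀ i, Disjoint (e i '' An 1 b) T
  col : Pairwise fun i i' => Disjoint (e i '' An 1 b) (e i' '' An 1 b)
  dis : ∀ i i', i ≠ i' → lv i = lv i' →
    Disjoint (K i ∪ e i '' An 1 b) (K i' ∪ e i' '' An 1 b)
  cov : ∀ l, l < m → ∀ z ∈ T, ∃ i, lv i = l ∧ z ∈ K i

/-- `T` is surrounded by `m` layers of collars inside `Ω`. -/
def Lay (b : ℝ) (m : ℕ) (T Ω : Set ℂ) : Prop :=
  ∃ (κ : Type) (_ : Fintype κ) (lv : κ → ℕ) (K : κ → Set ℂ) (e : κ → ℂ → ℂ), LayD b m T Ω lv K e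

/-- Compact sets with collars. -/
structure Cfg (ι : Type) where
  K : ι → Set ℂ
  e : ι → ℂ → ℂ

variable {ι : Type}

/-- A set with its collar. -/
def Cfg.N (A : Cfg ι) (b : ℝ) (i : ι) : Set ℂ := A.K i ∪ A.e i '' An 1 b

/-- The domain. -/
def Cfg.D (A : Cfg ι) : Set ℂ := (⋃ i, A.K i)ᶜ

/-- The standing properties of a configuration. -/
structure Cfg.Ok (A : Cfg ι) (b : ℝ) : Prop where
  en : ∀ i, End (A.K i) (A.e i) 1 b
  dis : Pairwise fun i j => Disjoint (A.N b i) (A.N b j)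
  int : ∀ i, (interior (A.K i)).Nonempty
  bd : ∀ i, Bornology.IsBounded (A.N b i)

/-- A transition of the domains. -/
structure Lv (A B : Cfg ι) (b : ℝ) (f : ℂ → ℂ) : Prop where
  hol : DifferentiableOn ℂ f A.D
  inj : InjOn f A.D
  nm : Nm f
  col : ∀ l, EqOn (B.e l) (f ∘ A.e l) (An 1 b)
  ext : f '' A.D = B.D

/-- A transition that extends outside the holes `T`. -/
structure TrD (A B : Cfg ι) (b : ℝ) (S : Set ι) (m : ℕ) (g : ℂ → ℂ) (T : ι → Set ℂ)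
    (G : ℂ → ℂ) : Prop where
  cpt : ∀ l, IsCompact (T l)
  sub : ∀ l, T l ⊆ A.K l
  emp : ∀ l, l ∉ S → T l = ∅
  lay : ∀ l, Lay b m (T l) (A.N b l)
  hol : DifferentiableOn ℂ G (⋃ l, T l)ᶜ
  inj : InjOn G (⋃ l, T l)ᶜ
  nm : Nm G
  col : ∀ l, EqOn (B.e l) (G ∘ A.e l) (An 1 b)
  img : ∀ l, l ∉ S → G '' A.K l = B.K l
  mem : ∀ l, G '' (A.K l \ T l) ⊆ B.K l
  ext : G '' A.D = B.D
  eq : EqOn G g A.D

/-- A transition of depth `m` with holes in the components `S`. -/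
def Tr (A B : Cfg ι) (b : ℝ) (S : Set ι) (m : ℕ) (g : ℂ → ℂ) : Prop :=
  ∃ T G, TrD A B b S m g T G

/-- A cyclic enumeration. -/
structure Cyc (n : ℕ) (J : ℕ → ι) : Prop where
  pos : 0 < n
  per : ∀ k, J (k + n) = J k
  ne : ∀ k i, 0 < i → i < n → J (k + i) ≠ J k
  sur : ∀ j, ∃ s, J s = j

/-- The Koebe iteration. -/
structure It (b : ℝ) (J : ℕ → ι) (B : ℕ → Cfg ι) (g f : ℕ → ℂ → ℂ) (c : ℕ → ℂ) (r : ℕ → ℝ) :
    Prop where
  ok : ∀ k, (B k).Ok b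
  pos : ∀ k, 0 < r k
  rnd : ∀ k, (B (k + 1)).K (J (k + 1)) = closedBall (c (k + 1)) (r (k + 1))
  tr : ∀ k, Tr (B k) (B (k + 1)) b {J (k + 1)} 0 (g k)
  lv : ∀ k, Lv (B 0) (B k) b (f k)
  succ : ∀ k, f (k + 1) = g k ∘ f k

/-- The Cauchy integral along the curve `e` on the circle of radius `ρ`. -/
def cau (h e : ℂ → ℂ) (ρ : ℝ) (z : ℂ) : ℂ :=
  (2 * π * I : ℂ)⁻¹ • ∮ w in C(0, ρ), h w * deriv e w / (e w - z)

/-- The limit map is round at the component `j`. -/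
structure Rnd (A : Cfg ι) (b : ℝ) (j : ι) (F : ℂ → ℂ) (c : ℂ) (r : ℝ) (E : ℂ → ℂ) : Prop where
  pos : 0 < r
  hol : DifferentiableOn ℂ E (An b⁻¹ b)
  inj : InjOn E (An b⁻¹ b)
  eq : EqOn E (F ∘ A.e j) (An 1 b)
  circ : ∀ z, ‖z‖ = 1 → ‖E z - c‖ = r
  ins : MapsTo E (An b⁻¹ 1) (ball c r)
  out : Disjoint (F '' A.D) (closedBall c r)

end Vale.Agent.P116.F
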