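import Vale.Agent.P116.F.Nm

/-! P116 F/Ext (task, block of helper24). Helper names start with `fext_`.
Plan. `invS p K` is open (`K` compact: at `0` use boundedness of `K`), bounded (`ball p δ ⊆ K`), contains `0`. `rmt` gives `F`; `a = F' 0 ≠ 0` (`P142.deriv_ne`), `q = dslope F 0` is holomorphic, `F w = w * q w`, `q 0 = a`. Put `β = q' 0 / a`, `g z = a / F (z - p)⁻¹ + p + β`, `c = p + β`, `r = ‖a‖`. With `w = (z - p)⁻¹ → 0`: `g z - z = (a - q w) / (w q w) + β → 0`.
-/

open Metric Set Filter Function Topology Complex MeasureTheory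
open scoped ComplexConjugate Real

noncomputable section

namespace Vale.Agent.P116.F

open Vale.Agent.P116.W

variable {ι : Type} [Fintype ι] {A B C : Cfg ι} {b r r' R : ℝ} {c c' p : ℂ} {S : Set ι} {j : ι}
  {m n : ℕ} {e f g g' G G' h : ℂ → ℂ} {K K' T Ω : Set ℂ}

theorem invS_open (hK : IsCompact K) (p : ℂ) : IsOpen (invS p K) := by
  refine isOpen_iff_mem_nhds.2 fun w hw => ?_
  rcases eq_or_ne w 0 with rfl | h0
  · obtain ⟨R, hR, hKR⟩ := hK.isBounded.subset_closedBall_lt 0 p
    filter_upwards [ball_mem_nhds (0 : ℂ) (inv_pos.2 hR)] with w hw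
    rcases eq_or_ne w 0 with rfl | h1
    · exact Or.inl rfl
    · refine Or.inr fun h => ?_
      have h2 := hKR h
      rw [mem_closedBall, dist_eq_norm, add_sub_cancel_left, norm_inv] at h2
      rw [mem_ball_zero_iff] at hw
      exact absurd ((lt_inv_comm₀ (norm_pos_iff.2 h1) hR).1 hw) (not_lt.2 h2)
  · have h1 : p + w⁻¹ ∈ Kᶜ := hw.resolve_left h0
    have h2 : ContinuousAt (fun w : ℂ => p + w⁻¹) w :=
      continuousAt_const.add (continuousAt_inv₀ h0)
    filter_upwards [h2.preimage_mem_nhds (hK.isClosed.isOpen_compl.mem_nhds h1)] with v hv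
    exact Or.inr hv

theorem fext_bdd (hp : p ∈ interior K) : Bornology.IsBounded (invS p K) := by
  obtain ⟨δ, hδ, h⟩ := Metric.mem_nhds_iff.1 (mem_interior_iff_mem_nhds.1 hp)
  refine (isBounded_closedBall (x := (0 : ℂ)) (r := δ⁻¹)).subset fun w hw => ?_
  rw [mem_closedBall_zero_iff]
  rcases eq_or_ne w 0 with rfl | h0
  · rw [norm_zero]
    exact (inv_pos.2 hδ).le
  · have h1 : p + w⁻¹ ∉ ball p δ := fun h' => hw.resolve_left h0 (h h')
    rw [mem_ball, dist_eq_norm, add_sub_cancel_left, norm_inv, not_lt] at h1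
    exact (le_inv_comm₀ hδ (norm_pos_iff.2 h0)).1 h1

theorem fext_inv (p : ℂ) : Tendsto (fun z : ℂ => (z - p)⁻¹) (cocompact ℂ) (𝓝 0) := by
  have h1 : Tendsto (fun z : ℂ => z - p) (cocompact ℂ) (cocompact ℂ) :=
    (Homeomorph.subRight p).isClosedEmbedding.tendsto_cocompact
  have h2 : Tendsto (fun z : ℂ => z⁻¹) (cocompact ℂ) (𝓝 0) := by
    rw [← Metric.cobounded_eq_cocompact]
    exact tendsto_inv₀_cobounded
  exact h2.comp h1

theorem ext_map (hK : IsCompact K) (hp : p ∈ interior K) (hc : IsPreconnected (invS p K))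
    (hs : HasSqrt (invS p K)) : ∃ (g : ℂ → ℂ) (c : ℂ) (r : ℝ), 0 < r ∧ DifferentiableOn ℂ g Kᶜ ∧
      InjOn g Kᶜ ∧ g '' Kᶜ = (closedBall c r)ᶜ ∧ Nm g := by
  have hU := invS_open hK p
  have h0 : (0 : ℂ) ∈ invS p K := Or.inl rfl
  obtain ⟨F, hF, hi, hF0, him⟩ := rmt hU hc hs (fext_bdd hp) h0
  have ha : deriv F 0 ≠ 0 := P142.deriv_ne hU hF hi h0
  have hq : DifferentiableOn ℂ (dslope F 0) (invS p K) :=
    (Complex.differentiableOn_dslope (hU.mem_nhds h0)).2 hF
  have hq2 : DifferentiableOn ℂ (dslope (dslope F 0) 0) (invS p K) :=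
    (Complex.differentiableOn_dslope (hU.mem_nhds h0)).2 hq
  have e1 : ∀ w, F w = w * dslope F 0 w := fun w => by
    have := sub_smul_dslope F 0 w
    rw [sub_zero, hF0, sub_zero, smul_eq_mul] at this
    exact this.symm
  have e2 : ∀ w, deriv F 0 = dslope F 0 w - w * dslope (dslope F 0) 0 w := fun w => by
    have := sub_smul_dslope (dslope F 0) 0 w
    rw [sub_zero, dslope_same, smul_eq_mul] at this
    rw [this]
    ring
  have hne : ∀ z ∈ Kᶜ, z - p ≠ 0 := fun z hz h =>
    hz (sub_eq_zero.1 h ▸ interior_subset hp)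
  have hm : ∀ z ∈ Kᶜ, (z - p)⁻¹ ∈ invS p K := fun z hz => Or.inr (by
    rw [inv_inv, add_sub_cancel]
    exact hz)
  have hFn : ∀ z ∈ Kᶜ, F (z - p)⁻¹ ≠ 0 := fun z hz h =>
    inv_ne_zero (hne z hz) (hi (hm z hz) h0 (h.trans hF0.symm))
  have hr : 0 < ‖deriv F 0‖ := norm_pos_iff.2 ha
  refine ⟨fun z => deriv F 0 / F (z - p)⁻¹ + (p + dslope (dslope F 0) 0 0 / deriv F 0),
    p + dslope (dslope F 0) 0 0 / deriv F 0, ‖deriv F 0‖, hr, ?_, ?_, ?_, ?_⟩
  · refine DifferentiableOn.add_const _ ((differentiableOn_const _).div ?_ hFn)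
    exact hF.comp ((differentiableOn_id.sub_const p).inv hne) hm
  · intro z hz z' hz' h
    have h1 : deriv F 0 / F (z - p)⁻¹ = deriv F 0 / F (z' - p)⁻¹ := add_right_cancel h
    rw [div_eq_mul_inv, div_eq_mul_inv] at h1
    have h2 := hi (hm z hz) (hm z' hz') (inv_injective (mul_left_cancel₀ ha h1))
    exact sub_left_injective (inv_injective h2)
  · refine Subset.antisymm ?_ fun ζ hζ => ?_
    · rintro _ ⟨z, hz, rfl⟩
      have h1 : F (z - p)⁻¹ ∈ ball (0 : ℂ) 1 := him ▸ mem_image_of_mem F (hm z hz)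
      rw [mem_ball_zero_iff] at h1
      rw [mem_compl_iff, mem_closedBall, dist_eq_norm, add_sub_cancel_right, norm_div, not_le,
        lt_div_iff₀ (norm_pos_iff.2 (hFn z hz))]
      exact mul_lt_of_lt_one_right hr h1
    · rw [mem_compl_iff, mem_closedBall, dist_eq_norm, not_le] at hζ
      have h1 := hr.trans hζ
      have h2 := norm_pos_iff.1 h1
      have h3 : deriv F 0 / (ζ - (p + dslope (dslope F 0) 0 0 / deriv F 0)) ∈ F '' invS p K := by
        rw [him, mem_ball_zero_iff, norm_div, div_lt_one h1]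
        exact hζ
      obtain ⟨w, hw, h4⟩ := h3
      have h5 : w ≠ 0 := by
        rintro rfl
        exact div_ne_zero ha h2 (h4.symm.trans hF0)
      refine ⟨p + w⁻¹, hw.resolve_left h5, ?_⟩
      beta_reduce
      rw [add_sub_cancel_left, inv_inv, h4, div_div_cancel₀ ha, sub_add_cancel]
  · have c1 : ContinuousAt (dslope F 0) 0 := (hq.continuousOn.continuousAt (hU.mem_nhds h0))
    have c2 : ContinuousAt (dslope (dslope F 0) 0) 0 :=
      (hq2.continuousOn.continuousAt (hU.mem_nhds h0))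
    have t1 := c1.tendsto.comp (fext_inv p)
    have t2 := c2.tendsto.comp (fext_inv p)
    rw [dslope_same] at t1
    have t3 := (tendsto_const_nhds (x := dslope (dslope F 0) 0 0 / deriv F 0)).sub (t2.div t1 ha)
    rw [sub_self] at t3
    refine t3.congr' ?_
    filter_upwards [hK.compl_mem_cocompact] with z hz
    have h1 := hne z hz
    have h2 := hFn z hz
    rw [e1] at h2
    have h3 := right_ne_zero_of_mul h2
    have h4 : deriv F 0 / F (z - p)⁻¹ = z - p -
        dslope (dslope F 0) 0 (z - p)⁻¹ / dslope F 0 (z - p)⁻¹ := by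
      rw [e1, e2 (z - p)⁻¹]
      generalize dslope F 0 (z - p)⁻¹ = u at h3 ⊢
      generalize dslope (dslope F 0) 0 (z - p)⁻¹ = v
      field_simp
    simp only [Pi.div_apply, Function.comp_apply]
    rw [h4]
    ring

end Vale.Agent.P116.F
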