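import Vale.Agent.P116.W.Step

/-! P116 F/H9b: reflection of a collar in a round circle. -/

open Metric Set Filter Function Topology Complex
open scoped ComplexConjugate Real

noncomputable section

namespace Vale.Agent.P116.F

open W

theorem h9b_inv {p q : ℝ} (hp : 0 < p) {u : ℂ} (hu : u ∈ An p q) : u⁻¹ ∈ An q⁻¹ p⁻¹ := by
  have h0 : 0 < ‖u‖ := hp.trans hu.1
  refine ⟨?_, ?_⟩ <;> rw [norm_inv]
  · exact inv_strictAnti₀ h0 hu.2
  · exact inv_strictAnti₀ hp hu.1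

theorem h9b_unit {f : ℂ → ℂ} {b : ℝ} (hb : 1 < b) (hd : DifferentiableOn ℂ f (An 1 b))
    (hi : InjOn f (An 1 b)) (ho : ∀ u ∈ An 1 b, 1 < ‖f u‖)
    (hl : ∀ ε : ℝ, 0 < ε → ∃ t, 1 < t ∧ ∀ u ∈ An 1 b, ‖u‖ < t → ‖f u‖ < 1 + ε) :
    ∃ F : ℂ → ℂ, DifferentiableOn ℂ F (An b⁻¹ b) ∧ InjOn F (An b⁻¹ b) ∧ EqOn F f (An 1 b) ∧
      F '' sphere 0 1 = sphere 0 1 ∧ ∀ u ∈ An b⁻¹ 1, F u = (conj (f (conj u)⁻¹))⁻¹ := by
  have b0 : 0 < b := one_pos.trans hb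
  have b1 : 0 < b⁻¹ := inv_pos.2 b0
  have b2 : b⁻¹ < 1 := inv_lt_one_of_one_lt₀ hb
  have i1 : ∀ u ∈ An b⁻¹ 1, u⁻¹ ∈ An 1 b := fun u hu => by simpa using h9b_inv b1 hu
  have i2 : ∀ u ∈ An 1 b, u⁻¹ ∈ An b⁻¹ 1 := fun u hu => by simpa using h9b_inv one_pos hu
  have i3 : ∀ u ∈ An b⁻¹ b, u⁻¹ ∈ An b⁻¹ b := fun u hu => by simpa using h9b_inv b1 hu
  have i4 : ∀ u ∈ An b⁻¹ 1, (conj u)⁻¹ ∈ An 1 b := fun u hu =>
    i1 _ (by simpa [An] using hu)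
  have ne : ∀ {c : ℝ}, ∀ u ∈ An b⁻¹ c, u ≠ 0 := fun u hu => norm_pos_iff.1 (b1.trans hu.1)
  obtain ⟨e', d1, d2, d3, d4⟩ := ref_ext (e := fun v => f v⁻¹) b1 b2
    (hd.comp (differentiableOn_id.inv ne) i1)
    (fun z hz => norm_pos_iff.1 (one_pos.trans (ho _ (i1 z hz)))) fun ε hε => by
      obtain ⟨t, t1, t2⟩ := hl ε hε
      refine ⟨t⁻¹, inv_lt_one_of_one_lt₀ t1, fun z hz hz' => ?_⟩
      have h1 := ho _ (i1 z hz)
      have h2 := t2 _ (i1 z hz) (by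
        rw [norm_inv]
        exact inv_lt_of_inv_lt₀ (one_pos.trans t1) hz')
      rw [abs_lt]
      constructor <;> linarith
  rw [one_pow, one_div, inv_inv] at d1 d4
  have e1 : ∀ u ∈ An 1 b, e' u⁻¹ = f u := fun u hu => (d2 (i2 u hu)).trans (by simp)
  have e2 : ∀ u ∈ An b⁻¹ 1, e' u⁻¹ = (conj (f (conj u)⁻¹))⁻¹ := fun u hu => by
    rw [d4 _ (i1 u hu)]
    simp
  have n1 : ∀ u ∈ An b⁻¹ b, 1 < ‖u‖ → 1 < ‖e' u⁻¹‖ := fun u hu h => by
    rw [e1 u ⟨h, hu.2⟩]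
    exact ho u ⟨h, hu.2⟩
  have n2 : ∀ u ∈ An b⁻¹ b, ‖u‖ < 1 → ‖e' u⁻¹‖ < 1 := fun u hu h => by
    rw [e2 u ⟨hu.1, h⟩, norm_inv, norm_conj]
    exact inv_lt_one_of_one_lt₀ (ho _ (i4 u ⟨hu.1, h⟩))
  have n3 : ∀ u : ℂ, ‖u‖ = 1 → ‖e' u⁻¹‖ = 1 := fun u h => d3 _ (by rw [norm_inv, h, inv_one])
  have n4 : ∀ u ∈ An b⁻¹ b, ‖e' u⁻¹‖ = 1 → ‖u‖ = 1 := fun u hu h => by
    rcases lt_trichotomy ‖u‖ 1 with hl | hl | hl
    · exact absurd h (n2 u hu hl).ne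
    · exact hl
    · exact absurd h (n1 u hu hl).ne'
  have hD : DifferentiableOn ℂ (fun u => e' u⁻¹) (An b⁻¹ b) :=
    d1.comp (differentiableOn_id.inv ne) i3
  have hI : InjOn (fun u => e' u⁻¹) (An b⁻¹ b) := by
    refine inj_step one_pos (isOpen_An _ _) hD (fun z hz => ⟨n4 z hz, n3 z⟩)
      fun z hz w hw he hz1 => ?_
    have he' : e' z⁻¹ = e' w⁻¹ := he
    rcases lt_or_gt_of_ne hz1 with h | h
    · have hw1 : ‖w‖ < 1 := not_le.1 fun hc => by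
        have h1 := n2 z hz h
        rw [he'] at h1
        rcases hc.eq_or_lt with hc | hc
        · exact h1.ne (n3 w hc.symm)
        · exact h1.not_gt (n1 w hw hc)
      rw [e2 z ⟨hz.1, h⟩, e2 w ⟨hw.1, hw1⟩, inv_inj] at he'
      have h2 := hi (i4 z ⟨hz.1, h⟩) (i4 w ⟨hw.1, hw1⟩) ((starRingEnd ℂ).injective he')
      exact (starRingEnd ℂ).injective (inv_inj.1 h2)
    · have hw1 : 1 < ‖w‖ := not_le.1 fun hc => by
        have h1 := n1 z hz h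
        rw [he'] at h1
        rcases hc.eq_or_lt with hc | hc
        · exact h1.ne' (n3 w hc)
        · exact h1.not_gt (n2 w hw hc)
      rw [e1 z ⟨h, hz.2⟩, e1 w ⟨hw1, hw.2⟩] at he'
      exact hi ⟨h, hz.2⟩ ⟨hw1, hw.2⟩ he'
  have hs : sphere (0 : ℂ) 1 ⊆ An b⁻¹ b := fun w hw => by
    have : ‖w‖ = 1 := by simpa using hw
    exact ⟨this ▸ b2, this ▸ hb⟩
  refine ⟨fun u => e' u⁻¹, hD, hI, e1, Subset.antisymm ?_ ?_, e2⟩
  · rintro _ ⟨u, hu, rfl⟩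
    simpa using n3 u (by simpa using hu)
  · intro y hy
    by_contra hc
    have hp : IsPreconnected {z : ℂ | ‖z‖ ∈ ({1} : Set ℝ)} :=
      pol_bas isPreconnected_singleton fun r hr => by rw [hr]; exact zero_le_one
    obtain ⟨_, h1, ⟨u, hu, rfl⟩, h2⟩ := hp _ _
      (open_image (isOpen_An _ _) hD hI (isOpen_An _ _) Subset.rfl)
      ((isCompact_sphere (0 : ℂ) 1).image_of_continuousOn
        (hD.continuousOn.mono hs)).isClosed.isOpen_compl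
      (fun z _ => (em (z ∈ (fun u => e' u⁻¹) '' sphere 0 1)).imp (fun h => image_mono hs h) id)
      ⟨_, n3 1 norm_one, 1, hs (by simp), rfl⟩ ⟨y, by simpa using hy, hc⟩
    exact h2 ⟨u, by simpa using n4 u hu h1, rfl⟩

theorem end_ball {h H : ℂ → ℂ} {a : ℂ} {r b : ℝ} (hb : 1 < b) (hr : 0 < r)
    (hD : DifferentiableOn ℂ H (An b⁻¹ b)) (hI : InjOn H (An b⁻¹ b)) (he : EqOn H h (An 1 b))
    (hs : H '' sphere 0 1 = sphere a r) (ho : ∀ u ∈ An 1 b, r < ‖h u - a‖)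
    (hn : ∀ u ∈ An b⁻¹ 1, ‖H u - a‖ < r) : End (closedBall a r) h 1 b := by
  have b2 : b⁻¹ < 1 := inv_lt_one_of_one_lt₀ hb
  have s1 : An 1 b ⊆ An b⁻¹ b := fun u hu => ⟨b2.trans hu.1, hu.2⟩
  have m1 : ∀ u : ℂ, ‖u‖ = 1 → H u ∈ sphere a r := fun u hu =>
    hs ▸ mem_image_of_mem H (by simpa using hu)
  have key : ∀ J : Set ℝ, J ⊆ Ico 1 b → closedBall a r ∪ h '' {u | 1 < ‖u‖ ∧ ‖u‖ ∈ J} =
      closedBall a r ∪ H '' {u | ‖u‖ ∈ J} := fun J hJ => by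
    refine Subset.antisymm (union_subset_union_right _ ?_) (union_subset subset_union_left ?_)
    · rintro _ ⟨u, hu, rfl⟩
      exact ⟨u, hu.2, he ⟨hu.1, (hJ hu.2).2⟩⟩
    · rintro _ ⟨u, hu, rfl⟩
      rcases (hJ hu).1.eq_or_lt with h1 | h1
      · exact Or.inl (sphere_subset_closedBall (m1 u h1.symm))
      · exact Or.inr ⟨u, ⟨h1, hu⟩, (he ⟨h1, (hJ hu).2⟩).symm⟩
  have s2 : ∀ J : Set ℝ, J ⊆ Ico 1 b → {u : ℂ | ‖u‖ ∈ J} ⊆ An b⁻¹ b := fun J hJ u hu =>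
    ⟨b2.trans_le (hJ hu).1, (hJ hu).2⟩
  refine ⟨one_pos, hb, nonempty_closedBall.2 hr.le, (hD.mono s1).congr fun u hu => (he hu).symm,
    (hI.mono s1).congr he, ?_, fun t t1 t2 => ?_, fun t t1 t2 => ?_, ?_⟩
  · refine Set.disjoint_right.2 ?_
    rintro _ ⟨u, hu, rfl⟩ hc
    exact (mem_closedBall_iff_norm.1 hc).not_gt (ho u hu)
  · have e : closedBall a r ∪ h '' An 1 t = ball a r ∪ H '' An b⁻¹ t := by
      refine Subset.antisymm (union_subset (fun y hy => ?_) ?_) (union_subset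
        (ball_subset_closedBall.trans subset_union_left) ?_)
      · rcases (mem_closedBall.1 hy).eq_or_lt with h1 | h1
        · obtain ⟨u, hu, rfl⟩ : y ∈ H '' sphere 0 1 := hs ▸ h1
          have : ‖u‖ = 1 := by simpa using hu
          exact Or.inr ⟨u, ⟨this ▸ b2, this ▸ t1⟩, rfl⟩
        · exact Or.inl h1
      · rintro _ ⟨u, hu, rfl⟩
        exact Or.inr ⟨u, ⟨b2.trans hu.1, hu.2⟩, he (An_mono_bas t2 hu)⟩
      · rintro _ ⟨u, hu, rfl⟩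
        rcases lt_trichotomy ‖u‖ 1 with h1 | h1 | h1
        · exact Or.inl (mem_closedBall_iff_norm.2 (hn u ⟨hu.1, h1⟩).le)
        · exact Or.inl (sphere_subset_closedBall (m1 u h1))
        · exact Or.inr ⟨u, ⟨h1, hu.2⟩, (he ⟨h1, hu.2.trans_le t2⟩).symm⟩
    rw [e]
    exact isOpen_ball.union (open_image (isOpen_An _ _) hD hI (isOpen_An _ _) (An_mono_bas t2))
  · have hJ : Icc 1 t ⊆ Ico 1 b := Icc_subset_Ico_right t2
    have e : Ac 1 t = {u : ℂ | 1 < ‖u‖ ∧ ‖u‖ ∈ Icc 1 t} :=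
      Set.ext fun u => ⟨fun hu => ⟨hu.1, hu.1.le, hu.2⟩, fun hu => ⟨hu.1, hu.2.2⟩⟩
    rw [e, key _ hJ]
    refine (isCompact_closedBall a r).union (IsCompact.image_of_continuousOn ?_
      (hD.continuousOn.mono (s2 _ hJ)))
    exact (isCompact_closedBall (0 : ℂ) t).of_isClosed_subset
      (isClosed_Icc.preimage continuous_norm) fun u hu => mem_closedBall_zero_iff.2 hu.2
  · have e : An 1 b = {u : ℂ | 1 < ‖u‖ ∧ ‖u‖ ∈ Ico 1 b} :=
      Set.ext fun u => ⟨fun hu => ⟨hu.1, hu.1.le, hu.2⟩, fun hu => ⟨hu.1, hu.2.2⟩⟩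
    rw [e, key _ Subset.rfl]
    exact (convex_closedBall a r).isPreconnected.union (H 1)
      (sphere_subset_closedBall (m1 1 norm_one)) ⟨1, by simpa using hb, rfl⟩
      ((pol_bas isPreconnected_Ico fun s hs => zero_le_one.trans hs.1).image _
        (hD.continuousOn.mono (s2 _ Subset.rfl)))

theorem refl_collar {h : ℂ → ℂ} {a : ℂ} {r b : ℝ} (hb : 1 < b) (hr : 0 < r)
    (hd : DifferentiableOn ℂ h (An 1 b)) (hi : InjOn h (An 1 b))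
    (ho : ∀ u ∈ An 1 b, r < ‖h u - a‖)
    (hl : ∀ ε : ℝ, 0 < ε → ∃ t, 1 < t ∧ ∀ u ∈ An 1 b, ‖u‖ < t → ‖h u - a‖ < r + ε) :
    ∃ H : ℂ → ℂ, DifferentiableOn ℂ H (An b⁻¹ b) ∧ InjOn H (An b⁻¹ b) ∧ EqOn H h (An 1 b) ∧
      H '' sphere 0 1 = sphere a r ∧
      (∀ u ∈ An b⁻¹ 1, H u = a + r ^ 2 / conj (h (conj u)⁻¹ - a)) ∧
      End (closedBall a r) h 1 b := by
  have r0 : (r : ℂ) ≠ 0 := ofReal_ne_zero.2 hr.ne'
  have nn : ∀ w : ℂ, ‖w / r‖ = ‖w‖ / r := fun w => by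
    rw [norm_div, norm_real, Real.norm_of_nonneg hr.le]
  obtain ⟨F, f1, f2, f3, f4, f5⟩ := h9b_unit (f := fun u => (h u - a) / r) hb
    ((hd.sub_const a).div_const _)
    (fun u hu w hw he => hi hu hw (sub_left_injective ((div_left_inj' r0).1 he)))
    (fun u hu => by rw [nn, one_lt_div hr]; exact ho u hu) fun ε hε => by
      obtain ⟨t, t1, t2⟩ := hl (ε * r) (mul_pos hε hr)
      refine ⟨t, t1, fun u hu hu' => ?_⟩
      rw [nn, div_lt_iff₀ hr]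
      linarith [t2 u hu hu']
  have g1 : DifferentiableOn ℂ (fun u => a + r * F u) (An b⁻¹ b) := (f1.const_mul _).const_add a
  have g2 : InjOn (fun u => a + r * F u) (An b⁻¹ b) := fun u hu w hw he =>
    f2 hu hw (mul_left_cancel₀ r0 (add_left_cancel he))
  have g3 : EqOn (fun u => a + r * F u) h (An 1 b) := fun u hu => by
    simp only [f3 hu]
    field_simp
    ring
  have g4 : (fun u => a + r * F u) '' sphere 0 1 = sphere a r := by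
    rw [← image_image (fun w : ℂ => a + r * w) F, f4]
    refine Subset.antisymm ?_ fun y hy => ⟨(y - a) / r, ?_, by field_simp; ring⟩
    · rintro _ ⟨w, hw, rfl⟩
      have : ‖w‖ = 1 := by simpa using hw
      simp [this, abs_of_pos hr]
    · rw [mem_sphere_zero_iff_norm, nn, mem_sphere_iff_norm.1 hy, div_self hr.ne']
  have g5 : ∀ u ∈ An b⁻¹ 1, a + r * F u = a + r ^ 2 / conj (h (conj u)⁻¹ - a) := fun u hu => by
    rw [f5 u hu, map_div₀, conj_ofReal, inv_div]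
    ring
  refine ⟨_, g1, g2, g3, g4, g5, end_ball hb hr g1 g2 g3 g4 ho fun u hu => ?_⟩
  have hu' : (conj u)⁻¹ ∈ An 1 b := by
    simpa using h9b_inv (q := 1) (inv_pos.2 (one_pos.trans hb)) (u := conj u)
      (by simpa [An] using hu)
  have h1 := ho _ hu'
  rw [g5 u hu, add_sub_cancel_left, norm_div, norm_conj, norm_pow, norm_real,
    Real.norm_of_nonneg hr.le, div_lt_iff₀ (hr.trans h1)]
  nlinarith

end Vale.Agent.P116.F
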