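import Vale.Agent.P116.F.Sw
import Vale.Agent.P116.F.H9b

/-! P116 F/Ref0 (task, block of helper24). Helper names start with `fref0_`.
Plan. `ref_out`: `v z = (conj (e (conj z)⁻¹))⁻¹` on `An b⁻¹ 1` is holomorphic (`diff_Ref2` with `b = 1`), without zeros, `‖v‖ → 1`; `ref_ext` with `a = b⁻¹`, `b = 1` (`1 ^ 2 / b⁻¹ = b`), `inj_step`. `End.col`: apply `ref_out` to `(e - c) / r`; the boundary hypothesis is `End.small` for `ball c (r + ε r)`, and `dis`.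
-/

open Metric Set Filter Function Topology Complex MeasureTheory
open scoped ComplexConjugate Real

noncomputable section

namespace Vale.Agent.P116.F

open Vale.Agent.P116.W

variable {ι : Type} [Fintype ι] {A B C : Cfg ι} {b r r' R : ℝ} {c c' p : ℂ} {S : Set ι} {j : ι}
  {m n : ℕ} {e f g g' G G' h : ℂ → ℂ} {K K' T Ω : Set ℂ}

theorem ref_out (hb : 1 < b) (hd : DifferentiableOn ℂ e (An 1 b)) (hi : InjOn e (An 1 b))
    (h1 : ∀ z ∈ An 1 b, 1 < ‖e z‖)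
    (h2 : ∀ ε : ℝ, 0 < ε → ∃ t, 1 < t ∧ ∀ z ∈ An 1 b, ‖z‖ < t → ‖e z‖ < 1 + ε) :
    ∃ E : ℂ → ℂ, DifferentiableOn ℂ E (An b⁻¹ b) ∧ InjOn E (An b⁻¹ b) ∧ EqOn E e (An 1 b) ∧
      (∀ z, ‖z‖ = 1 → ‖E z‖ = 1) ∧ ∀ z ∈ An b⁻¹ 1, E z = (conj (e (conj z)⁻¹))⁻¹ := by
  obtain ⟨E, e1, e2, e3, e4, e5⟩ := h9b_unit hb hd hi h1 h2
  exact ⟨E, e1, e2, e3, fun z hz => mem_sphere_zero_iff_norm.1
    (e4 ▸ mem_image_of_mem E (mem_sphere_zero_iff_norm.2 hz)), e5⟩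

theorem _root_.Vale.Agent.P116.W.End.col (h : End (closedBall c r) e 1 b) (hr : 0 < r) :
    ∃ E : ℂ → ℂ, DifferentiableOn ℂ E (An b⁻¹ b) ∧ InjOn E (An b⁻¹ b) ∧ EqOn E e (An 1 b) ∧
      (∀ z, ‖z‖ = 1 → ‖E z - c‖ = r) ∧ MapsTo E (An b⁻¹ 1) (ball c r) := by
  have r0 : (r : ℂ) ≠ 0 := ofReal_ne_zero.2 hr.ne'
  have nU : ∀ w : ℂ, ‖(w - c) * (r : ℂ)⁻¹‖ = ‖w - c‖ / r := fun w => by
    rw [norm_mul, norm_inv, Complex.norm_of_nonneg hr.le, div_eq_mul_inv]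
  have nA : ∀ w : ℂ, ‖c + r * w - c‖ = r * ‖w‖ := fun w => by
    rw [add_sub_cancel_left, norm_mul, Complex.norm_of_nonneg hr.le]
  have big : ∀ z ∈ An 1 b, 1 < ‖(e z - c) * (r : ℂ)⁻¹‖ := fun z hz => by
    rw [nU, one_lt_div hr]
    exact not_le.1 fun k => Set.disjoint_left.1 h.dis (mem_closedBall_iff_norm.2 k) ⟨z, hz, rfl⟩
  obtain ⟨E, e1, e2, e3, e4, e5⟩ := ref_out (e := fun z => (e z - c) * (r : ℂ)⁻¹) h.lt
    ((h.hol.sub_const c).mul_const _)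
    (fun z hz y hy he => h.inj hz hy (sub_left_injective (mul_right_cancel₀ (inv_ne_zero r0) he)))
    big fun ε hε => by
      obtain ⟨t, t1, -, t3⟩ := h.small (Ω := ball c ((1 + ε) * r)) isOpen_ball
        (closedBall_subset_ball (lt_mul_of_one_lt_left hr (by linarith)))
      refine ⟨t, t1, fun z hz k => ?_⟩
      rw [nU, div_lt_iff₀ hr]
      exact mem_ball_iff_norm.1 (t3 ⟨z, ⟨hz.1, k⟩, rfl⟩)
  refine ⟨fun z => c + r * E z, (e1.const_mul _).const_add _,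
    fun z hz y hy he => e2 hz hy (mul_left_cancel₀ r0 (add_left_cancel he)), fun z hz => ?_,
    fun z hz => by rw [nA, e4 z hz, mul_one], fun z hz => ?_⟩
  · beta_reduce
    rw [e3 hz]
    field_simp
    ring
  · have h1 : (conj z)⁻¹ ∈ An 1 b := by
      simpa using h9b_inv (u := conj z) (q := 1) (inv_pos.2 (one_pos.trans h.lt))
        (by simpa [An] using hz)
    rw [mem_ball_iff_norm, nA, e5 z hz, norm_inv, norm_conj]
    exact mul_lt_of_lt_one_right hr (inv_lt_one_of_one_lt₀ (big _ h1))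

end Vale.Agent.P116.F
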