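import Vale.Agent.P116.F.L1
import Vale.Agent.P116.F.Cf
import Vale.Agent.P116.F.Ref0

/-! P116 F/L2 (task, block of helper24). Helper names start with `fl2_`.
Plan. `End.col` gives `E k` with values in `closedBall 0 R` (collar, or the closed ball, all in `(C k).N b j`); `mon_Lim1` gives the limit `E`; `c k`, `r k` are bounded, so they converge along the ultrafilter (`IsCompact.ultrafilter_le_nhds`). `E = F ∘ A.e j` on `An 1 b` (`col`, pointwise limits), injective there, so `lim_inj` (`An_con`). `r > 0`: otherwise `E 1 = E (-1) = c`. `ins`: the limit lies in the closed ball, the image of `An b⁻¹ 1` is open (`open_image`, `interior_closedBall`). `out`: for `y ∈ ball c r`, eventually `y ∈ (C k).K j`, so `h k - y` has no zero on `A.D` (`ext`); `hur_Lim1` (`F` is not the constant `y`); then `F (A.D)` is open and misses the ball, so it misses its closure.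
-/

open Metric Set Filter Function Topology Complex MeasureTheory
open scoped ComplexConjugate Real

noncomputable section

namespace Vale.Agent.P116.F

open Vale.Agent.P116.W

variable {ι : Type} [Fintype ι] {A B C : Cfg ι} {b r r' R : ℝ} {c c' p : ℂ} {S : Set ι} {j : ι}
  {m n : ℕ} {e f g g' G G' h : ℂ → ℂ} {K K' T Ω : Set ℂ}

theorem exists_rnd (hb : 1 < b) (hA : A.Ok b) (hc : IsPreconnected A.D) {C : ℕ → Cfg ι}
    {h : ℕ → ℂ → ℂ} {c : ℕ → ℂ} {r : ℕ → ℝ} (hC : ∀ k, (C k).Ok b) (hl : ∀ k, Lv A (C k) b (h k))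
    (hr : ∀ k, 0 < r k) (hK : ∀ k, (C k).K j = closedBall (c k) (r k))
    (hR : ∀ k, (C k).N b j ⊆ ball 0 R) {F : ℂ → ℂ} (hd : DifferentiableOn ℂ F A.D)
    (hi : InjOn F A.D) (φ : Ultrafilter ℕ) (ht : TendstoLocallyUniformlyOn h F φ A.D) :
    ∃ c₀ r₀ E, Rnd A b j F c₀ r₀ E := by
  have hE : ∀ k, End (closedBall (c k) (r k)) ((C k).e j) 1 b := fun k => hK k ▸ (hC k).en j
  choose E hEd hEi hEe hEc hEm using fun k => (hE k).col (hr k)
  have hB : ∀ k, closedBall (c k) (r k) ⊆ ball 0 R := fun k =>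
    hK k ▸ subset_union_left.trans (hR k)
  have hbd : ∀ k, ∀ z ∈ An b⁻¹ b, ‖E k z‖ ≤ R := fun k z hz => by
    refine (mem_ball_zero_iff.1 ?_).le
    rcases lt_trichotomy ‖z‖ 1 with h1 | h1 | h1
    · exact hB k (ball_subset_closedBall (hEm k ⟨hz.1, h1⟩))
    · exact hB k (mem_closedBall_iff_norm.2 (hEc k z h1).le)
    · rw [hEe k ⟨h1, hz.2⟩]
      exact hR k (Or.inr ⟨z, ⟨h1, hz.2⟩, rfl⟩)
  obtain ⟨E₀, hE₀⟩ := mon_Lim1 (isOpen_An _ _) φ (Eventually.of_forall fun k => ⟨hEd k, hbd k⟩)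
  obtain ⟨c₀, -, hc₀⟩ := (isCompact_closedBall (0 : ℂ) R).ultrafilter_le_nhds' (φ.map c)
    (Ultrafilter.mem_map.2 (Eventually.of_forall fun k =>
      ball_subset_closedBall (hB k (mem_closedBall_self (hr k).le))))
  have hct : Tendsto c φ (𝓝 c₀) := hc₀
  have hb1 : b⁻¹ < 1 := inv_lt_one_of_one_lt₀ hb
  have hcirc : ∀ z, ‖z‖ = 1 → Tendsto r φ (𝓝 ‖E₀ z - c₀‖) := fun z hz =>
    ((hE₀.tendsto_at (show z ∈ An b⁻¹ b from ⟨hz ▸ hb1, hz ▸ hb⟩)).sub hct).norm.congr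
      fun k => hEc k z hz
  have hrt := hcirc 1 norm_one
  have hs1 : An 1 b ⊆ An b⁻¹ b := fun z hz => ⟨hb1.trans hz.1, hz.2⟩
  have hs2 : An b⁻¹ 1 ⊆ An b⁻¹ b := An_mono_bas hb.le
  have hD : ∀ z ∈ An 1 b, A.e j z ∈ A.D := fun z hz => hA.col_sub j ⟨z, hz, rfl⟩
  have heq : EqOn E₀ (F ∘ A.e j) (An 1 b) := fun z hz =>
    tendsto_nhds_unique (hE₀.tendsto_at (hs1 hz)) ((ht.tendsto_at (hD z hz)).congr fun k =>
      ((hEe k hz).trans ((hl k).col j hz)).symm)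
  have hhol := hE₀.differentiableOn (Eventually.of_forall hEd) (isOpen_An _ _)
  obtain ⟨x, hx, hx', hne⟩ : ∃ x ∈ An 1 b, -x ∈ An 1 b ∧ F (A.e j x) ≠ F (A.e j (-x)) := by
    have h1 : ‖(((1 + b) / 2 : ℝ) : ℂ)‖ = (1 + b) / 2 := by
      rw [Complex.norm_real, Real.norm_of_nonneg (by linarith)]
    have h2 : (((1 + b) / 2 : ℝ) : ℂ) ∈ An 1 b := ⟨by rw [h1]; linarith, by rw [h1]; linarith⟩
    have h3 : -(((1 + b) / 2 : ℝ) : ℂ) ∈ An 1 b :=
      ⟨by rw [norm_neg]; exact h2.1, by rw [norm_neg]; exact h2.2⟩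
    refine ⟨_, h2, h3, fun e => ?_⟩
    have h4 := self_eq_neg.1 ((hA.en j).inj h2 h3 (hi (hD _ h2) (hD _ h3) e))
    rw [h4, norm_zero] at h1
    linarith
  have hinj : InjOn E₀ (An b⁻¹ b) := lim_inj (isOpen_An _ _)
    (An_con (inv_nonneg.2 (zero_le_one.trans hb.le))) hEd hEi hE₀
    ⟨x, hs1 hx, -x, hs1 hx', by rw [heq hx, heq hx']; exact hne⟩
  have hcc : ∀ z, ‖z‖ = 1 → ‖E₀ z - c₀‖ = ‖E₀ 1 - c₀‖ := fun z hz =>
    tendsto_nhds_unique (hcirc z hz) hrt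
  have hn1 : ‖(-1 : ℂ)‖ = 1 := by rw [norm_neg, norm_one]
  have hpos : 0 < ‖E₀ 1 - c₀‖ := by
    refine (norm_nonneg _).lt_of_ne' fun h0 => ?_
    have h1 := hcc (-1) hn1
    rw [h0] at h1
    have h2 := hinj (show (1 : ℂ) ∈ An b⁻¹ b from ⟨norm_one (α := ℂ) ▸ hb1, norm_one (α := ℂ) ▸ hb⟩)
      (show (-1 : ℂ) ∈ An b⁻¹ b from ⟨hn1 ▸ hb1, hn1 ▸ hb⟩)
      ((sub_eq_zero.1 (norm_eq_zero.1 h0)).trans (sub_eq_zero.1 (norm_eq_zero.1 h1)).symm)
    exact one_ne_zero (self_eq_neg.1 h2)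
  refine ⟨c₀, ‖E₀ 1 - c₀‖, E₀, hpos, hhol, hinj, heq, hcc, ?_, ?_⟩
  · rw [mapsTo_iff_image_subset, ← interior_closedBall c₀ hpos.ne']
    refine interior_maximal ?_ (open_image (isOpen_An _ _) hhol hinj (isOpen_An _ _) hs2)
    rintro _ ⟨z, hz, rfl⟩
    exact mem_closedBall_iff_norm.2 (le_of_tendsto_of_tendsto'
      ((hE₀.tendsto_at (hs2 hz)).sub hct).norm hrt fun k => (mem_ball_iff_norm.1 (hEm k hz)).le)
  · rw [← closure_ball c₀ hpos.ne']
    refine Disjoint.closure_right ?_ (open_image hA.open_D hd hi hA.open_D subset_rfl)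
    rw [Set.disjoint_left]
    rintro _ ⟨z, hz, rfl⟩ hy
    obtain ⟨w, hw, hw'⟩ : ∃ w ∈ A.D, F w - F z ≠ 0 := by
      by_cases h1 : F (A.e j x) = F z
      · exact ⟨_, hD _ hx', sub_ne_zero.2 fun e => hne (h1.trans e.symm)⟩
      · exact ⟨_, hD _ hx, sub_ne_zero.2 h1⟩
    have h1 := ((tendsto_const_nhds (x := F z)).sub hct).norm.eventually_lt hrt
      (mem_ball_iff_norm.1 hy)
    refine hur_Lim1 hA.open_D hc hA.open_D subset_rfl (h := fun k u => h k u - F z)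
      (hd.sub_const (F z)) hw hw' (h1.mono fun k hk => ⟨(hl k).hol.sub_const _, fun u hu e => ?_⟩)
      (ht.sub ((tendsto_const_nhds (x := F z)).tendstoUniformlyOn_const
        A.D).tendstoLocallyUniformlyOn) z hz (sub_self _)
    have h2 : h k u ∈ (C k).D := (hl k).ext ▸ mem_image_of_mem _ hu
    rw [sub_eq_zero.1 e] at h2
    exact h2 (mem_iUnion.2 ⟨j, hK k ▸ mem_closedBall_iff_norm.2 hk.le⟩)

end Vale.Agent.P116.F
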