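import Vale.Agent.P116.F.L3

/-! P116 F/L4 (task, block of helper24). Helper names start with `fl4_`.
Plan. `rnd_dis`: let `N i = closedBall i ∪ F (collar i)` (open). If the closed balls meet, the preconnected ball `j` meets `N i` in the closed set `ball i ∩ ball j` (`out`), so ball `j ⊆` ball `i`, and conversely; then `N i ∩ N j` is open and equals the closed ball (the collars have disjoint images by injectivity), which is not open. `koe_of_rnd`: `Y = F (A.D) ∪ ⋃ closed balls` is open (`= F (A.D) ∪ ⋃ N i`) and closed: for `1 < t < b` it is the union of `F ((⋃ (K i ∪ e i (An 1 t)))ᶜ)` (`closed_image_weld`), the compact sets `E i {1 ≤ ‖z‖ ≤ t}` and the balls; nonempty, so `Y = univ` (`isClopen_iff`).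
-/

open Metric Set Filter Function Topology Complex MeasureTheory
open scoped ComplexConjugate Real

noncomputable section

namespace Vale.Agent.P116.F

open Vale.Agent.P116.W

variable {ι : Type} [Fintype ι] {A B C : Cfg ι} {b r r' R : ℝ} {c c' p : ℂ} {S : Set ι} {j : ι}
  {m n : ℕ} {e f g g' G G' h : ℂ → ℂ} {K K' T Ω : Set ℂ}

theorem rnd_dis {F : ℂ → ℂ} {c : ι → ℂ} {r : ι → ℝ} {E : ι → ℂ → ℂ} (hb : 1 < b) (hA : A.Ok b)
    (hi : InjOn F A.D) (h : ∀ j, Rnd A b j F (c j) (r j) (E j)) :
    Pairwise fun i j => Disjoint (closedBall (c i) (r i)) (closedBall (c j) (r j)) := by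
  have hs : ∀ i j, ¬ Disjoint (closedBall (c i) (r i)) (closedBall (c j) (r j)) →
      closedBall (c j) (r j) ⊆ closedBall (c i) (r i) := fun i j hn => by
    have ho : ∀ y ∈ closedBall (c j) (r j), y ∉ F '' (A.e i '' An 1 b) := fun y hy hy' =>
      disjoint_left.1 (h j).out (image_mono (hA.col_sub i) hy') hy
    rcases isPreconnected_iff_subset_of_disjoint.1 (convex_closedBall (c j) (r j)).isPreconnected
      _ _ ((h i).isOpen hb hA) (isClosed_closedBall (x := c i) (ε := r i)).isOpen_compl
      (fun y _ => (em (y ∈ closedBall (c i) (r i))).imp Or.inl id)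
      (eq_empty_iff_forall_notMem.2 fun y hy => ho y hy.1 (hy.2.1.resolve_left hy.2.2)) with h1 | h1
    · exact fun y hy => (h1 hy).resolve_right (ho y hy)
    · exact absurd (disjoint_right.2 h1) hn
  intro i j hij
  by_contra hn
  have e : closedBall (c j) (r j) = closedBall (c i) (r i) :=
    (hs i j hn).antisymm (hs j i fun h' => hn h'.symm)
  have e2 : (closedBall (c i) (r i) ∪ F '' (A.e i '' An 1 b)) ∩
      (closedBall (c j) (r j) ∪ F '' (A.e j '' An 1 b)) = closedBall (c i) (r i) := by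
    rw [e, ← union_inter_distrib_left, ← hi.image_inter (hA.col_sub i) (hA.col_sub j),
      ((hA.dis hij).mono subset_union_right subset_union_right).inter_eq, image_empty, union_empty]
  have ho : IsOpen (closedBall (c i) (r i)) :=
    e2 ▸ ((h i).isOpen hb hA).inter ((h j).isOpen hb hA)
  rcases isClopen_iff.1 ⟨isClosed_closedBall, ho⟩ with h1 | h1
  · exact (nonempty_closedBall.2 (h i).pos.le).ne_empty h1
  · exact NormedSpace.unbounded_univ ℝ ℂ (h1 ▸ isBounded_closedBall)

theorem koe_of_rnd {F : ℂ → ℂ} {c : ι → ℂ} {r : ι → ℝ} {E : ι → ℂ → ℂ} (hb : 1 < b) (hA : A.Ok b)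
    (hd : DifferentiableOn ℂ F A.D) (hi : InjOn F A.D)
    (hinf : Tendsto F (cocompact ℂ) (cocompact ℂ)) (h : ∀ j, Rnd A b j F (c j) (r j) (E j)) :
    Koe A.K F c r := by
  refine ⟨⟨hd, hi, ?_, hinf⟩, fun i => (h i).pos.le, rnd_dis hb hA hi h,
    fun i ε hε => (h i).clu hb hA ε hε⟩
  have t1 : 1 < (1 + b) / 2 := by linarith
  have t2 : (1 + b) / 2 < b := by linarith
  have hb1 : b⁻¹ < 1 := inv_lt_one_of_one_lt₀ hb
  have h1 : IsOpen (F '' A.D ∪ ⋃ i, closedBall (c i) (r i)) := by
    have e : F '' A.D ∪ ⋃ i, closedBall (c i) (r i) =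
        F '' A.D ∪ ⋃ i, (closedBall (c i) (r i) ∪ F '' (A.e i '' An 1 b)) := by
      refine (union_subset_union_right _ (iUnion_mono fun i => subset_union_left)).antisymm
        (union_subset subset_union_left (iUnion_subset fun i => union_subset
          ((subset_iUnion (fun i => closedBall (c i) (r i)) i).trans subset_union_right)
          ((image_mono (hA.col_sub i)).trans subset_union_left)))
    rw [e]
    exact (open_image hA.open_D hd hi hA.open_D subset_rfl).union
      (isOpen_iUnion fun i => (h i).isOpen hb hA)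
  have s1 : (⋃ i, (A.K i ∪ A.e i '' An 1 ((1 + b) / 2)))ᶜ ⊆ A.D :=
    compl_subset_compl.2 (iUnion_mono fun i => subset_union_left)
  have h2 : IsClosed (F '' A.D ∪ ⋃ i, closedBall (c i) (r i)) := by
    have e : F '' A.D ∪ ⋃ i, closedBall (c i) (r i) =
        F '' (⋃ i, (A.K i ∪ A.e i '' An 1 ((1 + b) / 2)))ᶜ ∪ ⋃ i, (closedBall (c i) (r i) ∪
          E i '' (closedBall 0 ((1 + b) / 2) \ ball 0 1)) := by
      refine Subset.antisymm (union_subset ?_ ((iUnion_mono fun i => subset_union_left).trans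
        subset_union_right)) (union_subset ((image_mono s1).trans subset_union_left)
          (iUnion_subset fun i => union_subset
            ((subset_iUnion (fun i => closedBall (c i) (r i)) i).trans subset_union_right) ?_))
      · rintro _ ⟨x, hx, rfl⟩
        by_cases hc : x ∈ ⋃ i, (A.K i ∪ A.e i '' An 1 ((1 + b) / 2))
        · obtain ⟨i, hc | ⟨z, hz, rfl⟩⟩ := mem_iUnion.1 hc
          · exact absurd (mem_iUnion.2 ⟨i, hc⟩) hx
          · exact Or.inr (mem_iUnion.2 ⟨i, Or.inr ⟨z, ⟨mem_closedBall_zero_iff.2 hz.2.le,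
              fun h' => lt_asymm hz.1 (mem_ball_zero_iff.1 h')⟩, (h i).eq ⟨hz.1, hz.2.trans t2⟩⟩⟩)
        · exact Or.inl ⟨x, hc, rfl⟩
      · rintro _ ⟨z, ⟨hz, hz'⟩, rfl⟩
        rcases (not_lt.1 fun h' => hz' (mem_ball_zero_iff.2 h')).eq_or_lt with h3 | h3
        · exact Or.inr (mem_iUnion.2 ⟨i, mem_closedBall_iff_norm.2 ((h i).circ z h3.symm).le⟩)
        · have hm : z ∈ An 1 b := ⟨h3, (mem_closedBall_zero_iff.1 hz).trans_lt t2⟩
          exact Or.inl ⟨_, hA.col_sub i ⟨z, hm, rfl⟩, ((h i).eq hm).symm⟩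
    rw [e]
    refine (closed_image_weld (isOpen_iUnion fun i => (hA.en i).op _ t1 t2.le).isClosed_compl
      (hd.continuousOn.mono s1) hinf).union (isClosed_iUnion_of_finite fun i =>
        isClosed_closedBall.union (((isCompact_closedBall _ _).diff isOpen_ball).image_of_continuousOn
          ((h i).hol.continuousOn.mono fun z hz => ⟨hb1.trans_le (not_lt.1 fun h' =>
            hz.2 (mem_ball_zero_iff.2 h')), (mem_closedBall_zero_iff.1 hz.1).trans_lt t2⟩)).isClosed)
  refine Subset.antisymm (fun y hy hy' => ?_) fun y hy => ?_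
  · obtain ⟨i, hy'⟩ := mem_iUnion.1 hy'
    exact disjoint_left.1 (h i).out hy hy'
  · rcases isClopen_iff.1 ⟨h2, h1⟩ with h3 | h3
    · rw [union_empty_iff, image_eq_empty, Cfg.D, compl_empty_iff] at h3
      exact absurd h3.1 hA.cpt.ne_univ
    · exact Or.resolve_right (eq_univ_iff_forall.1 h3 y) hy

end Vale.Agent.P116.F
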