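import Vale.Agent.P116.F.Cls
import Vale.Agent.P116.F.L2
import Vale.Agent.P116.F.L4

/-! P116 F/Fin (owner helper24): assembly.
-/

open Metric Set Filter Function Topology Complex MeasureTheory
open scoped ComplexConjugate Real

noncomputable section

namespace Vale.Agent.P116.F

open Vale.Agent.P116.W

variable {ι : Type} [Fintype ι] {A B C : Cfg ι} {b r r' R : ℝ} {c c' p : ℂ} {S : Set ι} {j : ι}
  {m n : ℕ} {e f g g' G G' h : ℂ → ℂ} {K K' T Ω : Set ℂ}

theorem koe_cfg (hb : 1 < b) (hA : A.Ok b) (hc : IsPreconnected A.D) :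
    ∃ g c r, Koe A.K g c r := by
  rcases isEmpty_or_nonempty ι with hι | hι
  · refine ⟨id, fun _ => 0, fun _ => 0, ⟨differentiableOn_id, injOn_id _, ?_, tendsto_id⟩,
      fun i => le_rfl, fun i => isEmptyElim i, fun i => isEmptyElim i⟩
    rw [image_id, iUnion_of_empty, iUnion_of_empty]
  obtain ⟨n, J, hJ⟩ := exists_cyc (ι := ι)
  obtain ⟨B, g, f, c, r, rfl, h⟩ := exists_it hA J
  obtain ⟨R, hR, hs⟩ := hA.ball
  obtain ⟨R₁, hR₁⟩ := h.close hb hJ
  obtain ⟨F, φ, h1, h2, h3, h4⟩ := exists_lim (f := f) (M := 100 * R) hA.open_D hc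
    (by rw [Cfg.D, compl_compl]; exact hA.cpt.isBounded) hJ.pos (fun k => (h.lv k).hol)
    (fun k => (h.lv k).inj) (fun k => ((h.lv k).bound hA hR hs).2) hR₁
  have per : ∀ s k, J (n * k + s) = J s := fun s k => by
    induction k with
    | zero => rw [mul_zero, zero_add]
    | succ k ih => rw [show n * (k + 1) + s = n * k + s + n by ring, hJ.per, ih]
  have key : ∀ j, ∃ c₀ r₀ E, Rnd (B 0) b j F c₀ r₀ E := fun j => by
    obtain ⟨s, rfl⟩ := hJ.sur j
    obtain ⟨s', hs'⟩ : ∃ s', s + n = s' + 1 := ⟨s + n - 1, by have := hJ.pos; omega⟩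
    refine exists_rnd (C := fun k => B (n * k + (s' + 1))) (c := fun k => c (n * k + (s' + 1)))
      (r := fun k => r (n * k + (s' + 1))) hb hA hc (fun k => h.ok _) (fun k => h.lv _)
      (fun k => h.pos _) (fun k => ?_) (fun k => ((h.lv _).bound hA hR hs).1 _) h1 h2 φ (h4 _)
    have e : J s = J (n * k + s' + 1) := by
      rw [add_assoc, per, ← hs', hJ.per]
    rw [e]
    exact h.rnd _
  choose c₀ r₀ E hE using key
  exact ⟨F, c₀, r₀, koe_of_rnd hb hA h1 h2 h3 hE⟩

end Vale.Agent.P116.F
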