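import Vale.Agent.P116.F.Sw
import Vale.Agent.P116.F.Ext

/-! P116 F/Flip (task, block of helper24). Helper names start with `fflip_`.
Plan. `invS_con`: `invS p K` lies between the image of `Kᶜ` under `z ↦ (z - p)⁻¹` and its closure. `invS_cpt`: closed and bounded. `End.compl`: `Kᶜ` is the directed union of the sets `(K ∪ e (Ac a t))ᶜ` (`End.compl_con`, `IsPreconnected.sUnion_directed` or `isPreconnected_of_forall_pair`). `End.flip`: the core `invS p (K ∪ e (An 1 b))` with the collar `ζ ↦ (e (b / ζ) - p)⁻¹` is an `End _ _ 1 b`: core `∪` collar on `An 1 t` is `invS p (K ∪ e (Ac 1 (b / t)))` (`= invS p K` for `t = b`), on `Ac 1 t` it is `invS p (K ∪ e (An 1 (b / t)))`; then `End.hasSqrt`.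
-/

open Metric Set Filter Function Topology Complex MeasureTheory
open scoped ComplexConjugate Real

noncomputable section

namespace Vale.Agent.P116.F

open Vale.Agent.P116.W

variable {ι : Type} [Fintype ι] {A B C : Cfg ι} {b r r' R : ℝ} {c c' p : ℂ} {S : Set ι} {j : ι}
  {m n : ℕ} {e f g g' G G' h : ℂ → ℂ} {K K' T Ω : Set ℂ}

theorem invS_con (hK : IsCompact K) (hp : p ∈ K) (hc : IsPreconnected Kᶜ) :
    IsPreconnected (invS p K) := by
  have h1 : IsPreconnected ((fun z => (z - p)⁻¹) '' Kᶜ) :=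
    hc.image _ ((continuousOn_id.sub continuousOn_const).inv₀ fun z hz h0 =>
      hz ((sub_eq_zero.1 h0 : z = p) ▸ hp))
  refine h1.subset_closure ?_ ?_
  · rintro _ ⟨z, hz, rfl⟩
    exact Or.inr (by rwa [inv_inv, add_sub_cancel])
  · rintro w (rfl | hw)
    · have h2 : Tendsto (fun z : ℂ => (z - p)⁻¹) (cocompact ℂ) (𝓝 0) := by
        refine tendsto_inv₀_cobounded.comp ?_
        rw [Metric.cobounded_eq_cocompact]
        exact (Homeomorph.subRight p).toCocompactMap.cocompact_tendsto'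
      exact mem_closure_of_tendsto h2
        (eventually_of_mem hK.compl_mem_cocompact fun z hz => ⟨z, hz, rfl⟩)
    · exact subset_closure ⟨_, hw, by simp only [add_sub_cancel_left, inv_inv]⟩

theorem invS_cpt (hK : IsOpen K) (hp : p ∈ K) : IsCompact (invS p K) := by
  obtain ⟨δ, h0, hδ⟩ := Metric.isOpen_iff.1 hK p hp
  refine Metric.isCompact_of_isClosed_isBounded ?_ ?_
  · have e : invS p K = ({0}ᶜ ∩ (fun w => p + w⁻¹) ⁻¹' K)ᶜ := by
      ext w
      simp only [invS, mem_ofPred_eq, mem_compl_iff, mem_inter_iff, mem_singleton_iff,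
        mem_preimage, not_and_or, not_not]
    rw [e, isClosed_compl_iff]
    exact (continuousOn_const.add continuousOn_inv₀).isOpen_inter_preimage isOpen_compl_singleton hK
  · refine (isBounded_closedBall (x := 0) (r := δ⁻¹)).subset ?_
    rintro w (rfl | hw)
    · exact mem_closedBall_self (by positivity)
    · have h1 : δ ≤ ‖w‖⁻¹ := not_lt.1 fun h => hw (hδ (by
        rwa [mem_ball_iff_norm, add_sub_cancel_left, norm_inv]))
      rw [mem_closedBall_zero_iff, ← inv_inv ‖w‖]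
      exact inv_anti₀ h0 h1

theorem _root_.Vale.Agent.P116.W.End.compl {a : ℝ} (h : End K e a b) : IsPreconnected Kᶜ := by
  refine isPreconnected_of_forall_pair fun x hx y hy => ?_
  obtain ⟨t, h1, h2, h3⟩ := h.small (Ω := {x, y}ᶜ) (toFinite _).isClosed.isOpen_compl (by
    rintro z hz (rfl | rfl)
    exacts [hx hz, hy hz])
  obtain ⟨s, s1, s2⟩ := exists_between h1
  have h4 := (image_mono (Ac_sub_bas (a := a) s2)).trans h3
  refine ⟨_, compl_subset_compl.2 subset_union_left, ?_, ?_, h.compl_con s1 (s2.trans h2)⟩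
  · rintro (k | k)
    exacts [hx k, h4 k (Or.inl rfl)]
  · rintro (k | k)
    exacts [hy k, h4 k (Or.inr rfl)]

theorem fflip_an (hb : 1 < b) {z : ℂ} (hz : z ∈ An 1 b) :
    (b : ℂ) / z ∈ An 1 b ∧ (b : ℂ) / (b / z) = z ∧ ‖(b : ℂ) / z‖ = b / ‖z‖ := by
  have h0 : 0 < b := one_pos.trans hb
  have h1 : 0 < ‖z‖ := one_pos.trans hz.1
  have h2 : ‖(b : ℂ) / z‖ = b / ‖z‖ := by rw [norm_div, norm_real, Real.norm_of_nonneg h0.le]
  refine ⟨⟨?_, ?_⟩, div_div_cancel₀ (ofReal_ne_zero.2 h0.ne'), h2⟩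
  · rw [h2]
    exact (one_lt_div h1).2 hz.2
  · rw [h2]
    exact div_lt_self h0 hz.1

theorem fflip_eq (h : End K e 1 b) (p : ℂ) {X Y : Set ℂ} (hX : X ⊆ An 1 b) (hY : Y ⊆ An 1 b)
    (hXY : ∀ z ∈ An 1 b, z ∈ X ↔ (b : ℂ) / z ∉ Y) :
    invS p (K ∪ e '' An 1 b) ∪ (fun ζ => (e (b / ζ) - p)⁻¹) '' Y = invS p (K ∪ e '' X) := by
  ext w
  constructor
  · rintro ((hw | hw) | ⟨ζ, hζ, rfl⟩)
    · exact Or.inl hw
    · exact Or.inr fun k => hw (union_subset_union_right _ (image_mono hX) k)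
    · obtain ⟨h1, h2, -⟩ := fflip_an h.lt (hY hζ)
      refine Or.inr ?_
      rw [inv_inv, add_sub_cancel]
      rintro (k | ⟨z, hz, k⟩)
      · exact Set.disjoint_left.1 h.dis k ⟨_, h1, rfl⟩
      · refine (hXY z (hX hz)).1 hz ?_
        rwa [h.inj (hX hz) h1 k, h2]
  · rintro (hw | hw)
    · exact Or.inl (Or.inl hw)
    · by_cases k : p + w⁻¹ ∈ K ∪ e '' An 1 b
      · rcases k with k | ⟨z, hz, k⟩
        · exact absurd (Or.inl k) hw
        · refine Or.inr ⟨b / z, not_not.1 fun h1 => hw (Or.inr ⟨z, (hXY z hz).2 h1, k⟩), ?_⟩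
          simp only [(fflip_an h.lt hz).2.1, k, add_sub_cancel_left, inv_inv]
      · exact Or.inl (Or.inr k)

theorem _root_.Vale.Agent.P116.W.End.flip (h : End K e 1 b) (hp : p ∈ K) :
    IsPreconnected (invS p K) ∧ HasSqrt (invS p K) := by
  have hb := h.lt
  have h0 : 0 < b := one_pos.trans hb
  have hc := invS_con h.isCompact hp h.compl
  have hne : ∀ ζ ∈ An 1 b, e (b / ζ) - p ≠ 0 := fun ζ hζ k =>
    Set.disjoint_left.1 h.dis hp ⟨_, (fflip_an hb hζ).1, sub_eq_zero.1 k⟩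
  have e0 := fflip_eq h p (empty_subset _) subset_rfl fun z hz =>
    iff_of_false (notMem_empty z) (not_not.2 (fflip_an hb hz).1)
  rw [image_empty, union_empty] at e0
  have hE : End (invS p (K ∪ e '' An 1 b)) (fun ζ => (e (b / ζ) - p)⁻¹) 1 b := by
    refine ⟨one_pos, hb, ⟨0, Or.inl rfl⟩, ?_, fun ζ hζ ζ' hζ' k => ?_, ?_, fun t h1 h2 => ?_,
      fun t h1 h2 => ?_, e0 ▸ hc⟩
    · refine ((h.hol.comp (f := fun ζ : ℂ => (b : ℂ) / ζ) ((differentiableOn_const _).div
        differentiableOn_id fun ζ hζ => norm_pos_iff.1 (one_pos.trans hζ.1))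
        fun ζ hζ => (fflip_an hb hζ).1).sub_const p).inv hne
    · rw [← (fflip_an hb hζ).2.1, ← (fflip_an hb hζ').2.1,
        h.inj (fflip_an hb hζ).1 (fflip_an hb hζ').1 (sub_left_injective (inv_injective k))]
    · refine Set.disjoint_right.2 ?_
      rintro _ ⟨ζ, hζ, rfl⟩ (k | k)
      · exact inv_ne_zero (hne ζ hζ) k
      · rw [inv_inv, add_sub_cancel] at k
        exact k (Or.inr ⟨_, (fflip_an hb hζ).1, rfl⟩)
    · rcases h2.eq_or_lt with rfl | h3
      · rw [e0]
        exact invS_open h.isCompact p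
      · have t0 := one_pos.trans h1
        rw [fflip_eq h p (X := Ac 1 (b / t)) (Ac_sub_bas (div_lt_self h0 h1)) (An_mono_bas h2)
          fun z hz => ?_]
        · exact invS_open (h.cpt _ ((one_lt_div t0).2 h3) (div_lt_self h0 h1)) p
        · have z0 := one_pos.trans hz.1
          have z1 := (fflip_an hb hz).1.1
          simp only [An, Ac, mem_ofPred_eq, hz.1, z1, true_and, not_lt]
          rw [(fflip_an hb hz).2.2, le_div_iff₀ t0, le_div_iff₀ z0, mul_comm]
    · have t0 := one_pos.trans h1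
      rw [fflip_eq h p (X := An 1 (b / t)) (An_mono_bas (div_lt_self h0 h1).le) (Ac_sub_bas h2)
        fun z hz => ?_]
      · exact invS_cpt (h.op _ ((one_lt_div t0).2 h2) (div_lt_self h0 h1).le) (Or.inl hp)
      · have z0 := one_pos.trans hz.1
        have z1 := (fflip_an hb hz).1.1
        simp only [An, Ac, mem_ofPred_eq, hz.1, z1, true_and, not_le]
        rw [(fflip_an hb hz).2.2, lt_div_iff₀ t0, lt_div_iff₀ z0, mul_comm]
  exact ⟨hc, e0 ▸ hE.hasSqrt⟩

end Vale.Agent.P116.F
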