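import Vale.Agent.P116.W.Four

/-! P116 F/H9a: Laurent splitting in a collar. -/

open Metric Set Filter Function Topology Complex
open scoped ComplexConjugate Real

noncomputable section

namespace Vale.Agent.P116.F

open W

/-- The Cauchy integral over the curve `e '' sphere 0 s`. -/
def cauE (h e : ℂ → ℂ) (s : ℝ) (z : ℂ) : ℂ :=
  (2 * π * I : ℂ)⁻¹ • ∮ u in C(0, s), (e u - z)⁻¹ • (h (e u) * deriv e u)

theorem h9a_diff {e k : ℂ → ℂ} {r : ℝ} (hr : 0 < r) (he : ContinuousOn e (sphere 0 r))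
    (hc : ContinuousOn k (sphere 0 r)) {z : ℂ} (hz : z ∉ e '' sphere 0 r) :
    DifferentiableAt ℂ (fun z => ∮ u in C(0, r), (e u - z)⁻¹ • k u) z := by
  have hm : ∀ θ, circleMap 0 r θ ∈ sphere (0 : ℂ) r := circleMap_mem_sphere 0 hr.le
  set g : ℝ → ℂ := fun θ => deriv (circleMap 0 r) θ * k (circleMap 0 r θ) with hg
  have gc : Continuous g := by
    refine Continuous.mul ?_ (hc.comp_continuous (continuous_circleMap 0 r) hm)
    rw [show deriv (circleMap 0 r) = fun θ => circleMap 0 r θ * I from funext (deriv_circleMap 0 r)]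
    exact (continuous_circleMap 0 r).mul continuous_const
  have ec : Continuous fun θ => e (circleMap 0 r θ) :=
    he.comp_continuous (continuous_circleMap 0 r) hm
  obtain ⟨δ, δ0, hδ⟩ := Metric.isOpen_iff.1
    ((isCompact_sphere (0 : ℂ) r).image_of_continuousOn he).isClosed.isOpen_compl z hz
  set ε := δ / 2 with hε
  have ε0 : 0 < ε := half_pos δ0
  have far : ∀ θ, ∀ x ∈ ball z ε, ε ≤ ‖e (circleMap 0 r θ) - x‖ := by
    intro θ x hx
    have h1 : δ ≤ dist (e (circleMap 0 r θ)) z :=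
      not_lt.1 fun h => hδ h ⟨_, hm θ, rfl⟩
    have h2 := dist_triangle (e (circleMap 0 r θ)) x z
    rw [mem_ball] at hx
    rw [← dist_eq_norm]
    linarith
  have ne : ∀ θ, ∀ x ∈ ball z ε, e (circleMap 0 r θ) - x ≠ 0 := fun θ x hx =>
    norm_pos_iff.1 (ε0.trans_le (far θ x hx))
  have ci : ∀ x ∈ ball z ε, Continuous fun θ => (e (circleMap 0 r θ) - x)⁻¹ := fun x hx =>
    (ec.sub continuous_const).inv₀ fun θ => ne θ x hx
  have key := intervalIntegral.hasDerivAt_integral_of_dominated_loc_of_deriv_le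
    (μ := MeasureTheory.volume) (a := 0) (b := 2 * π)
    (F := fun x θ => (e (circleMap 0 r θ) - x)⁻¹ * g θ)
    (F' := fun x θ => (e (circleMap 0 r θ) - x)⁻¹ ^ 2 * g θ) (bound := fun θ => ε⁻¹ ^ 2 * ‖g θ‖)
    (ball_mem_nhds z ε0)
    (by
      filter_upwards [ball_mem_nhds z ε0] with x hx
      exact ((ci x hx).mul gc).aestronglyMeasurable)
    (((ci z (mem_ball_self ε0)).mul gc).intervalIntegrable _ _)
    (((ci z (mem_ball_self ε0)).pow 2).mul gc).aestronglyMeasurable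
    (Eventually.of_forall fun θ _ x hx => by
      rw [norm_mul, norm_pow, norm_inv]
      gcongr
      exact far θ x hx)
    ((continuous_const.mul gc.norm).intervalIntegrable _ _)
    (Eventually.of_forall fun θ _ x hx => by
      have h1 := (((hasDerivAt_id x).const_sub (e (circleMap 0 r θ))).inv
        (ne θ x hx)).mul_const (g θ)
      refine h1.congr_deriv ?_
      simp only [id, neg_neg, one_div, inv_pow])
  have e1 : (fun z => ∮ u in C(0, r), (e u - z)⁻¹ • k u) = fun x =>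
      ∫ θ in (0 : ℝ)..2 * π, (e (circleMap 0 r θ) - x)⁻¹ * g θ := by
    funext x
    unfold circleIntegral
    congr 1
    funext θ
    simp only [hg, smul_eq_mul]
    ring
  rw [e1]
  exact key.2.differentiableAt

variable {C : Set ℂ} {h e : ℂ → ℂ} {a b : ℝ}

theorem h9a_sph {s : ℝ} (h1 : a < s) (h2 : s < b) : sphere (0 : ℂ) s ⊆ An a b := fun w hw => by
  have : ‖w‖ = s := by simpa using hw
  exact ⟨this ▸ h1, this ▸ h2⟩

theorem h9a_hol (hE : End C e a b) (hd : DifferentiableOn ℂ h (e '' An a b)) :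
    DifferentiableOn ℂ (fun u => h (e u) * deriv e u) (An a b) :=
  (hd.comp hE.hol (mapsTo_image e _)).mul (hE.hol.deriv (isOpen_An a b))

theorem cauE_same (hE : End C e a b) (hd : DifferentiableOn ℂ h (e '' An a b)) {r R : ℝ}
    (h1 : a < r) (hle : r ≤ R) (h2 : R < b) {z : ℂ} (hz : ∀ u, r ≤ ‖u‖ → ‖u‖ ≤ R → e u ≠ z) :
    cauE h e R z = cauE h e r z := by
  unfold cauE
  congr 1
  refine ann_four (U := An a b ∩ e ⁻¹' {z}ᶜ) (hE.pos.trans h1) hle
    (hE.hol.continuousOn.isOpen_inter_preimage (isOpen_An a b) isOpen_compl_singleton)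
    (fun w k1 k2 => ⟨⟨h1.trans_le k1, k2.trans_lt h2⟩, hz w k1 k2⟩) ?_
  exact (((hE.hol.mono inter_subset_left).sub_const z).inv fun w hw => sub_ne_zero.2 hw.2).smul
    ((h9a_hol hE hd).mono inter_subset_left)

theorem cauE_jump (hE : End C e a b) (hd : DifferentiableOn ℂ h (e '' An a b)) {r R : ℝ}
    (h1 : a < r) (h2 : R < b) {u : ℂ} (k1 : r < ‖u‖) (k2 : ‖u‖ < R) :
    h (e u) = cauE h e R (e u) - cauE h e r (e u) := by
  have hu : u ∈ An a b := ⟨h1.trans k1, k2.trans h2⟩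
  have h0 := P142.deriv_ne (isOpen_An a b) hE.hol hE.inj hu
  have hs : ∀ w ∈ An a b, dslope e u w ≠ 0 := fun w hw => by
    rcases eq_or_ne w u with rfl | hne
    · rwa [dslope_same]
    · rw [dslope_of_ne _ hne, slope_def_module]
      exact smul_ne_zero (inv_ne_zero (sub_ne_zero.2 hne))
        (sub_ne_zero.2 fun hc => hne (hE.inj hw hu hc))
  have key := jump_four hE.pos ((h9a_hol hE hd).div
    ((differentiableOn_dslope ((isOpen_An a b).mem_nhds hu)).2 hE.hol) hs) h1 h2 k1 k2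
  have same : ∀ s, a < s → s < b → s ≠ ‖u‖ →
      cau_four ((fun u => h (e u) * deriv e u) / dslope e u) s u = cauE h e s (e u) := by
    intro s s1 s2 s3
    unfold cau_four cauE
    congr 1
    refine circleIntegral.integral_congr (hE.pos.trans s1).le fun w hw => ?_
    have hne : w ≠ u := fun hc => s3 (by rw [← hc]; simpa using hw.symm)
    have h3 : w - u ≠ 0 := sub_ne_zero.2 hne
    have h4 : e w - e u ≠ 0 := sub_ne_zero.2 fun hc => hne (hE.inj (h9a_sph s1 s2 hw) hu hc)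
    simp only [Pi.div_apply, dslope_of_ne _ hne, slope_def_module, smul_eq_mul]
    field_simp
  rw [same R (hu.1.trans k2) h2 k2.ne', same r h1 (k1.trans hu.2) k1.ne, Pi.div_apply, dslope_same,
    mul_div_cancel_right₀ _ h0] at key
  exact key

theorem cauE_norm (hE : End C e a b) {s M M' d : ℝ} (h1 : a < s) (hd0 : 0 < d) {z : ℂ}
    (hM : ∀ u ∈ sphere (0 : ℂ) s, ‖h (e u)‖ ≤ M) (hM' : ∀ u ∈ sphere (0 : ℂ) s, ‖deriv e u‖ ≤ M')
    (hz : ∀ u ∈ sphere (0 : ℂ) s, d ≤ ‖e u - z‖) : ‖cauE h e s z‖ ≤ s * (d⁻¹ * (M * M')) := by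
  refine circleIntegral.norm_two_pi_i_inv_smul_integral_le_of_norm_le_const
    (hE.pos.trans h1).le fun w hw => ?_
  rw [norm_smul, norm_inv, norm_mul]
  exact mul_le_mul (inv_anti₀ hd0 (hz w hw)) (mul_le_mul (hM w hw) (hM' w hw) (norm_nonneg _)
    ((norm_nonneg _).trans (hM w hw))) (by positivity) (inv_nonneg.2 hd0.le)

theorem cauE_lim (hE : End C e a b) (hd : DifferentiableOn ℂ h (e '' An a b)) {s : ℝ}
    (h1 : a < s) (h2 : s < b) : Tendsto (cauE h e s) (cocompact ℂ) (𝓝 0) := by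
  have hs := h9a_sph h1 h2
  obtain ⟨M, hM⟩ := (isCompact_sphere (0 : ℂ) s).exists_bound_of_continuousOn
    ((hd.comp hE.hol (mapsTo_image e _)).continuousOn.mono hs)
  obtain ⟨M', hM'⟩ := (isCompact_sphere (0 : ℂ) s).exists_bound_of_continuousOn
    ((hE.hol.deriv (isOpen_An a b)).continuousOn.mono hs)
  obtain ⟨R, hR⟩ := (isCompact_sphere (0 : ℂ) s).exists_bound_of_continuousOn
    (hE.hol.continuousOn.mono hs)
  have t0 : Tendsto (fun z : ℂ => ‖z‖ - R) (cocompact ℂ) atTop :=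
    tendsto_atTop_add_const_right _ (-R) tendsto_norm_cocompact_atTop
  have t1 : Tendsto (fun z : ℂ => s * ((‖z‖ - R)⁻¹ * (M * M'))) (cocompact ℂ)
      (𝓝 (s * (0 * (M * M')))) := (t0.inv_tendsto_atTop.mul_const _).const_mul s
  rw [zero_mul, mul_zero] at t1
  refine squeeze_zero_norm' ?_ t1
  filter_upwards [t0.eventually_gt_atTop 0] with z hz
  refine cauE_norm hE h1 hz hM hM' fun w hw => ?_
  rw [norm_sub_rev]
  linarith [norm_sub_norm_le z (e w), hR w hw]

theorem cauE_diff (hE : End C e a b) (hd : DifferentiableOn ℂ h (e '' An a b)) {s : ℝ}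
    (h1 : a < s) (h2 : s < b) {z : ℂ} (hz : z ∉ e '' sphere 0 s) :
    DifferentiableAt ℂ (cauE h e s) z :=
  (h9a_diff (hE.pos.trans h1) (hE.hol.continuousOn.mono (h9a_sph h1 h2))
    ((h9a_hol hE hd).continuousOn.mono (h9a_sph h1 h2)) hz).fun_const_smul _

theorem split (hE : End C e a b) (hd : DifferentiableOn ℂ h (e '' An a b)) :
    ∃ N P : ℂ → ℂ, DifferentiableOn ℂ N Cᶜ ∧ Tendsto N (cocompact ℂ) (𝓝 0) ∧
      DifferentiableOn ℂ P (C ∪ e '' An a b) ∧ (∀ z ∈ e '' An a b, h z = P z + N z) ∧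
      ∀ s, a < s → s < b → ∀ z ∉ C ∪ e '' Ac a s, N z = -cauE h e s z := by
  obtain ⟨m, m1, m2⟩ := exists_between hE.lt
  have hN : ∀ z, ∃ t, a < t ∧ t < b ∧ (z ∉ C → z ∉ C ∪ e '' Ac a t) := fun z => by
    by_cases hz : z ∈ e '' An a b
    · obtain ⟨u, hu, rfl⟩ := hz
      obtain ⟨t, t1, t2⟩ := exists_between hu.1
      refine ⟨t, t1, t2.trans hu.2, fun hc => not_or.2 ⟨hc, ?_⟩⟩
      rintro ⟨w, hw, he⟩
      obtain rfl := hE.inj (Ac_sub_bas (t2.trans hu.2) hw) hu he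
      exact hw.2.not_gt t2
    · exact ⟨m, m1, m2, fun hc => not_or.2 ⟨hc, fun h => hz (image_mono (Ac_sub_bas m2) h)⟩⟩
  have hP : ∀ z, ∃ t, a < t ∧ t < b ∧ (z ∈ C ∪ e '' An a b → z ∈ C ∪ e '' An a t) := fun z => by
    by_cases hz : z ∈ e '' An a b
    · obtain ⟨u, hu, rfl⟩ := hz
      obtain ⟨t, t1, t2⟩ := exists_between hu.2
      exact ⟨t, hu.1.trans t1, t2, fun _ => Or.inr ⟨u, ⟨hu.1, t1⟩, rfl⟩⟩
    · exact ⟨m, m1, m2, fun hc => Or.inl (hc.resolve_right hz)⟩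
  choose tN n1 n2 n3 using hN
  choose tP p1 p2 p3 using hP
  have sN : ∀ s t, a < s → s < b → a < t → t < b → ∀ z, z ∉ C ∪ e '' Ac a s →
      z ∉ C ∪ e '' Ac a t → cauE h e s z = cauE h e t z := by
    intro s t s1 s2 t1 t2 z z1 z2
    wlog hle : s ≤ t generalizing s t
    · exact (this t s t1 t2 s1 s2 z2 z1 (not_le.1 hle).le).symm
    exact (cauE_same hE hd s1 hle t2 fun u u1 u2 hc =>
      z2 (Or.inr ⟨u, ⟨s1.trans_le u1, u2⟩, hc⟩)).symm
  have out : ∀ s, s < b → ∀ z ∈ C ∪ e '' An a s, ∀ u ∈ An a b, s ≤ ‖u‖ → e u ≠ z := by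
    rintro s s2 z (hz | ⟨w, hw, rfl⟩) u hu u1 hc
    · exact Set.disjoint_left.1 hE.dis hz ⟨u, hu, hc⟩
    · obtain rfl := hE.inj hu (An_mono_bas s2.le hw) hc
      exact hw.2.not_ge u1
  have sP : ∀ s t, a < s → s < b → a < t → t < b → ∀ z, z ∈ C ∪ e '' An a s →
      z ∈ C ∪ e '' An a t → cauE h e s z = cauE h e t z := by
    intro s t s1 s2 t1 t2 z z1 z2
    wlog hle : s ≤ t generalizing s t
    · exact (this t s t1 t2 s1 s2 z2 z1 (not_le.1 hle).le).symm
    exact (cauE_same hE hd s1 hle t2 fun u u1 u2 =>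
      out s s2 z z1 u ⟨s1.trans_le u1, u2.trans_lt t2⟩ u1).symm
  have eN : ∀ s, a < s → s < b → ∀ z ∉ C ∪ e '' Ac a s, -cauE h e (tN z) z = -cauE h e s z :=
    fun s s1 s2 z hz => congrArg Neg.neg
      (sN _ _ (n1 z) (n2 z) s1 s2 z (n3 z fun hc => hz (Or.inl hc)) hz)
  refine ⟨fun z => -cauE h e (tN z) z, fun z => cauE h e (tP z) z, fun z hz => ?_, ?_,
    fun z hz => ?_, ?_, eN⟩
  · refine ((cauE_diff hE hd (n1 z) (n2 z) fun hc => n3 z hz (Or.inr (image_mono
      (fun w hw => ?_) hc))).neg.congr_of_eventuallyEq ?_).differentiableWithinAt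
    · have : ‖w‖ = tN z := by simpa using hw
      exact ⟨this ▸ n1 z, this.le⟩
    · filter_upwards [(hE.cpt _ (n1 z) (n2 z)).isClosed.isOpen_compl.mem_nhds (n3 z hz)] with w hw
      exact eN _ (n1 z) (n2 z) w hw
  · have t := (cauE_lim hE hd m1 m2).neg
    rw [neg_zero] at t
    refine t.congr' ?_
    filter_upwards [(hE.cpt m m1 m2).compl_mem_cocompact] with z hz
    exact (eN m m1 m2 z hz).symm
  · refine ((cauE_diff hE hd (p1 z) (p2 z) ?_).congr_of_eventuallyEq ?_).differentiableWithinAt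
    · rintro ⟨w, hw, hc⟩
      have : ‖w‖ = tP z := by simpa using hw
      exact out _ (p2 z) z (p3 z hz) w (h9a_sph (p1 z) (p2 z) hw) this.ge hc
    · filter_upwards [(hE.op _ (p1 z) (p2 z).le).mem_nhds (p3 z hz)] with w hw
      exact sP _ _ (p1 w) (p2 w) (p1 z) (p2 z) w
        (p3 w (union_subset_union_right _ (image_mono (An_mono_bas (p2 z).le)) hw)) hw
  · rintro _ ⟨u, hu, rfl⟩
    have hc : e u ∉ C := fun hc => Set.disjoint_left.1 hE.dis hc ⟨u, hu, rfl⟩
    have k1 : tN (e u) < ‖u‖ := not_le.1 fun hl => n3 _ hc (Or.inr ⟨u, ⟨hu.1, hl⟩, rfl⟩)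
    have k2 : ‖u‖ < tP (e u) := not_le.1 fun hl =>
      out _ (p2 _) _ (p3 _ (Or.inr ⟨u, hu, rfl⟩)) u hu hl rfl
    rw [cauE_jump hE hd (n1 _) (p2 _) k1 k2, sub_eq_add_neg]

end Vale.Agent.P116.F
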