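import Vale.Agent.P116.W.Weld
import Vale.Agent.P116.T.Pl

/-! P116 F/H9c: from round ends to the conclusion of Koebe's theorem. -/

open Metric Set Filter Function Topology Complex
open scoped ComplexConjugate Real

noncomputable section

namespace Vale.Agent.P116.F

open W

theorem end_cpt {C : Set ℂ} {e : ℂ → ℂ} {a b : ℝ} (h : End C e a b) : IsCompact C := by
  obtain ⟨m, m1, m2⟩ := exists_between h.lt
  have e1 : C = (C ∪ e '' Ac a m) \ e '' An a b := by
    refine Subset.antisymm (fun z hz => ⟨Or.inl hz, Set.disjoint_left.1 h.dis hz⟩) fun z hz => ?_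
    exact hz.1.resolve_right fun hc => hz.2 (image_mono (Ac_sub_bas m2) hc)
  rw [e1]
  exact (h.cpt m m1 m2).diff
    (open_image (isOpen_An a b) h.hol h.inj (isOpen_An a b) Subset.rfl)

theorem end_shrink {C O : Set ℂ} {e : ℂ → ℂ} {a b : ℝ} (h : End C e a b) (hO : IsOpen O)
    (hC : C ⊆ O) : ∃ t, a < t ∧ t < b ∧ e '' Ac a t ⊆ O := by
  have : Nonempty (Ioo a b) := (nonempty_Ioo.2 h.lt).to_subtype
  have hm : Monotone fun t : Ioo a b => C ∪ e '' Ac a t := fun s t hst =>
    union_subset_union_right _ (image_mono fun z hz => ⟨hz.1, hz.2.trans hst⟩)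
  obtain ⟨t, ht⟩ := exists_subset_nhds_of_isCompact' (V := fun t : Ioo a b => C ∪ e '' Ac a t)
    hm.directed_ge (fun t => h.cpt t t.2.1 t.2.2) (fun t => (h.cpt t t.2.1 t.2.2).isClosed)
    (U := O) fun z hz => by
      refine hO.mem_nhds (hC ?_)
      by_contra hc
      obtain ⟨u, hu, rfl⟩ := (mem_iInter.1 hz (Classical.arbitrary _)).resolve_left hc
      have hu' := Ac_sub_bas (Classical.arbitrary (Ioo a b)).2.2 hu
      obtain ⟨s, s1, s2⟩ := exists_between hu.1
      obtain ⟨w, hw, he⟩ := (mem_iInter.1 hz ⟨s, s1, s2.trans hu'.2⟩).resolve_left hc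
      obtain rfl := h.inj (Ac_sub_bas (s2.trans hu'.2) hw) hu' he
      exact hw.2.not_gt s2
  exact ⟨t, t.2.1, t.2.2, subset_union_right.trans ht⟩

theorem h9c_sub {B B' O : Set ℂ} (hB : IsPreconnected B) (hc : IsClosed B') (hO : IsOpen O)
    (h1 : B' ⊆ O) (h2 : B ∩ O ⊆ B') (hn : (B ∩ B').Nonempty) : B ⊆ B' := by
  intro y hy
  by_contra hy'
  obtain ⟨z, z1, z2, z3⟩ := hB O B'ᶜ hO hc.isOpen_compl
    (fun z _ => (em (z ∈ B')).imp (fun h => h1 h) id) (hn.mono (inter_subset_inter_right _ h1))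
    ⟨y, hy, hy'⟩
  exact z3 (h2 ⟨z1, z2⟩)

theorem koe_of_end {ι : Type} [Finite ι] {K : ι → Set ℂ} {e : ι → ℂ → ℂ} {g : ℂ → ℂ} {a : ι → ℂ}
    {r : ι → ℝ} {b : ℝ} (hK : ∀ j, End (K j) (e j) 1 b)
    (hsub : ∀ j, e j '' An 1 b ⊆ (⋃ i, K i)ᶜ)
    (hdis : Pairwise fun i j => Disjoint (e i '' An 1 b) (e j '' An 1 b))
    (hd : DifferentiableOn ℂ g (⋃ i, K i)ᶜ) (hi : InjOn g (⋃ i, K i)ᶜ)
    (hinf : Tendsto g (cocompact ℂ) (cocompact ℂ))
    (hE : ∀ j, End (closedBall (a j) (r j)) (g ∘ e j) 1 b) (hr : ∀ j, 0 ≤ r j)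
    (hout : ∀ j, ∀ z ∈ (⋃ i, K i)ᶜ, r j < ‖g z - a j‖) : Koe K g a r := by
  have hc : IsCompact (⋃ i, K i) := isCompact_iUnion fun i => end_cpt (hK i)
  have hD := hc.isClosed.isOpen_compl
  have out : ∀ j, ∀ y ∈ g '' (⋃ i, K i)ᶜ, y ∉ closedBall (a j) (r j) := by
    rintro j _ ⟨z, hz, rfl⟩ hy
    exact (mem_closedBall_iff_norm.1 hy).not_gt (hout j z hz)
  have im : ∀ j, (g ∘ e j) '' An 1 b ⊆ g '' (⋃ i, K i)ᶜ := fun j => by
    rw [image_comp]
    exact image_mono (hsub j)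
  have op := fun j => (hE j).op b (hE j).lt le_rfl
  refine ⟨⟨hd, hi, Subset.antisymm (fun y hy hy' => ?_) ?_, hinf⟩, hr, fun i j hij => ?_,
    fun j ε hε => ?_⟩
  · obtain ⟨j, hj⟩ := mem_iUnion.1 hy'
    exact out j y hy hj
  · have h1 : IsOpen ((⋃ j, closedBall (a j) (r j)) ∪ g '' (⋃ i, K i)ᶜ) := by
      have e1 : (⋃ j, closedBall (a j) (r j)) ∪ g '' (⋃ i, K i)ᶜ =
          (⋃ j, (closedBall (a j) (r j) ∪ (g ∘ e j) '' An 1 b)) ∪ g '' (⋃ i, K i)ᶜ := by
        refine Subset.antisymm (union_subset_union_left _ (iUnion_mono fun j => subset_union_left))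
          (union_subset (iUnion_subset fun j => union_subset_union ?_ (im j)) subset_union_right)
        exact subset_iUnion (fun j => closedBall (a j) (r j)) j
      rw [e1]
      exact (isOpen_iUnion op).union (open_image hD hd hi hD Subset.rfl)
    have h2 : IsClosed ((⋃ j, closedBall (a j) (r j)) ∪ g '' (⋃ i, K i)ᶜ) := by
      have ht : ∀ j : ι, ∃ t, 1 < t ∧ t < b := fun j => exists_between (hK j).lt
      choose t t1 t2 using ht
      have s1 : (⋃ j, (K j ∪ e j '' An 1 (t j)))ᶜ ⊆ (⋃ i, K i)ᶜ :=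
        compl_subset_compl.2 (iUnion_mono fun j => subset_union_left)
      have e1 : (⋃ j, closedBall (a j) (r j)) ∪ g '' (⋃ i, K i)ᶜ =
          (⋃ j, (closedBall (a j) (r j) ∪ (g ∘ e j) '' Ac 1 (t j))) ∪
            g '' (⋃ j, (K j ∪ e j '' An 1 (t j)))ᶜ := by
        refine Subset.antisymm (union_subset ((iUnion_mono fun j => subset_union_left).trans
          subset_union_left) ?_) (union_subset (iUnion_subset fun j => union_subset_union
            (subset_iUnion (fun j => closedBall (a j) (r j)) j)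
            ((image_mono (Ac_sub_bas (t2 j))).trans (im j))) ((image_mono s1).trans
              subset_union_right))
        rintro _ ⟨z, hz, rfl⟩
        by_cases h : z ∈ ⋃ j, (K j ∪ e j '' An 1 (t j))
        · obtain ⟨j, hj⟩ := mem_iUnion.1 h
          obtain ⟨u, hu, rfl⟩ := hj.resolve_left fun hk => hz (mem_iUnion.2 ⟨j, hk⟩)
          exact Or.inl (mem_iUnion.2 ⟨j, Or.inr ⟨u, ⟨hu.1, hu.2.le⟩, rfl⟩⟩)
        · exact Or.inr ⟨z, h, rfl⟩
      rw [e1]
      exact (isClosed_iUnion_of_finite fun j => ((hE j).cpt _ (t1 j) (t2 j)).isClosed).union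
        (closed_image_weld (isOpen_iUnion fun j => (hK j).op _ (t1 j) (t2 j).le).isClosed_compl
          (hd.continuousOn.mono s1) hinf)
    rcases isClopen_iff.1 ⟨h2, h1⟩ with h | h
    · rw [union_empty_iff, image_eq_empty, compl_empty_iff] at h
      exact absurd h.2 hc.ne_univ
    · intro y hy
      exact Or.resolve_left (eq_univ_iff_forall.1 h y) hy
  · by_contra hn
    rw [not_disjoint_iff_nonempty_inter] at hn
    have key : ∀ i j, (closedBall (a i) (r i) ∩ closedBall (a j) (r j)).Nonempty →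
        closedBall (a i) (r i) ⊆ closedBall (a j) (r j) := fun i j hn =>
      h9c_sub (convex_closedBall _ _).isPreconnected isClosed_closedBall (op j) subset_union_left
        (fun y hy => hy.2.resolve_right fun h => out i y (im j h) hy.1) hn
    have h1 : closedBall (a i) (r i) = (closedBall (a i) (r i) ∪ (g ∘ e i) '' An 1 b) ∩
        (closedBall (a j) (r j) ∪ (g ∘ e j) '' An 1 b) := by
      refine Subset.antisymm (subset_inter subset_union_left ((key i j hn).trans subset_union_left))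
        fun y hy => ?_
      by_contra hy'
      obtain ⟨u, hu, rfl⟩ := hy.1.resolve_left hy'
      obtain ⟨w, hw, he⟩ := hy.2.resolve_left (out j _ (im i ⟨u, hu, rfl⟩))
      exact Set.disjoint_left.1 (hdis hij) ⟨u, hu, rfl⟩
        ⟨w, hw, hi (hsub j ⟨w, hw, rfl⟩) (hsub i ⟨u, hu, rfl⟩) he⟩
    rcases isClopen_iff.1 (show IsClopen (closedBall (a i) (r i)) from
      ⟨isClosed_closedBall, by rw [h1]; exact (op i).inter (op j)⟩) with h | h
    · exact (nonempty_closedBall.2 (hr i)).ne_empty h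
    · exact (isCompact_closedBall _ _).ne_univ h
  · obtain ⟨t, t1, t2, t3⟩ := end_shrink (hE j) isOpen_ball
      (closedBall_subset_ball (lt_add_of_pos_right (r j) hε))
    refine ⟨_, (hK j).op t t1 t2.le, subset_union_left, fun z hz => ?_⟩
    obtain ⟨u, hu, rfl⟩ := hz.1.resolve_left fun hk => hz.2 (mem_iUnion.2 ⟨j, hk⟩)
    exact t3 ⟨u, ⟨hu.1, hu.2.le⟩, rfl⟩

end Vale.Agent.P116.F
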