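import Vale.Agent.P116.F.Sw
import Vale.Agent.P116.F.Ext

/-! P116 F/Init (task, block of helper24). Helper names start with `finit_`.
Plan. `cvx_sqrt`: `invS p K` is star-shaped about `0`, so contractible and simply connected (`StarConvex.contractibleSpace`, see `P071.Pre.sqrt` for the square root: `Complex.exists_continuousOn_pow_eq` or similar). `cvx_end`: `ext_map` gives `g`; `ψ = invFunOn g Kᶜ` (`inv_hol`, `Nm.inv`), `end_disc`, `End.swap`. `exists_init`: squares are compact, convex, with interior; choose `δ` with the closed `δ`-thickenings in `V` and pairwise disjoint (finitely many), `End.small` for `b = 2`, take the minimum of the `t i` (or `2`), `End.mono`, `End.map`; `int` by `open_image`; `bd`: image of a compact thickening.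
-/

open Metric Set Filter Function Topology Complex MeasureTheory
open scoped ComplexConjugate Real

noncomputable section

namespace Vale.Agent.P116.F

open Vale.Agent.P116.W

variable {ι : Type} [Fintype ι] {A B C : Cfg ι} {b r r' R : ℝ} {c c' p : ℂ} {S : Set ι} {j : ι}
  {m n : ℕ} {e f g g' G G' h : ℂ → ℂ} {K K' T Ω : Set ℂ}

theorem cvx_sqrt (hK : IsCompact K) (hc : Convex ℝ K) (hp : p ∈ K) :
    IsPreconnected (invS p K) ∧ HasSqrt (invS p K) := by
  have h0 : (0 : ℂ) ∈ invS p K := Or.inl rfl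
  have h1 : StarConvex ℝ 0 (invS p K) := by
    refine starConvex_zero_iff.2 fun w hw a a0 a1 => ?_
    by_cases h2 : a • w = 0
    · exact Or.inl h2
    · obtain ⟨h3, h4⟩ := smul_ne_zero_iff.1 h2
      refine Or.inr fun h5 => hw.resolve_left h4 ?_
      have h6 := hc.add_smul_mem hp h5 ⟨a0, a1⟩
      rwa [real_smul, real_smul, mul_inv, mul_inv_cancel_left₀ (ofReal_ne_zero.2 h3)] at h6
  refine ⟨(h1.isPathConnected h0).isConnected.isPreconnected, fun f hd _ hf => ?_⟩
  have := h1.contractibleSpace ⟨0, h0⟩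
  exact Complex.exists_continuousOn_pow_eq (SimplyConnectedSpace.ofContractible _)
    (invS_open hK p) hd.continuousOn hf two_ne_zero

theorem cvx_end (hK : IsCompact K) (hc : Convex ℝ K) (hp : p ∈ interior K) (hb : 1 < b) :
    ∃ e, End K e 1 b := by
  obtain ⟨h1, h2⟩ := cvx_sqrt hK hc (interior_subset hp)
  obtain ⟨g, c, r, hr, g1, g2, g3, g4⟩ := ext_map hK hp h1 h2
  refine ⟨_, (end_disc c hr hb).swap (g := invFunOn g Kᶜ) hK hc.isPreconnected
    ⟨p, interior_subset hp⟩ ?_ ?_ ?_ (g4.inv hK.isBounded isBounded_closedBall g1 g2 g3)⟩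
  · rw [← g3]
    exact inv_hol hK.isClosed.isOpen_compl g1 g2
  · rw [← g3]
    exact invFunOn_injOn_image g _
  · rw [← g3]
    exact g2.invFunOn_image subset_rfl

theorem finit_ev (h : End K e 1 b) (hΩ : IsOpen Ω) (hs : K ⊆ Ω) :
    ∀ᶠ t in 𝓝[>] (1 : ℝ), K ∪ e '' An 1 t ⊆ Ω := by
  obtain ⟨t, t1, -, t3⟩ := h.small hΩ hs
  filter_upwards [Ioo_mem_nhdsGT t1] with s hs'
  have h1 : An 1 s ⊆ An 1 t := fun z hz => ⟨hz.1, hz.2.trans hs'.2⟩
  exact union_subset hs ((image_mono h1).trans t3)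

theorem finit_sqr (ζ : ℂ) {σ : ℝ} (hσ : 0 < σ) :
    IsCompact (sqr ζ σ) ∧ Convex ℝ (sqr ζ σ) ∧ (interior (sqr ζ σ)).Nonempty := by
  refine ⟨isCompact_Icc.reProdIm isCompact_Icc,
    ((convex_Icc _ _).linear_preimage reLm).inter ((convex_Icc _ _).linear_preimage imLm),
    ⟨ζ.re + σ / 2, ζ.im + σ / 2⟩, ?_⟩
  rw [sqr, Complex.interior_reProdIm, interior_Icc, interior_Icc]
  exact ⟨⟨by simp only; linarith, by simp only; linarith⟩, by simp only; linarith,
    by simp only; linarith⟩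

theorem exists_init {V : Set ℂ} {φ : ℂ → ℂ} (hV : IsOpen V) (hd : DifferentiableOn ℂ φ V)
    (hi : InjOn φ V) (ζ : ι → ℂ) (σ : ι → ℝ) (hσ : ∀ i, 0 < σ i) (hs : ∀ i, sqr (ζ i) (σ i) ⊆ V)
    (dis : Pairwise fun i j => Disjoint (sqr (ζ i) (σ i)) (sqr (ζ j) (σ j))) :
    ∃ (b : ℝ) (e : ι → ℂ → ℂ), 1 < b ∧ Cfg.Ok ⟨fun i => φ '' sqr (ζ i) (σ i), e⟩ b := by
  have hq := fun i => finit_sqr (ζ i) (hσ i)
  choose e he using fun i => cvx_end (hq i).1 (hq i).2.1 (hq i).2.2.some_mem one_lt_two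
  have h1 : ∀ i, ∀ᶠ t in 𝓝[>] (1 : ℝ), ∃ L, IsCompact L ∧
      sqr (ζ i) (σ i) ∪ e i '' An 1 t ⊆ L ∧ L ⊆ V := fun i => by
    obtain ⟨L, a1, a2, a3⟩ := exists_compact_between (hq i).1 hV (hs i)
    exact (finit_ev (he i) isOpen_interior a2).mono fun t ht =>
      ⟨L, a1, ht.trans interior_subset, a3⟩
  have h2 : ∀ i j, ∀ᶠ t in 𝓝[>] (1 : ℝ), i ≠ j →
      Disjoint (sqr (ζ i) (σ i) ∪ e i '' An 1 t) (sqr (ζ j) (σ j) ∪ e j '' An 1 t) := by
    intro i j
    by_cases hij : i = j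
    · exact Eventually.of_forall fun t h => (h hij).elim
    · obtain ⟨U, W, a1, a2, a3, a4, a5⟩ :=
        SeparatedNhds.of_isCompact_isCompact (hq i).1 (hq j).1 (dis hij)
      filter_upwards [finit_ev (he i) a1 a3, finit_ev (he j) a2 a4] with t b1 b2 _
      exact a5.mono b1 b2
  obtain ⟨t, ⟨t1, t2⟩, t3⟩ := (((eventually_all.2 h1).and
    (eventually_all.2 fun i => eventually_all.2 (h2 i))).and (Ioo_mem_nhdsGT one_lt_two)).exists
  choose L l1 l2 l3 using t1
  have h3 : ∀ i, Cfg.N ⟨fun i => φ '' sqr (ζ i) (σ i), fun i => φ ∘ e i⟩ t i =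
      φ '' (sqr (ζ i) (σ i) ∪ e i '' An 1 t) := fun i => by
    rw [image_union, ← image_comp]
    rfl
  refine ⟨t, fun i => φ ∘ e i, t3.1, fun i => ?_, fun i j hij => ?_, fun i => ?_, fun i => ?_⟩
  · exact ((he i).mono t3.1 t3.2.le).map (hd.mono ((l2 i).trans (l3 i)))
      (hi.mono ((l2 i).trans (l3 i)))
  · simp only [h3]
    exact (t2 i j hij).image hi ((l2 i).trans (l3 i)) ((l2 j).trans (l3 j))
  · exact ((hq i).2.2.image φ).mono (interior_maximal (image_mono interior_subset)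
      (open_image hV hd hi isOpen_interior (interior_subset.trans (hs i))))
  · rw [h3]
    exact ((l1 i).image_of_continuousOn (hd.continuousOn.mono (l3 i))).isBounded.subset
      (image_mono (l2 i))

end Vale.Agent.P116.F
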