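import Vale.Agent.P116.F.Defs

/-! P116 F/L1 (task, block of helper24). Helper names start with `fl1_`.
Plan. `lim_inj`: Hurwitz for `h k z - h k z₀` on `U \\ {z₀}` (`hur_Lim1` with `V = U \\ {z₀}`, the constants converge). `exists_lim`: for each `s`, `mon_Lim1` for `f (n k + s) - id` gives a limit `F s` along `φ = Ultrafilter.of atTop`; `F (s + 1) = F s` for `‖z‖` large (pointwise limits, `tendsto_nhds_unique`), hence on `U` (identity theorem, `AnalyticOnNhd.eqOn_of_preconnected_of_eventuallyEq`); `‖F z - z‖ ≤ M` so `F` is not constant; `lim_inj`.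
-/

open Metric Set Filter Function Topology Complex MeasureTheory
open scoped ComplexConjugate Real

noncomputable section

namespace Vale.Agent.P116.F

open Vale.Agent.P116.W

variable {ι : Type} [Fintype ι] {A B C : Cfg ι} {b r r' R : ℝ} {c c' p : ℂ} {S : Set ι} {j : ι}
  {m n : ℕ} {e f g g' G G' h : ℂ → ℂ} {K K' T Ω : Set ℂ}

theorem lim_inj {U : Set ℂ} (hU : IsOpen U) (hc : IsPreconnected U) {φ : Filter ℕ} [φ.NeBot]
    {h : ℕ → ℂ → ℂ} {H : ℂ → ℂ} (hd : ∀ k, DifferentiableOn ℂ (h k) U) (hi : ∀ k, InjOn (h k) U)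
    (ht : TendstoLocallyUniformlyOn h H φ U) (hn : ∃ x ∈ U, ∃ y ∈ U, H x ≠ H y) : InjOn H U := by
  intro z₀ hz₀ z hz he
  by_contra hne
  have hH : DifferentiableOn ℂ H U := ht.differentiableOn (Eventually.of_forall hd) hU
  obtain ⟨x, hx, hx0⟩ : ∃ x ∈ U, H x - H z₀ ≠ 0 := by
    obtain ⟨x, hx, y, hy, hxy⟩ := hn
    by_cases h1 : H x = H z₀
    · exact ⟨y, hy, sub_ne_zero.2 fun h2 => hxy (h1.trans h2.symm)⟩
    · exact ⟨x, hx, sub_ne_zero.2 h1⟩
  have h3 := hur_Lim1 (V := U \ {z₀}) (h := fun k w => h k w - h k z₀) (H := fun w => H w - H z₀)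
    (φ := φ) hU hc (hU.sdiff isClosed_singleton) sdiff_subset (hH.sub_const _) hx hx0
    (Eventually.of_forall fun k => ⟨((hd k).mono sdiff_subset).sub_const _,
      fun w hw => sub_ne_zero.2 fun h4 => hw.2 (hi k hw.1 hz₀ h4)⟩)
    ((ht.mono sdiff_subset).sub
      ((ht.tendsto_at hz₀).tendstoUniformlyOn_const _).tendstoLocallyUniformlyOn)
  exact h3 z ⟨hz, fun h5 => hne (mem_singleton_iff.1 h5).symm⟩ (sub_eq_zero.2 he.symm)

theorem exists_lim {U : Set ℂ} (hU : IsOpen U) (hc : IsPreconnected U)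
    (hK : Bornology.IsBounded Uᶜ) {f : ℕ → ℂ → ℂ} {M R₁ : ℝ} (hn : 0 < n)
    (hd : ∀ k, DifferentiableOn ℂ (f k) U) (hi : ∀ k, InjOn (f k) U)
    (hM : ∀ k, ∀ z ∈ U, ‖f k z - z‖ ≤ M)
    (ht : ∀ z, R₁ ≤ ‖z‖ → Tendsto (fun k => f (k + 1) z - f k z) atTop (𝓝 0)) :
    ∃ (F : ℂ → ℂ) (φ : Ultrafilter ℕ), DifferentiableOn ℂ F U ∧ InjOn F U ∧
      Tendsto F (cocompact ℂ) (cocompact ℂ) ∧
        ∀ s, TendstoLocallyUniformlyOn (fun k => f (n * k + s)) F φ U := by
  have hφ : ((Ultrafilter.of atTop : Ultrafilter ℕ) : Filter ℕ) ≤ atTop := Ultrafilter.of_le _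
  generalize (Ultrafilter.of atTop : Ultrafilter ℕ) = φ at hφ
  have h1 : ∀ s, ∃ F, TendstoLocallyUniformlyOn (fun k => f (n * k + s)) F φ U := by
    intro s
    obtain ⟨G, hG⟩ := mon_Lim1 hU φ (g := fun k z => f (n * k + s) z - z) (M := M)
      (Eventually.of_forall fun k => ⟨(hd _).sub differentiableOn_id, hM _⟩)
    have k : TendstoLocallyUniformlyOn (fun _ : ℕ => fun z : ℂ => z) (fun z => z) φ U :=
      fun u hu _ _ => ⟨U, self_mem_nhdsWithin,
        Eventually.of_forall fun _ _ _ => refl_mem_uniformity hu⟩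
    refine ⟨fun z => G z + z, (hG.add k).congr_inseparable
      (Eventually.of_forall fun k z _ => .of_eq ?_)⟩
    simp
  choose F hF using h1
  have hFd : ∀ s, DifferentiableOn ℂ (F s) U := fun s =>
    (hF s).differentiableOn (Eventually.of_forall fun k => hd _) hU
  obtain ⟨R₀, hR₀⟩ := hK.exists_norm_le
  have hmem : ∀ z : ℂ, R₀ < ‖z‖ → z ∈ U := fun z hz => by
    by_contra h
    exact absurd (hR₀ z h) (not_le.2 hz)
  have hsucc : ∀ s, EqOn (F (s + 1)) (F s) U := by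
    intro s
    set z₀ : ℂ := ((|R₀| + |R₁| + 1 : ℝ) : ℂ) with hz₀
    have hn₀ : ‖z₀‖ = |R₀| + |R₁| + 1 := by
      rw [hz₀, Complex.norm_real, Real.norm_of_nonneg (by positivity)]
    have ho : IsOpen {z : ℂ | |R₀| + |R₁| < ‖z‖} := isOpen_lt continuous_const continuous_norm
    refine ((hFd (s + 1)).analyticOnNhd hU).eqOn_of_preconnected_of_eventuallyEq
      ((hFd s).analyticOnNhd hU) hc (z₀ := z₀)
      (hmem _ (by linarith [le_abs_self R₀, abs_nonneg R₁])) ?_
    filter_upwards [ho.mem_nhds (show |R₀| + |R₁| < ‖z₀‖ by linarith)] with z hz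
    have hz' : |R₀| + |R₁| < ‖z‖ := hz
    have hzU := hmem z (by linarith [le_abs_self R₀, abs_nonneg R₁])
    have ha : Tendsto (fun k => n * k + s) atTop atTop :=
      tendsto_atTop_mono (fun k => (Nat.le_mul_of_pos_left k hn).trans (Nat.le_add_right _ _))
        tendsto_id
    have h2 := ((ht z (by linarith [le_abs_self R₁, abs_nonneg R₀])).comp ha).mono_left hφ
    have h3 := ((hF (s + 1)).tendsto_at hzU).sub ((hF s).tendsto_at hzU)
    exact sub_eq_zero.1 (tendsto_nhds_unique h3 h2)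
  have hall : ∀ s, EqOn (F s) (F 0) U := fun s => by
    induction s with
    | zero => exact fun _ _ => rfl
    | succ s ih => exact (hsucc s).trans ih
  have hb : ∀ z ∈ U, ‖F 0 z - z‖ ≤ M := fun z hz =>
    le_of_tendsto (((hF 0).tendsto_at hz).sub_const z).norm (Eventually.of_forall fun k => hM _ z hz)
  have hlow : ∀ z ∈ U, ‖z‖ - M ≤ ‖F 0 z‖ := fun z hz => by
    have := norm_sub_norm_le z (F 0 z)
    rw [norm_sub_rev] at this
    linarith [hb z hz]
  refine ⟨F 0, φ, hFd 0, lim_inj hU hc (fun k => hd _) (fun k => hi _) (hF 0) ?_, ?_,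
    fun s => (hF s).congr_right (hall s)⟩
  · set x : ℂ := ((|R₀| + 1 : ℝ) : ℂ) with hx
    have hxn : ‖x‖ = |R₀| + 1 := by rw [hx, Complex.norm_real, Real.norm_of_nonneg (by positivity)]
    set y : ℂ := ((|R₀| + 1 + ‖F 0 x‖ + |M| : ℝ) : ℂ) with hy
    have hyn : ‖y‖ = |R₀| + 1 + ‖F 0 x‖ + |M| := by
      rw [hy, Complex.norm_real, Real.norm_of_nonneg (by positivity)]
    have hyU := hmem y (by linarith [le_abs_self R₀, norm_nonneg (F 0 x), abs_nonneg M])
    refine ⟨x, hmem x (by linarith [le_abs_self R₀]), y, hyU, fun h => ?_⟩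
    have := hlow y hyU
    rw [← h] at this
    linarith [le_abs_self M, abs_nonneg R₀]
  · rw [← Metric.cobounded_eq_cocompact, ← tendsto_norm_atTop_iff_cobounded]
    refine tendsto_atTop_mono' _ ?_ (tendsto_atTop_add_const_right _ (-M) tendsto_norm_cobounded_atTop)
    filter_upwards [(tendsto_norm_cobounded_atTop (E := ℂ)).eventually_gt_atTop R₀] with z hz
    exact hlow z (hmem z hz)

end Vale.Agent.P116.F
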