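import Vale.Agent.P116.F.Cf

/-! P116 F/L3 (task, block of helper24). Helper names start with `fl3_`.
Plan. `Rnd.sph`: `E (sphere 0 1)` is compact, nonempty and equals `E (An b⁻¹ b) ∩ sphere c r` (`ins`, `out`, `eq`, `col_sub`), the first set is open (`open_image`), the sphere is preconnected (`isPreconnected_sphere`; use `IsPreconnected.subset_of_closure_inter_subset`). `Rnd.isOpen`: the set is `ball c r ∪ E (An b⁻¹ b)`. `Rnd.clu`: the open set `An b⁻¹ b ∩ E ⁻¹ (ball c (r + ε))` contains the unit circle, so it contains `An 1 t` (thickening); `U = A.K j ∪ A.e j (An 1 t)`.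
-/

open Metric Set Filter Function Topology Complex MeasureTheory
open scoped ComplexConjugate Real

noncomputable section

namespace Vale.Agent.P116.F

open Vale.Agent.P116.W

variable {ι : Type} [Fintype ι] {A B C : Cfg ι} {b r r' R : ℝ} {c c' p : ℂ} {S : Set ι} {j : ι}
  {m n : ℕ} {e f g g' G G' h : ℂ → ℂ} {K K' T Ω : Set ℂ}

theorem fl3_sub (hb : 1 < b) : sphere (0 : ℂ) 1 ⊆ An b⁻¹ b := by
  intro z hz
  have h1 : ‖z‖ = 1 := by simpa using hz
  exact ⟨by rw [h1]; exact inv_lt_one_of_one_lt₀ hb, by rw [h1]; exact hb⟩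

theorem fl3_sub' (hb : 1 < b) : An 1 b ⊆ An b⁻¹ b :=
  fun _ hz => ⟨(inv_lt_one_of_one_lt₀ hb).trans hz.1, hz.2⟩

theorem Rnd.sph {F E : ℂ → ℂ} (hb : 1 < b) (hA : A.Ok b) (h : Rnd A b j F c r E) :
    E '' sphere 0 1 = sphere c r := by
  have hS : E '' sphere 0 1 ⊆ sphere c r := by
    rintro _ ⟨z, hz, rfl⟩
    exact mem_sphere_iff_norm.2 (h.circ z (by simpa using hz))
  refine hS.antisymm fun y hy => by_contra fun hn => ?_
  have hU : IsOpen (E '' An b⁻¹ b) :=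
    open_image (isOpen_An _ _) h.hol h.inj (isOpen_An _ _) subset_rfl
  have hK : IsCompact (E '' sphere 0 1) :=
    (isCompact_sphere 0 1).image_of_continuousOn (h.hol.continuousOn.mono (fl3_sub hb))
  have h1 : (1 : ℂ) ∈ sphere (0 : ℂ) 1 := by simp
  obtain ⟨x, x1, ⟨z, hz, rfl⟩, x3⟩ := isPreconnected_sphere (E := ℂ)
    (by rw [Complex.rank_real_complex]; norm_num) c r _ _ hU hK.isClosed.isOpen_compl
    (fun x _ => (em (x ∈ E '' sphere 0 1)).imp (fun hx => image_mono (fl3_sub hb) hx) id)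
    ⟨E 1, hS (mem_image_of_mem _ h1), mem_image_of_mem _ (fl3_sub hb h1)⟩ ⟨y, hy, hn⟩
  rcases lt_trichotomy ‖z‖ 1 with h2 | h2 | h2
  · exact (mem_ball.1 (h.ins ⟨hz.1, h2⟩)).ne (mem_sphere.1 x1)
  · exact x3 (mem_image_of_mem _ (by simpa using h2))
  · refine disjoint_left.1 h.out ?_ (sphere_subset_closedBall x1)
    rw [h.eq ⟨h2, hz.2⟩]
    exact mem_image_of_mem _ (hA.col_sub j (mem_image_of_mem _ ⟨h2, hz.2⟩))

theorem Rnd.isOpen {F E : ℂ → ℂ} (hb : 1 < b) (hA : A.Ok b) (h : Rnd A b j F c r E) :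
    IsOpen (closedBall c r ∪ F '' (A.e j '' An 1 b)) := by
  have he : closedBall c r ∪ F '' (A.e j '' An 1 b) = ball c r ∪ E '' An b⁻¹ b := by
    refine Subset.antisymm ?_ ?_
    · rintro y (hy | ⟨_, ⟨z, hz, rfl⟩, rfl⟩)
      · rw [← ball_union_sphere, ← h.sph hb hA] at hy
        exact hy.imp id fun hx => image_mono (fl3_sub hb) hx
      · exact Or.inr ⟨z, fl3_sub' hb hz, h.eq hz⟩
    · rintro y (hy | ⟨z, hz, rfl⟩)
      · exact Or.inl (ball_subset_closedBall hy)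
      · rcases lt_trichotomy ‖z‖ 1 with h2 | h2 | h2
        · exact Or.inl (ball_subset_closedBall (h.ins ⟨hz.1, h2⟩))
        · exact Or.inl (mem_closedBall_iff_norm.2 (h.circ z h2).le)
        · exact Or.inr ⟨_, mem_image_of_mem _ ⟨h2, hz.2⟩, (h.eq ⟨h2, hz.2⟩).symm⟩
  rw [he]
  exact isOpen_ball.union (open_image (isOpen_An _ _) h.hol h.inj (isOpen_An _ _) subset_rfl)

theorem Rnd.clu {F E : ℂ → ℂ} (hb : 1 < b) (hA : A.Ok b) (h : Rnd A b j F c r E) (ε : ℝ)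
    (hε : 0 < ε) : ∃ U, IsOpen U ∧ A.K j ⊆ U ∧ ∀ z ∈ U \ ⋃ l, A.K l, F z ∈ ball c (r + ε) := by
  have hV : IsOpen (An b⁻¹ b ∩ E ⁻¹' ball c (r + ε)) :=
    h.hol.continuousOn.isOpen_inter_preimage (isOpen_An _ _) isOpen_ball
  obtain ⟨δ, hδ, hs⟩ := (isCompact_sphere (0 : ℂ) 1).exists_thickening_subset_open hV
    fun z hz => ⟨fl3_sub hb hz, mem_ball_iff_norm.2 (by
      rw [h.circ z (by simpa using hz)]
      linarith)⟩
  refine ⟨A.K j ∪ A.e j '' An 1 (min (1 + δ) b),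
    (hA.en j).op _ (lt_min (by linarith) hb) (min_le_right _ _), subset_union_left, ?_⟩
  rintro z ⟨hz | ⟨w, hw, rfl⟩, hz'⟩
  · exact (hz' (mem_iUnion.2 ⟨j, hz⟩)).elim
  · have w1 : 1 < ‖w‖ := hw.1
    have w2 : ‖w‖ < 1 + δ := hw.2.trans_le (min_le_left _ _)
    have w3 : ‖w‖ < b := hw.2.trans_le (min_le_right _ _)
    have w0 : ‖w‖ ≠ 0 := by positivity
    have h1 : w ∈ thickening δ (sphere (0 : ℂ) 1) := by
      refine mem_thickening_iff.2 ⟨‖w‖⁻¹ • w, ?_, ?_⟩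
      · rw [mem_sphere_zero_iff_norm, norm_smul, norm_inv, norm_norm, inv_mul_cancel₀ w0]
      · have h2 : w - ‖w‖⁻¹ • w = (1 - ‖w‖⁻¹) • w := by rw [sub_smul, one_smul]
        have h3 : 0 ≤ 1 - ‖w‖⁻¹ := sub_nonneg.2 (inv_le_one_of_one_le₀ w1.le)
        rw [dist_eq_norm, h2, norm_smul, Real.norm_of_nonneg h3, sub_mul, one_mul,
          inv_mul_cancel₀ w0]
        linarith
    have h4 := (hs h1).2
    rw [mem_preimage, h.eq ⟨w1, w3⟩] at h4
    exact h4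

end Vale.Agent.P116.F
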