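import Vale.Agent.P116.F.Sw

/-! P116 F/Lay (task, block of helper24). Helper names start with `flay_`.
Plan. `lay_zero`, `lay_empty`: index type `Empty`. `anti`: the subtype `lv i < m'`. `map`: `End.map`, injectivity of `G` on `Ω`. `conj`: `End.conj`; the collar image is `conj` of the old one. `rf`: `rf c r = (w ↦ c + r ^ 2 / (w - conj c)) ∘ conj`, so `conj` then `map`. `union`: sigma type. `add`: `Option κ`, the new index has level `m`.
-/

open Metric Set Filter Function Topology Complex MeasureTheory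
open scoped ComplexConjugate Real

noncomputable section

namespace Vale.Agent.P116.F

open Vale.Agent.P116.W

variable {ι : Type} [Fintype ι] {A B C : Cfg ι} {b r r' R : ℝ} {c c' p : ℂ} {S : Set ι} {j : ι}
  {m n : ℕ} {e f g g' G G' h : ℂ → ℂ} {K K' T Ω : Set ℂ}

theorem flay_img {κ : Type} {lv : κ → ℕ} {K : κ → Set ℂ} {e e' : κ → ℂ → ℂ}
    (h : LayD b m T Ω lv K e) (hi : InjOn G Ω) (he : ∀ i, End (G '' K i) (e' i) 1 b)
    (hc : ∀ i, e' i '' An 1 b = G '' (e i '' An 1 b)) :
    LayD b m (G '' T) (G '' Ω) lv (fun i => G '' K i) e' := by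
  have c : ∀ i, e i '' An 1 b ⊆ Ω := fun i => subset_union_right.trans (h.mem i)
  refine ⟨image_mono h.sub, h.lt, he, fun i => ?_, fun i => ?_, fun i i' hii => ?_,
    fun i i' hii hl => ?_, fun l hl z hz => ?_⟩
  · rw [hc, ← image_union]
    exact image_mono (h.mem i)
  · rw [hc]
    exact (h.off i).image hi (c i) h.sub
  · show Disjoint (e' i '' An 1 b) (e' i' '' An 1 b)
    rw [hc, hc]
    exact (h.col hii).image hi (c i) (c i')
  · rw [hc, hc, ← image_union, ← image_union]
    exact (h.dis i i' hii hl).image hi (h.mem i) (h.mem i')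
  · obtain ⟨x, hx, rfl⟩ := hz
    obtain ⟨i, h1, h2⟩ := h.cov l hl x hx
    exact ⟨i, h1, x, h2, rfl⟩

theorem flay_An (a b : ℝ) : (fun z => conj z) '' An a b = An a b := by
  ext z
  refine ⟨?_, fun hz => ⟨conj z, ?_, conj_conj z⟩⟩
  · rintro ⟨w, hw, rfl⟩
    show a < ‖conj w‖ ∧ ‖conj w‖ < b
    rw [norm_conj]
    exact hw
  · show a < ‖conj z‖ ∧ ‖conj z‖ < b
    rw [norm_conj]
    exact hz

theorem lay_zero (h : T ⊆ Ω) : Lay b 0 T Ω := by
  exact ⟨Empty, inferInstance, Empty.elim, Empty.elim, Empty.elim, h, fun i => i.elim,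
    fun i => i.elim, fun i => i.elim, fun i => i.elim, fun i _ _ => i.elim, fun i => i.elim,
    fun l hl => absurd hl (Nat.not_lt_zero l)⟩

theorem lay_empty : Lay b m ∅ Ω := by
  exact ⟨Empty, inferInstance, Empty.elim, Empty.elim, Empty.elim, empty_subset _, fun i => i.elim,
    fun i => i.elim, fun i => i.elim, fun i => i.elim, fun i _ _ => i.elim, fun i => i.elim,
    fun _ _ _ hz => hz.elim⟩

theorem Lay.anti (h : Lay b m T Ω) (hn : n ≤ m) : Lay b n T Ω := by
  obtain ⟨κ, _, lv, K, e, h⟩ := h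
  refine ⟨{i // lv i < n}, inferInstance, fun i => lv i.1, fun i => K i.1, fun i => e i.1, h.sub,
    fun i => i.2, fun i => h.en i.1, fun i => h.mem i.1, fun i => h.off i.1,
    fun i i' hii => h.col (Subtype.coe_ne_coe.2 hii),
    fun i i' hii => h.dis _ _ (Subtype.coe_ne_coe.2 hii), fun l hl z hz => ?_⟩
  obtain ⟨i, h1, h2⟩ := h.cov l (hl.trans_le hn) z hz
  exact ⟨⟨i, h1 ▸ hl⟩, h1, h2⟩

theorem Lay.map (h : Lay b m T Ω) (hd : DifferentiableOn ℂ G Ω) (hi : InjOn G Ω) :
    Lay b m (G '' T) (G '' Ω) := by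
  obtain ⟨κ, _, lv, K, e, h⟩ := h
  exact ⟨κ, inferInstance, lv, _, fun i => G ∘ e i, flay_img h hi
    (fun i => (h.en i).map (hd.mono (h.mem i)) (hi.mono (h.mem i))) fun i => image_comp _ _ _⟩

theorem Lay.conj (h : Lay b m T Ω) :
    Lay b m ((fun z => conj z) '' T) ((fun z => conj z) '' Ω) := by
  obtain ⟨κ, _, lv, K, e, h⟩ := h
  refine ⟨κ, inferInstance, lv, _, fun i z => conj (e i (conj z)), flay_img h
    (starRingEnd ℂ).injective.injOn (fun i => (h.en i).conj) fun i => ?_⟩
  have h1 : (fun z => conj (e i (conj z))) '' An 1 b =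
      (fun z => conj z) '' (e i '' ((fun z => conj z) '' An 1 b)) := by
    simp only [image_image]
  rw [h1, flay_An]

theorem Lay.rf (h : Lay b m T Ω) (hr : 0 < r) (hc : c ∉ Ω) :
    Lay b m (rf c r '' T) (rf c r '' Ω) := by
  have h0 : (r : ℂ) ^ 2 ≠ 0 := pow_ne_zero _ (ofReal_ne_zero.2 hr.ne')
  have h1 := h.conj.map (G := fun w => c + (r : ℂ) ^ 2 / (w - conj c)) (by
    refine (differentiableOn_const _).add ((differentiableOn_const _).div
      (differentiableOn_id.sub_const _) ?_)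
    rintro _ ⟨z, hz, rfl⟩ e
    exact hc ((starRingEnd ℂ).injective (sub_eq_zero.1 e) ▸ hz)) fun x _ y _ e => by
      have e1 := add_left_cancel e
      rw [div_eq_mul_inv, div_eq_mul_inv] at e1
      exact sub_left_injective (inv_injective (mul_left_cancel₀ h0 e1))
  have h2 : F.rf c r = fun z => c + (r : ℂ) ^ 2 / (conj z - conj c) :=
    funext fun z => by rw [F.rf, map_sub]
  rw [image_image, image_image] at h1
  rw [h2]
  exact h1

theorem Lay.union {T Ω : ι → Set ℂ} (h : ∀ l, Lay b m (T l) (Ω l))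
    (hd : Pairwise fun i j => Disjoint (Ω i) (Ω j)) : Lay b m (⋃ l, T l) (⋃ l, Ω l) := by
  choose κ _ lv K e h using h
  have c : ∀ l i, e l i '' An 1 b ⊆ Ω l := fun l i => subset_union_right.trans ((h l).mem i)
  refine ⟨Σ l, κ l, inferInstance, fun i => lv i.1 i.2, fun i => K i.1 i.2, fun i => e i.1 i.2,
    iUnion_mono fun l => (h l).sub, fun i => (h i.1).lt i.2, fun i => (h i.1).en i.2,
    fun i => ((h i.1).mem i.2).trans (subset_iUnion Ω i.1), ?_, ?_, ?_, fun l hl z hz => ?_⟩
  · rintro ⟨l, i⟩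
    refine disjoint_iUnion_right.2 fun l' => ?_
    by_cases hl : l = l'
    · subst hl
      exact (h l).off i
    · exact (hd hl).mono (c l i) (h l').sub
  · rintro ⟨l, i⟩ ⟨l', i'⟩ hne
    by_cases hl : l = l'
    · subst hl
      exact (h l).col fun e => hne (congrArg _ e)
    · exact (hd hl).mono (c l i) (c l' i')
  · rintro ⟨l, i⟩ ⟨l', i'⟩ hne hv
    by_cases hl : l = l'
    · subst hl
      exact (h l).dis i i' (fun e => hne (congrArg _ e)) hv
    · exact (hd hl).mono ((h l).mem i) ((h l').mem i')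
  · obtain ⟨l', hz⟩ := mem_iUnion.1 hz
    obtain ⟨i, h1, h2⟩ := (h l').cov l hl z hz
    exact ⟨⟨l', i⟩, h1, h2⟩

theorem Lay.add (h : Lay b m T Ω) (he : End K e 1 b) (hs : Ω ⊆ K) :
    Lay b (m + 1) T (K ∪ e '' An 1 b) := by
  obtain ⟨κ, _, lv, L, f, h⟩ := h
  have c : ∀ i, f i '' An 1 b ⊆ K := fun i => (subset_union_right.trans (h.mem i)).trans hs
  refine ⟨Option κ, inferInstance, fun o => o.elim m lv, fun o => o.elim K L, fun o => o.elim e f,
    (h.sub.trans hs).trans subset_union_left, ?_, ?_, ?_, ?_, ?_, ?_, fun l hl z hz => ?_⟩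
  · rintro (_ | i)
    · exact Nat.lt_succ_self m
    · exact Nat.lt_succ_of_lt (h.lt i)
  · rintro (_ | i)
    · exact he
    · exact h.en i
  · rintro (_ | i)
    · exact subset_rfl
    · exact ((h.mem i).trans hs).trans subset_union_left
  · rintro (_ | i)
    · exact he.dis.symm.mono_right (h.sub.trans hs)
    · exact h.off i
  · rintro (_ | i) (_ | i') hne
    · exact (hne rfl).elim
    · exact he.dis.symm.mono_right (c i')
    · exact he.dis.mono_left (c i)
    · exact h.col fun e => hne (congrArg _ e)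
  · rintro (_ | i) (_ | i') hne hv
    · exact (hne rfl).elim
    · exact absurd hv (h.lt i').ne'
    · exact absurd hv (h.lt i).ne
    · exact h.dis i i' (fun e => hne (congrArg _ e)) hv
  · rcases (Nat.lt_succ_iff.1 hl).eq_or_lt with h1 | h1
    · exact ⟨none, h1.symm, hs (h.sub hz)⟩
    · obtain ⟨i, h2, h3⟩ := h.cov l h1 z hz
      exact ⟨some i, h2, h3⟩

end Vale.Agent.P116.F
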