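import Vale.Agent.P116.F.Fin
import Vale.Agent.P116.F.Init

/-! P116 F/Main (owner helper74): Koebe's theorem for finitely many images of squares. -/

open Metric Set Filter Function Topology Complex

noncomputable section

namespace Vale.Agent.P116

theorem koebe_fin {ι : Type} [Fintype ι] {V : Set ℂ} {φ : ℂ → ℂ} (hV : IsOpen V)
    (hd : DifferentiableOn ℂ φ V) (hi : InjOn φ V) (ζ : ι → ℂ) (σ : ι → ℝ) (hσ : ∀ i, 0 < σ i)
    (hs : ∀ i, sqr (ζ i) (σ i) ⊆ V)
    (dis : Pairwise fun i j => Disjoint (sqr (ζ i) (σ i)) (sqr (ζ j) (σ j)))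
    (hc : IsPreconnected (⋃ i, φ '' sqr (ζ i) (σ i))ᶜ) :
    ∃ g c r, Koe (fun i => φ '' sqr (ζ i) (σ i)) g c r := by
  obtain ⟨b, e, hb, h⟩ := F.exists_init hV hd hi ζ σ hσ hs dis
  exact F.koe_cfg hb h hc

end Vale.Agent.P116
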