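import Vale.Agent.P116.F.Bd

/-! P116 F/Nm (task, block of helper24). Helper names start with `fnm_`.
Plan. `Nm.inf`: `‖f z‖ ≥ ‖z‖ - 1` eventually (`Metric.cobounded_eq_cocompact`, `tendsto_norm_atTop_iff_cobounded`). `Nm.inv`: `K ⊆ ball 0 R`; by `bd_all` `‖g z - z‖ ≤ 100 R` on `Kᶜ`, so the inverse tends to infinity; `ψ w - w = -(g (ψ w) - ψ w)` (`invFunOn_eq`, `invFunOn_mem`). `Nm.bdd`: `bd_all`. `rf_*`: direct computation.
-/

open Metric Set Filter Function Topology Complex MeasureTheory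
open scoped ComplexConjugate Real

noncomputable section

namespace Vale.Agent.P116.F

open Vale.Agent.P116.W

variable {ι : Type} [Fintype ι] {A B C : Cfg ι} {b r r' R : ℝ} {c c' p : ℂ} {S : Set ι} {j : ι}
  {m n : ℕ} {e f g g' G G' h : ℂ → ℂ} {K K' T Ω : Set ℂ}

theorem nm_id : Nm id := by
  unfold Nm
  simp only [id, sub_self]
  exact tendsto_const_nhds

theorem fnm_inf {α : Type} {l : Filter α} {u v : α → ℂ} {M : ℝ} (hu : Tendsto u l (cocompact ℂ))
    (h : ∀ᶠ x in l, ‖u x - v x‖ ≤ M) : Tendsto v l (cocompact ℂ) := by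
  rw [← cobounded_eq_cocompact, ← tendsto_norm_atTop_iff_cobounded] at hu ⊢
  refine tendsto_atTop_mono' l ?_ (tendsto_atTop_add_const_right l (-M) hu)
  filter_upwards [h] with x hx
  have := norm_sub_norm_le (u x) (v x)
  linarith

theorem fnm_ev (hK : Bornology.IsBounded K) : ∀ᶠ z in cocompact ℂ, z ∈ Kᶜ := by
  rw [← cobounded_eq_cocompact]
  exact Bornology.isBounded_def.1 hK

theorem fnm_bd (h : Nm g) (hK : Bornology.IsBounded K) (hd : DifferentiableOn ℂ g Kᶜ)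
    (hi : InjOn g Kᶜ) : ∃ M : ℝ, ∀ z ∈ Kᶜ, ‖g z - z‖ ≤ M := by
  obtain ⟨R, hR, hs⟩ := hK.exists_pos_norm_le
  have h1 : {z : ℂ | R < ‖z‖} ⊆ Kᶜ := fun z hz hzK => (hs z hzK).not_gt hz
  exact ⟨_, bd_all hR h1 (hd.mono h1) hi h⟩

theorem Nm.inf (h : Nm f) : Tendsto f (cocompact ℂ) (cocompact ℂ) := by
  refine fnm_inf (u := id) (M := 1) tendsto_id ?_
  filter_upwards [h.eventually (closedBall_mem_nhds 0 one_pos)] with z hz
  rw [norm_sub_rev]
  exact mem_closedBall_zero_iff.1 hz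

theorem Nm.comp (h : Nm g) (h' : Nm f) : Nm (g ∘ f) := by
  have h1 := (Tendsto.comp h h'.inf).add h'
  rw [add_zero] at h1
  exact h1.congr fun z => sub_add_sub_cancel _ _ _

theorem Nm.congr (h : Nm f) (hK : Bornology.IsBounded K) (he : EqOn f g Kᶜ) : Nm g := by
  refine Tendsto.congr' ?_ h
  filter_upwards [fnm_ev hK] with z hz
  rw [he hz]

theorem Nm.inv (h : Nm g) (hK : Bornology.IsBounded K) (hK' : Bornology.IsBounded K')
    (hd : DifferentiableOn ℂ g Kᶜ) (hi : InjOn g Kᶜ) (hs : g '' Kᶜ = K'ᶜ) :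
    Nm (invFunOn g Kᶜ) := by
  obtain ⟨M, hM⟩ := fnm_bd h hK hd hi
  have h1 : ∀ᶠ w in cocompact ℂ, invFunOn g Kᶜ w ∈ Kᶜ ∧ g (invFunOn g Kᶜ w) = w := by
    filter_upwards [fnm_ev hK'] with w hw
    rw [← hs] at hw
    exact invFunOn_pos hw
  have h2 : Tendsto (invFunOn g Kᶜ) (cocompact ℂ) (cocompact ℂ) := by
    refine fnm_inf (u := id) (M := M) tendsto_id ?_
    filter_upwards [h1] with w hw
    have h3 := hM _ hw.1
    rw [hw.2] at h3
    exact h3
  have h4 := (Tendsto.comp h h2).neg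
  rw [neg_zero] at h4
  refine h4.congr' ?_
  filter_upwards [h1] with w hw
  rw [comp_apply, hw.2, neg_sub]

theorem Nm.bdd (h : Nm g) (hK : Bornology.IsBounded K) (hd : DifferentiableOn ℂ g Kᶜ)
    (hi : InjOn g Kᶜ) (hΩ : Bornology.IsBounded Ω) : Bornology.IsBounded (g '' (Ω \ K)) := by
  obtain ⟨M, hM⟩ := fnm_bd h hK hd hi
  obtain ⟨R, hR⟩ := hΩ.exists_norm_le
  refine isBounded_iff_forall_norm_le.2 ⟨M + R, ?_⟩
  rintro _ ⟨z, hz, rfl⟩
  have h1 := norm_sub_norm_le (g z) z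
  have h2 := hM z hz.2
  have h3 := hR z hz.1
  linarith

theorem rf_norm (c : ℂ) (r : ℝ) (z : ℂ) : ‖rf c r z - c‖ = r ^ 2 / ‖z - c‖ := by
  rw [rf, add_sub_cancel_left, norm_div, norm_pow, norm_real, Real.norm_eq_abs, sq_abs, norm_conj]

theorem rf_rf (hr : 0 < r) (z : ℂ) : rf c r (rf c r z) = z := by
  have h1 : (r : ℂ) ^ 2 ≠ 0 := pow_ne_zero 2 (ofReal_ne_zero.2 hr.ne')
  rw [rf, rf, add_sub_cancel_left, map_div₀, conj_conj, map_pow, conj_ofReal, div_div_cancel₀ h1,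
    add_sub_cancel]

theorem rf_cont {z : ℂ} (hz : z ≠ c) : ContinuousAt (rf c r) z := by
  refine continuousAt_const.add (continuousAt_const.div
    (continuous_conj.comp (continuous_id.sub continuous_const)).continuousAt ?_)
  exact (map_ne_zero _).2 (sub_ne_zero.2 hz)

theorem rf_mem (hr : 0 < r) {z : ℂ} (hz : z ∉ closedBall c r) :
    rf c r z ∈ ball c r ∧ rf c r z ≠ c := by
  rw [mem_closedBall_iff_norm, not_le] at hz
  have h1 := hr.trans hz
  refine ⟨?_, fun h => ?_⟩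
  · rw [mem_ball_iff_norm, rf_norm, div_lt_iff₀ h1, sq]
    exact mul_lt_mul_of_pos_left hz hr
  · have h2 := rf_norm c r z
    rw [h, sub_self, norm_zero] at h2
    exact (div_pos (pow_pos hr 2) h1).ne h2

end Vale.Agent.P116.F
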