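import Vale.Agent.P116.F.Nm

/-! P116 F/Sw (task, block of helper24). Helper names start with `fsw_`.
Plan. `End.isCompact`: `K` is the intersection of the compact sets `K ∪ e (Ac a t)` (`dis`, `inj`). `End.small`: the compact sets `(K ∪ e (Ac a t)) \\ U` decrease with empty intersection. `End.swap`: `K' ∪ g (e X)` is the complement of `g ((K ∪ e X)ᶜ)` (injectivity); `op` by `closed_image_weld` and `Nm.inf`; `cpt`: closed by `open_image`, bounded by `Nm.bdd`; `con`: `K'` is compact, nonempty, so not open (`isClopen_iff`); a point of `K'` that is not interior lies in the closure of the collar (`op`), then `IsPreconnected.subset_closure`, `IsPreconnected.union`. `end_disc`: `closedBall c r ∪ collar = ball c (r t)`. `End.conj`: `conj` is a homeomorphism and preserves `An`, `Ac`; `DifferentiableAt.conj_conj`.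
-/

open Metric Set Filter Function Topology Complex MeasureTheory
open scoped ComplexConjugate Real

noncomputable section

namespace Vale.Agent.P116.F

open Vale.Agent.P116.W

variable {ι : Type} [Fintype ι] {A B C : Cfg ι} {b r r' R : ℝ} {c c' p : ℂ} {S : Set ι} {j : ι}
  {m n : ℕ} {e f g g' G G' h : ℂ → ℂ} {K K' T Ω : Set ℂ}

theorem fsw_mem {a : ℝ} (h : End K e a b) {x : ℂ}
    (hx : ∀ t, a < t → t < b → x ∈ K ∪ e '' Ac a t) : x ∈ K := by
  by_contra h0
  have hab := h.lt
  obtain ⟨z, hz, e1⟩ := (hx ((a + b) / 2) (by linarith) (by linarith)).resolve_left h0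
  have h1 := hz.1
  have h2 := hz.2
  obtain ⟨z', hz', e2⟩ := (hx ((a + ‖z‖) / 2) (by linarith) (by linarith)).resolve_left h0
  have h3 := hz'.2
  have h4 := h.inj (Ac_sub_bas (by linarith) hz) (Ac_sub_bas (by linarith) hz') (e1.trans e2.symm)
  rw [← h4] at h3
  linarith

theorem _root_.Vale.Agent.P116.W.End.isCompact {a : ℝ} (h : End K e a b) : IsCompact K := by
  have hab := h.lt
  refine (h.cpt ((a + b) / 2) (by linarith) (by linarith)).of_isClosed_subset
    (isClosed_of_closure_subset fun x hx => fsw_mem h fun t h1 h2 => ?_) subset_union_left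
  exact closure_minimal subset_union_left (h.cpt t h1 h2).isClosed hx

theorem _root_.Vale.Agent.P116.W.End.small {a : ℝ} (h : End K e a b) (hΩ : IsOpen Ω) (hs : K ⊆ Ω) :
    ∃ t, a < t ∧ t < b ∧ e '' An a t ⊆ Ω := by
  have : Nonempty (Ioo a b) := (nonempty_Ioo.2 h.lt).to_subtype
  have hm : Monotone fun t : Ioo a b => K ∪ e '' Ac a t := fun s t hst =>
    union_subset_union_right _ (image_mono fun z hz => ⟨hz.1, hz.2.trans hst⟩)
  obtain ⟨t, ht⟩ := exists_subset_nhds_of_isCompact' hm.directed_ge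
    (fun t => h.cpt t t.2.1 t.2.2) (fun t => (h.cpt t t.2.1 t.2.2).isClosed) (U := Ω)
    fun x hx => hΩ.mem_nhds (hs (fsw_mem h fun t h1 h2 => mem_iInter.1 hx ⟨t, h1, h2⟩))
  exact ⟨t, t.2.1, t.2.2, fun x ⟨z, hz, e1⟩ => ht (Or.inr ⟨z, ⟨hz.1, hz.2.le⟩, e1⟩)⟩

theorem _root_.Vale.Agent.P116.W.End.swap {a : ℝ} (h : End K e a b) (hK : IsCompact K') (hc : IsPreconnected K')
    (hne : K'.Nonempty) (hd : DifferentiableOn ℂ g Kᶜ) (hi : InjOn g Kᶜ) (hs : g '' Kᶜ = K'ᶜ)
    (hn : Nm g) : End K' (g ∘ e) a b := by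
  have hK0 := h.isCompact
  have hm : MapsTo e (An a b) Kᶜ := fun z hz h1 => disjoint_left.1 h.dis h1 ⟨z, hz, rfl⟩
  have h1 : ∀ y, y ∉ K → g y ∉ K' := fun y hy => (hs.le ⟨y, hy, rfl⟩ : g y ∈ K'ᶜ)
  have key : ∀ X, X ⊆ An a b → K' ∪ (g ∘ e) '' X = (g '' (K ∪ e '' X)ᶜ)ᶜ := fun X hX => by
    ext w
    constructor
    · rintro (hw | ⟨x, hx, rfl⟩) ⟨y, hy, e1⟩
      · exact h1 y (fun h2 => hy (Or.inl h2)) (e1 ▸ hw)
      · exact hy (Or.inr ⟨x, hx, (hi (fun h2 => hy (Or.inl h2)) (hm (hX hx)) e1).symm⟩)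
    · intro hw
      refine or_iff_not_imp_left.2 fun h2 => ?_
      obtain ⟨y, hy, rfl⟩ := hs.ge h2
      by_contra h3
      refine hw ⟨y, ?_, rfl⟩
      rintro (h4 | ⟨x, hx, rfl⟩)
      · exact hy h4
      · exact h3 ⟨x, hx, rfl⟩
  have hop : ∀ t, a < t → t ≤ b → IsOpen (K' ∪ (g ∘ e) '' An a t) := fun t t1 t2 => by
    rw [key _ (An_mono_bas t2)]
    exact (closed_image_weld (h.op t t1 t2).isClosed_compl
      (hd.continuousOn.mono (compl_subset_compl.2 subset_union_left)) hn.inf).isOpen_compl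
  have hh := hd.comp h.hol hm
  refine ⟨h.pos, h.lt, hne, hh, hi.comp h.inj hm, ?_, hop, fun t t1 t2 => ?_, ?_⟩
  · refine disjoint_right.2 ?_
    rintro _ ⟨z, hz, rfl⟩
    exact h1 _ (hm hz)
  · refine isCompact_of_isClosed_isBounded ?_ (hK.isBounded.union
      ((hn.bdd hK0.isBounded hd hi (h.cpt t t1 t2).isBounded).subset ?_))
    · rw [key _ (Ac_sub_bas t2)]
      exact (open_image hK0.isClosed.isOpen_compl hd hi (h.cpt t t1 t2).isClosed.isOpen_compl
        (compl_subset_compl.2 subset_union_left)).isClosed_compl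
    · rintro _ ⟨z, hz, rfl⟩
      exact ⟨e z, ⟨Or.inr ⟨z, hz, rfl⟩, hm (Ac_sub_bas t2 hz)⟩, rfl⟩
  · have h2 : ¬ IsOpen K' := fun ho =>
      (isClopen_iff.1 ⟨hK.isClosed, ho⟩).elim hne.ne_empty hK.ne_univ
    obtain ⟨x, hx, h3⟩ : ∃ x ∈ K', x ∈ closure ((g ∘ e) '' An a b) := by
      by_contra h4
      refine h2 (isOpen_iff_mem_nhds.2 fun x hx => ?_)
      filter_upwards [(hop b h.lt le_rfl).mem_nhds (Or.inl hx),
        isClosed_closure.isOpen_compl.mem_nhds fun h5 => h4 ⟨x, hx, h5⟩] with y y1 y2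
      exact y1.resolve_right fun y3 => y2 (subset_closure y3)
    have h5 := ((An_con (b := b) h.pos.le).image _ hh.continuousOn).subset_closure
      (subset_insert x _) (insert_subset h3 subset_closure)
    have h6 := IsPreconnected.union x hx (mem_insert x _) hc h5
    rwa [union_insert, insert_eq_of_mem (mem_union_left _ hx)] at h6

theorem fsw_img (c : ℂ) (hr : 0 < r) (P : ℝ → Prop) (w : ℂ) :
    w ∈ (fun z => c + r * z) '' {z : ℂ | P ‖z‖} ↔ P (‖w - c‖ / r) := by
  have h0 : (r : ℂ) ≠ 0 := ofReal_ne_zero.2 hr.ne'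
  have h1 : ‖(r : ℂ)‖ = r := by rw [norm_real, Real.norm_of_nonneg hr.le]
  constructor
  · rintro ⟨z, hz, rfl⟩
    rw [add_sub_cancel_left, norm_mul, h1, mul_div_cancel_left₀ _ hr.ne']
    exact hz
  · intro h
    refine ⟨(w - c) / r, ?_, ?_⟩
    · rw [mem_ofPred_eq, norm_div, h1]
      exact h
    · exact (congrArg (c + ·) (mul_div_cancel₀ _ h0)).trans (add_sub_cancel c w)

theorem end_disc (c : ℂ) (hr : 0 < r) (hb : 1 < b) :
    End (closedBall c r) (fun z => c + r * z) 1 b := by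
  have h1 : ∀ t w, w ∈ (fun z => c + r * z) '' An 1 t ↔ r < ‖w - c‖ ∧ ‖w - c‖ < t * r :=
    fun t w => (fsw_img c hr (fun s => 1 < s ∧ s < t) w).trans
      (by rw [one_lt_div hr, div_lt_iff₀ hr])
  have h2 : ∀ t w, w ∈ (fun z => c + r * z) '' Ac 1 t ↔ r < ‖w - c‖ ∧ ‖w - c‖ ≤ t * r :=
    fun t w => (fsw_img c hr (fun s => 1 < s ∧ s ≤ t) w).trans
      (by rw [one_lt_div hr, div_le_iff₀ hr])
  have h3 : ∀ t, 1 < t → closedBall c r ∪ (fun z => c + r * z) '' An 1 t = ball c (t * r) :=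
    fun t ht => Set.ext fun w => by
      have := mul_lt_mul_of_pos_right ht hr
      rw [mem_union, h1, mem_closedBall_iff_norm, mem_ball_iff_norm]
      exact ⟨fun h => h.elim (fun h => by linarith) And.right,
        fun h => (le_or_gt _ _).imp_right fun h' => ⟨h', h⟩⟩
  have h4 : ∀ t, 1 < t → closedBall c r ∪ (fun z => c + r * z) '' Ac 1 t = closedBall c (t * r) :=
    fun t ht => Set.ext fun w => by
      have := mul_lt_mul_of_pos_right ht hr
      rw [mem_union, h2, mem_closedBall_iff_norm, mem_closedBall_iff_norm]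
      exact ⟨fun h => h.elim (fun h => by linarith) And.right,
        fun h => (le_or_gt _ _).imp_right fun h' => ⟨h', h⟩⟩
  refine ⟨one_pos, hb, nonempty_closedBall.2 hr.le, by fun_prop, fun z _ w _ h => ?_,
    disjoint_left.2 fun w hw h => ?_, fun t ht _ => ?_, fun t ht _ => ?_, ?_⟩
  · exact mul_left_cancel₀ (ofReal_ne_zero.2 hr.ne') (add_left_cancel h)
  · exact ((h1 b w).1 h).1.not_ge (mem_closedBall_iff_norm.1 hw)
  · rw [h3 t ht]
    exact isOpen_ball
  · rw [h4 t ht]
    exact isCompact_closedBall _ _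
  · rw [h3 b hb]
    exact (convex_ball _ _).isPreconnected

theorem _root_.Vale.Agent.P116.W.End.conj {a : ℝ} (h : End K e a b) :
    End ((fun z => conj z) '' K) (fun z => conj (e (conj z))) a b := by
  have h0 : ∀ P : ℝ → Prop, (fun z => conj (e (conj z))) '' {z : ℂ | P ‖z‖} =
      (fun z => conj z) '' (e '' {z : ℂ | P ‖z‖}) := fun P => by
    ext w
    constructor
    · rintro ⟨z, hz, rfl⟩
      exact ⟨_, ⟨conj z, by rwa [mem_ofPred_eq, norm_conj], rfl⟩, rfl⟩
    · rintro ⟨_, ⟨z, hz, rfl⟩, rfl⟩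
      exact ⟨conj z, by rwa [mem_ofPred_eq, norm_conj], by simp only [conj_conj]⟩
  have h1 : ∀ t, (fun z => conj (e (conj z))) '' An a t = (fun z => conj z) '' (e '' An a t) :=
    fun t => h0 fun s => a < s ∧ s < t
  have h2 : ∀ t, (fun z => conj (e (conj z))) '' Ac a t = (fun z => conj z) '' (e '' Ac a t) :=
    fun t => h0 fun s => a < s ∧ s ≤ t
  have h3 : ∀ z ∈ An a b, conj z ∈ An a b := fun z hz => by
    rw [An, mem_ofPred_eq, norm_conj]
    exact hz
  have hi : Injective fun z : ℂ => conj z := star_injective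
  refine ⟨h.pos, h.lt, h.ne.image _, fun z hz => ?_, fun z hz w hw h4 => ?_, ?_, fun t t1 t2 => ?_,
    fun t t1 t2 => ?_, ?_⟩
  · have h4 := (h.hol.differentiableAt ((isOpen_An a b).mem_nhds (h3 z hz))).conj_conj
    rw [conj_conj] at h4
    exact h4.differentiableWithinAt
  · exact hi (h.inj (h3 z hz) (h3 w hw) (hi h4))
  · rw [h1]
    exact (disjoint_image_iff hi).2 h.dis
  · rw [h1, ← image_union]
    exact conjCLE.toHomeomorph.isOpenMap _ (h.op t t1 t2)
  · rw [h2, ← image_union]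
    exact (h.cpt t t1 t2).image continuous_conj
  · rw [h1, ← image_union]
    exact h.con.image _ continuous_conj.continuousOn

end Vale.Agent.P116.F
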