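import Vale.Agent.P116.F.Cau
import Vale.Agent.P116.F.Sw

/-! P116 F/One (task, block of helper24). Helper names start with `fone_`.
Plan. Fix `ρ < ρ' < b`, `h i = G ∘ e i - w i`, `X i = K i ∪ e i (Ac 1 ρ)` (compact), `U i = K i ∪ e i (An 1 ρ')` (open, pairwise disjoint, `X i ⊆ U i`). Define `H z = w i + cau (h i) (e i) ρ' z - z + ∑ i' ≠ i, cau (h i') (e i') ρ z` for `z ∈ X i`, and `H z = G z - z + ∑ i, cau (h i) (e i) ρ z` outside `⋃ X`. By `cau_jump` the first formula holds on all of `U i`; so `H` is entire (`cau_diff`), tends to `0` (`cau_lim`, `Nm`), hence vanishes (`Differentiable.apply_eq_of_tendsto_cocompact`).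
-/

open Metric Set Filter Function Topology Complex MeasureTheory
open scoped ComplexConjugate Real

noncomputable section

namespace Vale.Agent.P116.F

open Vale.Agent.P116.W

variable {ι : Type} [Fintype ι] {A B C : Cfg ι} {b r r' R : ℝ} {c c' p : ℂ} {S : Set ι} {j : ι}
  {m n : ℕ} {e f g g' G G' h : ℂ → ℂ} {K K' T Ω : Set ℂ}

theorem one_level {κ : Type} [Fintype κ] {K : κ → Set ℂ} {e : κ → ℂ → ℂ}
    (he : ∀ i, End (K i) (e i) 1 b)
    (hd : Pairwise fun i i' => Disjoint (K i ∪ e i '' An 1 b) (K i' ∪ e i' '' An 1 b))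
    (hG : DifferentiableOn ℂ G (⋃ i, K i)ᶜ) (hn : Nm G) (w : κ → ℂ) {ρ : ℝ} (h1 : 1 < ρ)
    (h2 : ρ < b) {z : ℂ} (hz : ∀ i, z ∉ K i ∪ e i '' An 1 b) :
    G z - z = -∑ i, cau (fun ζ => G (e i ζ) - w i) (e i) ρ z := by
  classical
  obtain ⟨ρ', h3, h4⟩ := exists_between h2
  have uq : ∀ {i j : κ} {y : ℂ}, y ∈ K i ∪ e i '' An 1 b → y ∈ K j ∪ e j '' An 1 b → i = j :=
    fun {i j y} hi hj => by
      by_contra hne
      exact disjoint_left.1 (hd hne) hi hj
  have hh : ∀ i, DifferentiableOn ℂ (fun ζ => G (e i ζ) - w i) (An 1 b) := fun i => by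
    refine (hG.comp (he i).hol fun ζ hζ hk => ?_).sub_const _
    obtain ⟨j, hj⟩ := mem_iUnion.1 hk
    obtain rfl := uq (Or.inr (mem_image_of_mem _ hζ)) (Or.inl hj)
    exact disjoint_left.1 (he i).dis hj (mem_image_of_mem _ hζ)
  obtain ⟨X, eX⟩ : ∃ X : κ → Set ℂ, X = fun i => K i ∪ e i '' Ac 1 ρ := ⟨_, rfl⟩
  obtain ⟨U, eU⟩ : ∃ U : κ → Set ℂ, U = fun i => K i ∪ e i '' An 1 ρ' := ⟨_, rfl⟩
  have XU : ∀ i, X i ⊆ U i := fun i => by
    rw [eX, eU]
    exact union_subset_union_right _ (image_mono fun ζ hζ => ⟨hζ.1, hζ.2.trans_lt h3⟩)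
  have UN : ∀ i, U i ⊆ K i ∪ e i '' An 1 b := fun i => by
    rw [eU]
    exact union_subset_union_right _ (image_mono fun ζ hζ => ⟨hζ.1, hζ.2.trans h4⟩)
  have Uo : ∀ i, IsOpen (U i) := fun i => by
    rw [eU]
    exact (he i).op ρ' (h1.trans h3) h4.le
  have Xc : IsCompact (⋃ i, X i) := isCompact_iUnion fun i => by
    rw [eX]
    exact (he i).cpt ρ h1 h2
  have SX : ∀ i, e i '' sphere 0 ρ ⊆ X i := fun i => by
    rw [eX]
    refine (image_mono fun ζ hζ => ?_).trans subset_union_right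
    rw [mem_sphere_zero_iff_norm] at hζ
    exact ⟨hζ ▸ h1, hζ.le⟩
  obtain ⟨c, ec⟩ : ∃ c : κ → ℝ → ℂ → ℂ, c = fun i => cau (fun ζ => G (e i ζ) - w i) (e i) :=
    ⟨_, rfl⟩
  have cd : ∀ i {t : ℝ} {y : ℂ}, 1 < t → t < b → y ∉ e i '' sphere 0 t →
      DifferentiableAt ℂ (c i t) y := fun i t y a1 a2 a3 => by
    rw [ec]
    exact cau_diff one_pos a1 a2 (hh i) (he i).hol a3
  obtain ⟨F, eF⟩ : ∃ F : ℂ → ℂ, F = fun y => G y - y + ∑ i, c i ρ y := ⟨_, rfl⟩
  obtain ⟨P, eP⟩ : ∃ P : κ → ℂ → ℂ,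
      P = fun i y => w i + c i ρ' y - y + ∑ j ∈ Finset.univ.erase i, c j ρ y := ⟨_, rfl⟩
  obtain ⟨H, eH⟩ : ∃ H : ℂ → ℂ,
      H = fun y => if h : ∃ i, y ∈ X i then P h.choose y else F y := ⟨_, rfl⟩
  have HF : ∀ y, y ∉ ⋃ i, X i → H y = F y := fun y hy => by
    rw [eH]
    exact dif_neg fun h => hy (mem_iUnion.2 h)
  have HP : ∀ i, ∀ y ∈ U i, H y = P i y := fun i y hy => by
    by_cases h : ∃ j, y ∈ X j
    · have : h.choose = i := uq (UN _ (XU _ h.choose_spec)) (UN _ hy)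
      rw [eH]
      exact (dif_pos h).trans (by rw [this])
    · rw [HF y fun h' => h (mem_iUnion.1 h')]
      have hx : y ∉ K i ∪ e i '' Ac 1 ρ := fun h' => h ⟨i, by rw [eX]; exact h'⟩
      rw [eU] at hy
      rcases hy with hy | ⟨ζ, hζ, rfl⟩
      · exact absurd (Or.inl hy) hx
      · have h5 : ρ < ‖ζ‖ := lt_of_not_ge fun h' => hx (Or.inr ⟨ζ, ⟨hζ.1, h'⟩, rfl⟩)
        have j1 : G (e i ζ) - w i = c i ρ' (e i ζ) - c i ρ (e i ζ) := by
          rw [ec]
          exact cau_jump one_pos h1 h4 (hh i) (he i).hol (he i).inj h5 hζ.2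
        rw [eF, eP]
        beta_reduce
        rw [← Finset.add_sum_erase _ _ (Finset.mem_univ i)]
        linear_combination j1
  have Hd : Differentiable ℂ H := fun y => by
    by_cases hy : y ∈ ⋃ i, X i
    · obtain ⟨i, hi⟩ := mem_iUnion.1 hy
      have hu := XU i hi
      refine DifferentiableAt.congr_of_eventuallyEq (f := P i) ?_
        (eventually_of_mem ((Uo i).mem_nhds hu) (HP i))
      rw [eP]
      refine (((cd i (h1.trans h3) h4 ?_).const_add _).sub differentiableAt_id).add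
        (DifferentiableAt.fun_sum fun j hj => cd j h1 h2 fun hs => ?_)
      · rintro ⟨ζ, hζ, rfl⟩
        rw [mem_sphere_zero_iff_norm] at hζ
        have hm : ζ ∈ An 1 b := ⟨hζ ▸ h1.trans h3, hζ ▸ h4⟩
        rw [eU] at hu
        rcases hu with hu | ⟨ζ', hζ', e1⟩
        · exact disjoint_left.1 (he i).dis hu (mem_image_of_mem _ hm)
        · obtain rfl := (he i).inj ⟨hζ'.1, hζ'.2.trans h4⟩ hm e1
          exact hζ'.2.ne hζ
      · exact Finset.ne_of_mem_erase hj (uq (UN _ (XU _ (SX j hs))) (UN _ hu))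
    · have ho : (⋃ i, X i)ᶜ ∈ 𝓝 y := Xc.isClosed.isOpen_compl.mem_nhds hy
      refine DifferentiableAt.congr_of_eventuallyEq (f := F) ?_ (eventually_of_mem ho HF)
      rw [eF]
      refine ((hG.differentiableAt (mem_of_superset ho (compl_subset_compl.2
        (iUnion_mono fun i => ?_)))).sub differentiableAt_id).add
        (DifferentiableAt.fun_sum fun j _ => cd j h1 h2 fun hs => hy (mem_iUnion.2 ⟨j, SX j hs⟩))
      rw [eX]
      exact subset_union_left
  have Fl : Tendsto F (cocompact ℂ) (𝓝 0) := by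
    have := Tendsto.add hn (tendsto_finsetSum Finset.univ fun i _ =>
      cau_lim one_pos h1 h2 (hh i) (he i).hol)
    rw [Finset.sum_const_zero, add_zero] at this
    rw [eF, ec]
    exact this
  have Hl : Tendsto H (cocompact ℂ) (𝓝 0) :=
    Fl.congr' (eventually_of_mem Xc.compl_mem_cocompact fun y hy => (HF y hy).symm)
  have h0 := Hd.apply_eq_of_tendsto_cocompact z Hl
  rw [HF z fun h => by
    obtain ⟨i, hi⟩ := mem_iUnion.1 h
    exact hz i (UN i (XU i hi)), eF, ec] at h0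
  exact eq_neg_of_add_eq_zero_left h0

end Vale.Agent.P116.F
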