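import Vale.Agent.P116.F.Ref0

/-! P116 F/Ref1 (task, block of helper24). Helper names start with `fref1_`.
Plan. `refl0`: choose `b > 1` with `An 1 b` disjoint from `T`; `ref_out` gives `E`. `Φ z = u z` for `1 < ‖z‖`, `E z` for `‖z‖ = 1`, `(conj (u (conj z)⁻¹))⁻¹` for `0 < ‖z‖ < 1`, `Φ 0 = 0`; `Φ = E` on `An b⁻¹ b`; at `0` the singularity is removable (`u → ∞`; `differentiableOn_compl_singleton_and_continuousAt_iff`); injectivity by cases on the norm of the value (`> 1`, `= 1`, `< 1`, `= 0`). `refl_ext`: apply `refl0` to `z ↦ (u (c + r z) - c') / r'` and `T₀ = (· - c) / r` of `T`.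
-/

open Metric Set Filter Function Topology Complex MeasureTheory
open scoped ComplexConjugate Real

noncomputable section

namespace Vale.Agent.P116.F

open Vale.Agent.P116.W

variable {ι : Type} [Fintype ι] {A B C : Cfg ι} {b r r' R : ℝ} {c c' p : ℂ} {S : Set ι} {j : ι}
  {m n : ℕ} {e f g g' G G' h : ℂ → ℂ} {K K' T Ω : Set ℂ}

theorem fref1_mem (hr : 0 < r) (z : ℂ) : z ∈ rf c r '' T ↔ rf c r z ∈ T :=
  ⟨fun ⟨w, hw, e⟩ => by rwa [← e, rf_rf hr], fun h => ⟨_, h, rf_rf hr z⟩⟩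

theorem fref1_rf (z : ℂ) : rf 0 1 z = (conj z)⁻¹ := by
  rw [rf, ofReal_one, one_pow, sub_zero, zero_add, one_div]

theorem fref1_aff (c : ℂ) {a : ℂ} (ha : a ≠ 0) :
    Tendsto (fun z => c + a * z) (cocompact ℂ) (cocompact ℂ) :=
  ((Homeomorph.mulLeft₀ a ha).trans (Homeomorph.addLeft c)).isClosedEmbedding.tendsto_cocompact

theorem fref1_in {u : ℂ → ℂ} (hT : IsCompact T)
    (hd : DifferentiableOn ℂ u (T ∪ closedBall 0 1)ᶜ)
    (hm : MapsTo u (T ∪ closedBall 0 1)ᶜ (closedBall 0 1)ᶜ)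
    (hinf : Tendsto u (cocompact ℂ) (cocompact ℂ)) :
    ∃ V : ℂ → ℂ, V 0 = 0 ∧ (∀ z, z ≠ 0 → V z = (conj (u (conj z)⁻¹))⁻¹) ∧
      ∀ z, z ∉ rf 0 1 '' T → ‖z‖ < 1 → DifferentiableAt ℂ V z ∧
        (z ≠ 0 → (conj z)⁻¹ ∈ (T ∪ closedBall 0 1)ᶜ) := by
  classical
  have hO : IsOpen (T ∪ closedBall (0 : ℂ) 1)ᶜ :=
    (hT.isClosed.union isClosed_closedBall).isOpen_compl
  have h1 : ∀ z : ℂ, (conj z)⁻¹ ∉ T → ‖z‖ < 1 → z ≠ 0 → (conj z)⁻¹ ∈ (T ∪ closedBall 0 1)ᶜ := by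
    rintro z a1 a2 a3 (a4 | a4)
    · exact a1 a4
    · rw [mem_closedBall_zero_iff, norm_inv, norm_conj, inv_le_one₀ (norm_pos_iff.2 a3)] at a4
      exact a4.not_gt a2
  have h2 : ∀ z : ℂ, (conj z)⁻¹ ∉ T → ‖z‖ < 1 → z ≠ 0 →
      DifferentiableAt ℂ (update (fun z => (conj (u (conj z)⁻¹))⁻¹) 0 0) z := fun z a1 a2 a3 => by
    have a4 := h1 z a1 a2 a3
    have a5 : DifferentiableAt ℂ (fun w : ℂ => u w⁻¹) (conj z) :=
      (hd.differentiableAt (hO.mem_nhds a4)).comp (conj z)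
        (differentiableAt_inv ((map_ne_zero _).2 a3))
    have a6 : u (conj z)⁻¹ ≠ 0 := fun e => hm a4 (e ▸ mem_closedBall_self one_pos.le)
    refine (((differentiableAt_conj_conj_iff (f := fun w : ℂ => u w⁻¹)).2 a5).inv
      ((map_ne_zero _).2 a6)).congr_of_eventuallyEq ?_
    filter_upwards [isOpen_ne.mem_nhds a3] with w hw
    exact update_of_ne hw _ _
  have h3 : Tendsto (fun z : ℂ => (conj z)⁻¹) (𝓝[≠] 0) (cocompact ℂ) := by
    rw [← Metric.cobounded_eq_cocompact, ← tendsto_norm_atTop_iff_cobounded]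
    refine (tendsto_norm_inv_nhdsNE_zero_atTop (α := ℂ)).congr fun z => ?_
    rw [norm_inv, norm_inv, norm_conj]
  refine ⟨update (fun z => (conj (u (conj z)⁻¹))⁻¹) 0 0, update_self _ _ _,
    fun z hz => update_of_ne hz _ _, fun z a1 a2 => ?_⟩
  rw [fref1_mem one_pos, fref1_rf] at a1
  refine ⟨?_, h1 z a1 a2⟩
  rcases eq_or_ne z 0 with rfl | a3
  swap
  · exact h2 z a1 a2 a3
  refine (analyticAt_of_differentiable_on_punctured_nhds_of_continuousAt ?_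
    (continuousAt_update_same.2 ?_)).differentiableAt
  · filter_upwards [h3 hT.compl_mem_cocompact, self_mem_nhdsWithin,
      mem_nhdsWithin_of_mem_nhds (ball_mem_nhds (0 : ℂ) one_pos)] with w b1 b2 b3
    exact h2 w b1 (mem_ball_zero_iff.1 b3) b2
  · have b1 := hinf.comp h3
    rw [← Metric.cobounded_eq_cocompact] at b1
    have b2 := (continuous_conj.tendsto 0).comp (tendsto_inv₀_cobounded.comp b1)
    rw [map_zero] at b2
    exact b2.congr fun w => map_inv₀ _ _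

theorem refl0 {u : ℂ → ℂ} (hT : IsCompact T) (hTd : Disjoint T (closedBall 0 1))
    (hd : DifferentiableOn ℂ u (T ∪ closedBall 0 1)ᶜ) (hi : InjOn u (T ∪ closedBall 0 1)ᶜ)
    (hm : MapsTo u (T ∪ closedBall 0 1)ᶜ (closedBall 0 1)ᶜ)
    (hinf : Tendsto u (cocompact ℂ) (cocompact ℂ))
    (hb : ∀ ε : ℝ, 0 < ε → ∃ δ : ℝ, 0 < δ ∧ ∀ z, 1 < ‖z‖ → ‖z‖ < 1 + δ → ‖u z‖ < 1 + ε) :
    ∃ Φ : ℂ → ℂ, DifferentiableOn ℂ Φ (T ∪ rf 0 1 '' T)ᶜ ∧ InjOn Φ (T ∪ rf 0 1 '' T)ᶜ ∧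
      EqOn Φ u (T ∪ closedBall 0 1)ᶜ ∧ MapsTo Φ (closedBall 0 1 \ rf 0 1 '' T) (closedBall 0 1) := by
  classical
  have hO : IsOpen (T ∪ closedBall (0 : ℂ) 1)ᶜ :=
    (hT.isClosed.union isClosed_closedBall).isOpen_compl
  obtain ⟨δ, hδ, h1⟩ := (isCompact_closedBall (0 : ℂ) 1).exists_thickening_subset_open
    hT.isClosed.isOpen_compl (disjoint_left.1 hTd.symm)
  rw [thickening_closedBall hδ one_pos.le] at h1
  obtain ⟨b, hb0⟩ : ∃ b, b = δ + 1 := ⟨_, rfl⟩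
  rw [← hb0] at h1
  have hb1 : 1 < b := by linarith
  have hb2 : b⁻¹ < 1 := inv_lt_one_of_one_lt₀ hb1
  have hout : ∀ z : ℂ, z ∉ T → 1 < ‖z‖ → z ∈ (T ∪ closedBall 0 1)ᶜ := by
    rintro z a1 a2 (a3 | a3)
    · exact a1 a3
    · exact (mem_closedBall_zero_iff.1 a3).not_gt a2
  have hu : ∀ z ∈ (T ∪ closedBall 0 1)ᶜ, 1 < ‖u z‖ := fun z hz =>
    not_le.1 fun e => hm hz (mem_closedBall_zero_iff.2 e)
  have hA : An 1 b ⊆ (T ∪ closedBall 0 1)ᶜ := fun z hz =>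
    hout z (h1 (mem_ball_zero_iff.2 hz.2)) hz.1
  obtain ⟨E, e1, e2, e3, e4, e5⟩ := ref_out hb1 (hd.mono hA) (hi.mono hA)
    (fun z hz => hu z (hA hz)) fun ε hε => by
      obtain ⟨η, hη, h2⟩ := hb ε hε
      exact ⟨1 + η, by linarith, fun z hz hz' => h2 z hz.1 hz'⟩
  obtain ⟨V, v0, v1, v2⟩ := fref1_in hT hd hm hinf
  obtain ⟨Φ, hΦ⟩ : ∃ Φ : ℂ → ℂ,
      Φ = fun z => if 1 < ‖z‖ then u z else if ‖z‖ = 1 then E z else V z := ⟨_, rfl⟩
  have p1 : ∀ z, 1 < ‖z‖ → Φ z = u z := fun z hz => by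
    rw [hΦ]
    exact if_pos hz
  have p2 : ∀ z, ‖z‖ = 1 → Φ z = E z := fun z hz => by
    rw [hΦ]
    exact (if_neg hz.not_gt).trans (if_pos hz)
  have p3 : ∀ z, ‖z‖ < 1 → Φ z = V z := fun z hz => by
    rw [hΦ]
    exact (if_neg hz.not_gt).trans (if_neg hz.ne)
  have p4 : ∀ z : ℂ, ‖z‖ = 1 → z ∈ An b⁻¹ b := fun z hz => ⟨hz ▸ hb2, hz ▸ hb1⟩
  have p5 : ∀ z ∈ An b⁻¹ b, Φ z = E z := fun z hz => by
    rcases lt_trichotomy ‖z‖ 1 with a | a | a
    · rw [p3 z a, v1 z (norm_pos_iff.1 ((inv_pos.2 (one_pos.trans hb1)).trans hz.1)),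
        e5 z ⟨hz.1, a⟩]
    · exact p2 z a
    · rw [p1 z a, e3 ⟨a, hz.2⟩]
  have n1 : ∀ z, z ∉ T → 1 < ‖z‖ → 1 < ‖Φ z‖ := fun z a1 a2 => by
    rw [p1 z a2]
    exact hu z (hout z a1 a2)
  have n2 : ∀ z, ‖z‖ = 1 → ‖Φ z‖ = 1 := fun z a => by
    rw [p2 z a]
    exact e4 z a
  have n0 : Φ 0 = 0 := by rw [p3 0 (by simp), v0]
  have n3 : ∀ z, z ∉ rf 0 1 '' T → ‖z‖ < 1 → z ≠ 0 → 0 < ‖Φ z‖ ∧ ‖Φ z‖ < 1 :=
    fun z a1 a2 a3 => by
      have a4 := hu _ ((v2 z a1 a2).2 a3)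
      rw [p3 z a2, v1 z a3, norm_inv, norm_conj]
      exact ⟨inv_pos.2 (one_pos.trans a4), inv_lt_one_of_one_lt₀ a4⟩
  have n4 : ∀ z, z ∉ rf 0 1 '' T → ‖z‖ < 1 → ‖Φ z‖ < 1 := fun z a1 a2 => by
    rcases eq_or_ne z 0 with rfl | a3
    · rw [n0, norm_zero]
      exact one_pos
    · exact (n3 z a1 a2 a3).2
  refine ⟨Φ, fun z hz => DifferentiableAt.differentiableWithinAt ?_, fun z hz w hw e => ?_,
    fun z hz => p1 z (not_le.1 fun a => hz (Or.inr (mem_closedBall_zero_iff.2 a))),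
    fun z hz => mem_closedBall_zero_iff.2 ?_⟩
  · rw [mem_compl_iff, mem_union, not_or] at hz
    rcases lt_trichotomy ‖z‖ 1 with a | a | a
    · refine (v2 z hz.2 a).1.congr_of_eventuallyEq ?_
      filter_upwards [(isOpen_lt continuous_norm continuous_const).mem_nhds a] with w hw
      exact p3 w hw
    · have a1 := (isOpen_An b⁻¹ b).mem_nhds (p4 z a)
      refine (e1.differentiableAt a1).congr_of_eventuallyEq ?_
      filter_upwards [a1] with w hw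
      exact p5 w hw
    · refine (hd.differentiableAt (hO.mem_nhds (hout z hz.1 a))).congr_of_eventuallyEq ?_
      filter_upwards [(isOpen_lt continuous_const continuous_norm).mem_nhds a] with w hw
      exact p1 w hw
  · rw [mem_compl_iff, mem_union, not_or] at hz hw
    have e' : ‖Φ z‖ = ‖Φ w‖ := congrArg _ e
    rcases lt_trichotomy ‖z‖ 1 with a | a | a <;> rcases lt_trichotomy ‖w‖ 1 with a' | a' | a'
    · rcases eq_or_ne z 0 with a1 | a1 <;> rcases eq_or_ne w 0 with a2 | a2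
      · rw [a1, a2]
      · have a3 := (n3 w hw.2 a' a2).1
        rw [← e', a1, n0, norm_zero] at a3
        exact absurd a3 (lt_irrefl _)
      · have a3 := (n3 z hz.2 a a1).1
        rw [e', a2, n0, norm_zero] at a3
        exact absurd a3 (lt_irrefl _)
      · rw [p3 z a, p3 w a', v1 z a1, v1 w a2] at e
        exact (starRingEnd ℂ).injective (inv_injective (hi ((v2 z hz.2 a).2 a1)
          ((v2 w hw.2 a').2 a2) ((starRingEnd ℂ).injective (inv_injective e))))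
    · linarith [n4 z hz.2 a, n2 w a']
    · linarith [n4 z hz.2 a, n1 w hw.1 a']
    · linarith [n2 z a, n4 w hw.2 a']
    · rw [p2 z a, p2 w a'] at e
      exact e2 (p4 z a) (p4 w a') e
    · linarith [n2 z a, n1 w hw.1 a']
    · linarith [n1 z hz.1 a, n4 w hw.2 a']
    · linarith [n1 z hz.1 a, n2 w a']
    · rw [p1 z a, p1 w a'] at e
      exact hi (hout z hz.1 a) (hout w hw.1 a') e
  · rcases (mem_closedBall_zero_iff.1 hz.1).lt_or_eq with a | a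
    · exact (n4 z hz.2 a).le
    · exact (n2 z a).le

theorem refl_ext {u : ℂ → ℂ} (hr : 0 < r) (hr' : 0 < r') (hT : IsCompact T)
    (hTd : Disjoint T (closedBall c r)) (hd : DifferentiableOn ℂ u (T ∪ closedBall c r)ᶜ)
    (hi : InjOn u (T ∪ closedBall c r)ᶜ) (hm : MapsTo u (T ∪ closedBall c r)ᶜ (closedBall c' r')ᶜ)
    (hinf : Tendsto u (cocompact ℂ) (cocompact ℂ))
    (hb : ∀ ε : ℝ, 0 < ε → ∃ δ : ℝ, 0 < δ ∧ ∀ z, r < ‖z - c‖ → ‖z - c‖ < r + δ →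
      ‖u z - c'‖ < r' + ε) :
    ∃ Φ : ℂ → ℂ, DifferentiableOn ℂ Φ (T ∪ rf c r '' T)ᶜ ∧ InjOn Φ (T ∪ rf c r '' T)ᶜ ∧
      EqOn Φ u (T ∪ closedBall c r)ᶜ ∧
        MapsTo Φ (closedBall c r \ rf c r '' T) (closedBall c' r') := by
  have r0 : (r : ℂ) ≠ 0 := ofReal_ne_zero.2 hr.ne'
  have r1 : (r' : ℂ) ≠ 0 := ofReal_ne_zero.2 hr'.ne'
  have hn : ∀ {s : ℝ}, 0 < s → ∀ a z : ℂ, ‖a + s * z - a‖ = s * ‖z‖ := fun hs a z => by
    rw [add_sub_cancel_left, norm_mul, norm_real, Real.norm_eq_abs, abs_of_pos hs]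
  have hn' : ∀ z : ℂ, ‖(z - c') / r'‖ = ‖z - c'‖ / r' := fun z => by
    rw [norm_div, norm_real, Real.norm_eq_abs, abs_of_pos hr']
  have ab : ∀ z : ℂ, c + r * ((z - c) / r) = z := fun z => by
    rw [mul_div_cancel₀ _ r0, add_sub_cancel]
  obtain ⟨T₀, hT₀, m1⟩ : ∃ T₀ : Set ℂ, IsCompact T₀ ∧ ∀ z, z ∈ T₀ ↔ c + r * z ∈ T :=
    ⟨(fun z => (z - c) / r) '' T, hT.image (by fun_prop), fun z =>
      ⟨fun ⟨w, hw, e⟩ => by rwa [← e, ab], fun h => ⟨_, h, by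
        simp only [add_sub_cancel_left, mul_div_cancel_left₀ _ r0]⟩⟩⟩
  have m2 : ∀ z : ℂ, z ∈ closedBall (0 : ℂ) 1 ↔ c + r * z ∈ closedBall c r := fun z => by
    rw [mem_closedBall_zero_iff, mem_closedBall_iff_norm, hn hr, mul_le_iff_le_one_right hr]
  have m3 : ∀ z : ℂ, z ∈ rf 0 1 '' T₀ ↔ c + r * z ∈ rf c r '' T := fun z => by
    have e : rf c r (c + r * z) = c + r * rf 0 1 z := by
      rw [fref1_rf, rf, add_sub_cancel_left, map_mul, conj_ofReal, sq, mul_div_mul_left _ _ r0,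
        div_eq_mul_inv]
    rw [fref1_mem one_pos, fref1_mem hr, e, m1]
  have m4 : ∀ z : ℂ, z ∈ (T₀ ∪ closedBall 0 1)ᶜ ↔ c + r * z ∈ (T ∪ closedBall c r)ᶜ := fun z => by
    rw [mem_compl_iff, mem_compl_iff, mem_union, mem_union, m1, m2]
  have m5 : ∀ z : ℂ, z ∈ (T₀ ∪ rf 0 1 '' T₀)ᶜ ↔ c + r * z ∈ (T ∪ rf c r '' T)ᶜ := fun z => by
    rw [mem_compl_iff, mem_compl_iff, mem_union, mem_union, m1, m3]
  obtain ⟨Φ, f1, f2, f3, f4⟩ := refl0 (u := fun z => (u (c + r * z) - c') / r') hT₀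
    (disjoint_left.2 fun z a1 a2 => disjoint_left.1 hTd ((m1 z).1 a1) ((m2 z).1 a2))
    (((hd.comp (f := fun z => c + r * z) (by fun_prop) fun z hz => (m4 z).1 hz).sub_const
      c').div_const _)
    (fun z hz w hw e => mul_left_cancel₀ r0 (add_left_cancel (hi ((m4 z).1 hz) ((m4 w).1 hw)
      (sub_left_injective ((div_left_inj' r1).1 e)))))
    (fun z hz a => hm ((m4 z).1 hz) (by
      rwa [mem_closedBall_zero_iff, hn', div_le_one hr', ← mem_closedBall_iff_norm] at a))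
    (((fref1_aff (-c' / r') (inv_ne_zero r1)).comp (hinf.comp (fref1_aff c r0))).congr fun z => by
      simp only [Function.comp_apply]
      ring)
    fun ε hε => by
      obtain ⟨δ, hδ, h1⟩ := hb (r' * ε) (mul_pos hr' hε)
      refine ⟨δ / r, div_pos hδ hr, fun z a1 a2 => ?_⟩
      have a3 := h1 (c + r * z) (by
        rw [hn hr]
        exact lt_mul_of_one_lt_right hr a1) (by
        have a4 := mul_lt_mul_of_pos_left a2 hr
        rwa [mul_add, mul_one, mul_div_cancel₀ _ hr.ne', ← hn hr c] at a4)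
      rw [hn', div_lt_iff₀ hr']
      linarith
  refine ⟨fun z => c' + r' * Φ ((z - c) / r), ?_, fun z hz w hw e => ?_, fun z hz => ?_,
    fun z hz => ?_⟩
  · exact ((f1.comp (f := fun z => (z - c) / r) (by fun_prop) fun z hz =>
      (m5 _).2 ((ab z).symm ▸ hz)).const_mul _).const_add _
  · exact sub_left_injective ((div_left_inj' r0).1 (f2 ((m5 _).2 ((ab z).symm ▸ hz))
      ((m5 _).2 ((ab w).symm ▸ hw)) (mul_left_cancel₀ r1 (add_left_cancel e))))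
  · have a1 := f3 ((m4 _).2 ((ab z).symm ▸ hz))
    simp only at a1 ⊢
    rw [a1, ab, mul_div_cancel₀ _ r1, add_sub_cancel]
  · have a1 := f4 (x := (z - c) / r) ⟨(m2 _).2 ((ab z).symm ▸ hz.1),
      fun a => hz.2 (ab z ▸ (m3 _).1 a)⟩
    rw [mem_closedBall_iff_norm, hn hr', mul_le_iff_le_one_right hr']
    exact mem_closedBall_zero_iff.1 a1

end Vale.Agent.P116.F
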