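import Vale.Agent.P116.F.StA

/-! P116 F/Step (task, block of helper24). Helper names start with `fstep_`.
Plan. Let `H = G (rf c r (⋃ T))` (compact, in `B.K j`, `Lay.map`, `TrD.img_N`). New holes: `H` at `j`, `∅` else. New map: `G'` outside `B.K j`, `Φ ∘ invFunOn G (A.N b j)` on `B.K j`; on the open set `B.N b j \\ H` it equals `Φ ∘ invFunOn G (A.N b j)` (both agree on the collar by `col`), on the open set `(B.K j)ᶜ` it equals `G'`. Injectivity: `(B.K j)ᶜ` goes to `(C.K j)ᶜ` (`TrD.img_compl`), `B.K j \\ H` goes to `C.K j`. `Nm.congr`.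
-/

open Metric Set Filter Function Topology Complex MeasureTheory
open scoped ComplexConjugate Real

noncomputable section

namespace Vale.Agent.P116.F

open Vale.Agent.P116.W

variable {ι : Type} [Fintype ι] {A B C : Cfg ι} {b r r' R : ℝ} {c c' p : ℂ} {S : Set ι} {j : ι}
  {m n : ℕ} {e f g g' G G' h : ℂ → ℂ} {K K' T Ω : Set ℂ}

theorem step (hA : A.Ok b) (hB : B.Ok b) (hC : C.Ok b) (hr : 0 < r) (hr' : 0 < r')
    (h1 : A.K j = closedBall c r) (h2 : C.K j = closedBall c' r') (h : Tr A B b S m g)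
    (hj : j ∉ S) (h' : Tr B C b {j} 0 g') : Tr B C b {j} (m + 1) g' := by
  classical
  obtain ⟨T, G, h⟩ := h
  obtain ⟨T', G', h'⟩ := h'
  obtain ⟨Φ, p1, p2, p3, p4⟩ := step_phi hA hB hC hr hr' h1 h2 h hj h'
  obtain ⟨l1, l2, l3⟩ := step_lay hA hr h1 h hj
  generalize rf c r '' (⋃ l, T l) = H0 at p1 p2 p3 l1 l2 l3
  have hN := h.N_sub hA hj
  have Gd : DifferentiableOn ℂ G (A.N b j) := h.hol.mono hN
  have Gi : InjOn G (A.N b j) := h.inj.mono hN
  have oN := hA.open_N j
  have imN := h.img_N hj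
  have imK := h.img j hj
  have sK : A.K j ⊆ A.N b j := subset_union_left
  obtain ⟨c1, c2⟩ := h'.img_compl hB hC
  have cK := (hB.en j).isCompact
  have cH : IsCompact (G '' H0) := l1.image_of_continuousOn (Gd.continuousOn.mono (l2.trans sK))
  have sH : G '' H0 ⊆ B.K j := imK ▸ image_mono l2
  obtain ⟨G2, hG2⟩ : ∃ G2 : ℂ → ℂ, ∀ z, G2 z =
    if z ∈ B.K j then Φ (invFunOn G (A.N b j) z) else G' z := ⟨_, fun _ => rfl⟩
  have out : EqOn G' G2 (B.K j)ᶜ := fun z hz => by rw [hG2, if_neg hz]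
  have dD : B.D ⊆ (B.K j)ᶜ := compl_subset_compl.2 (subset_iUnion B.K j)
  have inn : ∀ z ∈ A.N b j, G2 (G z) = Φ z := by
    rintro z (hz | ⟨u, hu, rfl⟩)
    · rw [hG2, if_pos (imK ▸ mem_image_of_mem G hz), Gi.leftInvOn_invFunOn (sK hz)]
    · have e1 : B.e j u = G (A.e j u) := h.col j hu
      have e2 : C.e j u = G' (B.e j u) := h'.col j hu
      have e3 : C.e j u = Φ (A.e j u) := p4 hu
      rw [← e1, ← out (dD (hB.col_sub j (mem_image_of_mem _ hu))), ← e2, e3]
  have uT : (⋃ l, if l = j then G '' H0 else ∅) = G '' H0 := by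
    refine Subset.antisymm (iUnion_subset fun l => ?_) (subset_iUnion_of_subset j (by simp))
    split_ifs
    · exact Subset.rfl
    · exact empty_subset _
  have pre : ∀ z ∈ B.K j, z ∉ G '' H0 → ∃ u ∈ A.K j \ H0, G u = z := fun z hz hz' => by
    rw [← imK] at hz
    obtain ⟨u, hu, rfl⟩ := hz
    exact ⟨u, ⟨hu, fun h0 => hz' (mem_image_of_mem G h0)⟩, rfl⟩
  have inK : ∀ z ∈ B.K j, z ∉ G '' H0 → G2 z ∈ C.K j := fun z hz hz' => by
    obtain ⟨u, hu, rfl⟩ := pre z hz hz'
    rw [inn u (sK hu.1)]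
    exact p3 hu
  have ouK : ∀ z, z ∉ B.K j → G2 z ∉ C.K j := fun z hz => by
    rw [← out hz]
    exact (c2 ▸ mem_image_of_mem G' hz : G' z ∈ (C.K j)ᶜ)
  have img : ∀ l, l ≠ j → G2 '' B.K l = C.K l := fun l hl => by
    rw [← h'.img l hl]
    refine (image_congr fun z hz => out fun hz' => ?_).symm
    exact disjoint_left.1 (hB.dis hl) (Or.inl hz) (Or.inl hz')
  refine ⟨fun l => if l = j then G '' H0 else ∅, G2, fun l => ?_, fun l => ?_, fun l hl => ?_,
    fun l => ?_, ?_, ?_, h'.nm.congr cK.isBounded out, fun l u hu => ?_, img, fun l => ?_, ?_,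
    fun z hz => (out (dD hz)).symm.trans (h'.eq hz)⟩
  · split_ifs
    · exact cH
    · exact isCompact_empty
  · split_ifs with hl
    · exact hl ▸ sH
    · exact empty_subset _
  · exact if_neg hl
  · split_ifs with hl
    · rw [hl, ← imN]
      exact l3.map Gd Gi
    · exact lay_empty
  · rw [uT]
    intro z hz
    refine DifferentiableAt.differentiableWithinAt ?_
    by_cases hK : z ∈ B.K j
    · have o1 : IsOpen (B.N b j \ G '' H0) := (hB.open_N j).sdiff cH.isClosed
      have d1 : DifferentiableOn ℂ (Φ ∘ invFunOn G (A.N b j)) (B.N b j \ G '' H0) := by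
        refine p1.comp ((inv_hol oN Gd Gi).mono (imN ▸ sdiff_subset)) ?_
        rw [← imN]
        rintro _ ⟨⟨u, hu, rfl⟩, hu'⟩
        rw [Gi.leftInvOn_invFunOn hu]
        exact ⟨hu, fun h0 => hu' (mem_image_of_mem G h0)⟩
      refine (d1.congr ?_).differentiableAt (o1.mem_nhds ⟨Or.inl hK, hz⟩)
      rw [← imN]
      rintro _ ⟨⟨u, hu, rfl⟩, -⟩
      rw [inn u hu, comp_apply, Gi.leftInvOn_invFunOn hu]
    · exact ((h'.hol.mono c1).congr out.symm).differentiableAt
        (cK.isClosed.isOpen_compl.mem_nhds hK)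
  · rw [uT]
    intro x hx y hy hxy
    by_cases hxK : x ∈ B.K j <;> by_cases hyK : y ∈ B.K j
    · obtain ⟨u, hu, rfl⟩ := pre x hxK hx
      obtain ⟨v, hv, rfl⟩ := pre y hyK hy
      rw [inn u (sK hu.1), inn v (sK hv.1)] at hxy
      rw [p2 hu hv hxy]
    · exact absurd (hxy ▸ inK x hxK hx) (ouK y hyK)
    · exact absurd (hxy ▸ inK y hyK hy) (ouK x hxK)
    · exact h'.inj (c1 hxK) (c1 hyK) ((out hxK).trans (hxy.trans (out hyK).symm))
  · exact (h'.col l hu).trans (out (dD (hB.col_sub l (mem_image_of_mem _ hu))))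
  · split_ifs with hl
    · rw [hl]
      rintro _ ⟨z, hz, rfl⟩
      exact inK z hz.1 hz.2
    · exact (image_mono sdiff_subset).trans (img l hl).le
  · rw [← h'.ext]
    exact (image_congr fun z hz => out (dD hz)).symm

end Vale.Agent.P116.F
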