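import Vale.Agent.P116.F.St0
import Vale.Agent.P116.F.Comp
import Vale.Agent.P116.F.Step

/-! P116 F/Seq (task, block of helper24). Helper names start with `fseq_`.
Plan. `exists_it`: `choose` in `step0`, recursion on `{B // B.Ok b}`; `c 0 = 0`, `r 0 = 1`, `f 0 = id`; `Tr.lv`, `Lv.comp`, `lv_refl`. `It.depth`: induction on `m`. For `(m + 1) n ≤ k` put `k + 1 = s + 1 + n`, so `m n ≤ s`; by induction on `i < n` there is `G` with `Tr (B (s + 1)) (B (s + 1 + i)) b {J (s + 1 + i') | 1 ≤ i' ≤ i} m G` (`tr_refl`, `Tr.comp`, `Cyc.ne`); at `i = n - 1` use `step` with `rnd s`, `rnd k`, `Cyc.per`. `exists_cyc`: `Fintype.equivFin`, `k % n`.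
-/

open Metric Set Filter Function Topology Complex MeasureTheory
open scoped ComplexConjugate Real

noncomputable section

namespace Vale.Agent.P116.F

open Vale.Agent.P116.W

variable {ι : Type} [Fintype ι] {A B C : Cfg ι} {b r r' R : ℝ} {c c' p : ℂ} {S : Set ι} {j : ι}
  {m n : ℕ} {e f g g' G G' h : ℂ → ℂ} {K K' T Ω : Set ℂ}

theorem exists_it (hA : A.Ok b) (J : ℕ → ι) : ∃ B g f c r, B 0 = A ∧ It b J B g f c r := by
  choose C g c r hr hok hK hT using fun (B : {B : Cfg ι // B.Ok b}) (j : ι) => step0 B.2 j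
  let Bs : ℕ → {B : Cfg ι // B.Ok b} := fun k =>
    Nat.rec ⟨A, hA⟩ (fun k B => ⟨C B (J (k + 1)), hok _ _⟩) k
  let gs : ℕ → ℂ → ℂ := fun k => g (Bs k) (J (k + 1))
  let fs : ℕ → ℂ → ℂ := fun k => Nat.rec id (fun k f => gs k ∘ f) k
  refine ⟨fun k => (Bs k).1, gs, fs, fun k => Nat.casesOn k 0 fun k => c (Bs k) (J (k + 1)),
    fun k => Nat.casesOn k 1 fun k => r (Bs k) (J (k + 1)), rfl, fun k => (Bs k).2, fun k => ?_,
    fun k => hK (Bs k) (J (k + 1)), fun k => hT (Bs k) (J (k + 1)), fun k => ?_, fun _ => rfl⟩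
  · rcases k with _ | k
    · exact one_pos
    · exact hr (Bs k) (J (k + 1))
  · induction k with
    | zero => exact lv_refl
    | succ k ih => exact ih.comp ((hT (Bs k) (J (k + 1))).lv (Bs k).2)

theorem It.depth {J : ℕ → ι} {B : ℕ → Cfg ι} {g f : ℕ → ℂ → ℂ} {c : ℕ → ℂ} {r : ℕ → ℝ}
    (h : It b J B g f c r) (hJ : Cyc n J) (m k : ℕ) (hk : m * n ≤ k) :
    Tr (B k) (B (k + 1)) b {J (k + 1)} m (g k) := by
  induction m generalizing k with
  | zero => exact h.tr k
  | succ m ih =>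
    have hn := hJ.pos
    rw [add_mul, one_mul] at hk
    obtain ⟨s, rfl⟩ : ∃ s, k = s + n := ⟨k - n, by omega⟩
    have key : ∀ i, i < n → ∃ (S : Set ι) (G : ℂ → ℂ), Tr (B (s + 1)) (B (s + 1 + i)) b S m G ∧
        ∀ l ∈ S, ∃ i', 1 ≤ i' ∧ i' ≤ i ∧ l = J (s + 1 + i') := by
      intro i
      induction i with
      | zero => exact fun _ => ⟨∅, id, tr_refl, fun _ hl => hl.elim⟩
      | succ i ihi =>
        intro hi
        obtain ⟨S, G, h1, h2⟩ := ihi (by omega)
        refine ⟨_, _, Tr.comp (h.ok _) (h.ok _) h1 (ih (s + 1 + i) (by omega)) fun hl => ?_, ?_⟩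
        · obtain ⟨i', a1, a2, a3⟩ := h2 _ hl
          refine hJ.ne (s + 1 + i') (i + 1 - i') (by omega) (by omega) ?_
          rw [← a3]
          exact congrArg J (by omega)
        · rintro l (rfl | hl)
          · exact ⟨i + 1, by omega, le_rfl, rfl⟩
          · obtain ⟨i', a1, a2, a3⟩ := h2 _ hl
            exact ⟨i', a1, by omega, a3⟩
    obtain ⟨S, G, h1, h2⟩ := key (n - 1) (by omega)
    rw [show s + 1 + (n - 1) = s + n by omega] at h1
    have e : J (s + n + 1) = J (s + 1) := by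
      rw [← hJ.per (s + 1)]
      exact congrArg J (by omega)
    refine step (c := c (s + 1)) (h.ok (s + 1)) (h.ok _) (h.ok _) (h.pos (s + 1)) (h.pos (s + n + 1)) ?_
      (h.rnd (s + n)) h1 (fun hl => ?_) (h.tr _)
    · rw [e]
      exact h.rnd s
    · obtain ⟨i', a1, a2, a3⟩ := h2 _ hl
      exact hJ.ne (s + 1) i' (by omega) (by omega) (a3.symm.trans e)

theorem exists_cyc [Nonempty ι] : ∃ (n : ℕ) (J : ℕ → ι), Cyc n J := by
  have hn : 0 < Fintype.card ι := Fintype.card_pos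
  refine ⟨Fintype.card ι, fun k => (Fintype.equivFin ι).symm ⟨k % Fintype.card ι, Nat.mod_lt _ hn⟩,
    hn, fun k => ?_, fun k i h0 hi he => ?_, fun j => ⟨Fintype.equivFin ι j, ?_⟩⟩
  · simp only [Nat.add_mod_right]
  · have h1 : (k + i) % Fintype.card ι = k % Fintype.card ι :=
      congrArg Fin.val ((Fintype.equivFin ι).symm.injective he)
    have h2 := (Nat.modEq_iff_dvd' (Nat.le_add_right k i)).1 h1.symm
    rw [Nat.add_sub_cancel_left] at h2
    exact absurd (Nat.le_of_dvd h0 h2) (by omega)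
  · rw [Equiv.symm_apply_eq]
    exact Fin.ext (Nat.mod_eq_of_lt (Fintype.equivFin ι j).2)

end Vale.Agent.P116.F
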