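import Vale.Agent.P116.F.Cf
import Vale.Agent.P116.F.Flip

/-! P116 F/St0 (task, block of helper24). Helper names start with `fst0_`.
Plan. `End.flip`, `ext_map` give `g c r`. `C.K l = if l = j then closedBall c r else g (B.K l)`, `C.e l = g ∘ B.e l`; `End.swap` at `j`, `End.map` else (`B.N b l ⊆ (B.K j)ᶜ`); holes `T l = if l = j then B.K j else ∅` (`lay_zero`), `G = g`; `bd` by `Nm.bdd`; `int` by `open_image`.
-/

open Metric Set Filter Function Topology Complex MeasureTheory
open scoped ComplexConjugate Real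

noncomputable section

namespace Vale.Agent.P116.F

open Vale.Agent.P116.W

variable {ι : Type} [Fintype ι] {A B C : Cfg ι} {b r r' R : ℝ} {c c' p : ℂ} {S : Set ι} {j : ι}
  {m n : ℕ} {e f g g' G G' h : ℂ → ℂ} {K K' T Ω : Set ℂ}

theorem step0 (hB : B.Ok b) (j : ι) : ∃ (C : Cfg ι) (g : ℂ → ℂ) (c : ℂ) (r : ℝ), 0 < r ∧ C.Ok b ∧
    C.K j = closedBall c r ∧ Tr B C b {j} 0 g := by
  classical
  obtain ⟨p, hp⟩ := hB.int j
  have hK : IsCompact (B.K j) := (hB.en j).isCompact
  obtain ⟨hc, hs⟩ := (hB.en j).flip (interior_subset hp)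
  obtain ⟨g, c, r, hr, hd, hi, him, hn⟩ := ext_map hK hp hc hs
  obtain ⟨C, hCj, hCl, hCe⟩ : ∃ C : Cfg ι, C.K j = closedBall c r ∧
      (∀ l, l ≠ j → C.K l = g '' B.K l) ∧ ∀ l, C.e l = g ∘ B.e l :=
    ⟨⟨fun l => if l = j then closedBall c r else g '' B.K l, fun l => g ∘ B.e l⟩, if_pos rfl,
      fun l hl => if_neg hl, fun l => rfl⟩
  have hN : ∀ l, l ≠ j → B.N b l ⊆ (B.K j)ᶜ := fun l hl x hx hx' =>
    Set.disjoint_left.1 (hB.dis hl) hx (Or.inl hx')
  have hKl : ∀ l, l ≠ j → B.K l ⊆ (B.K j)ᶜ := fun l hl => subset_union_left.trans (hN l hl)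
  have hcol : B.e j '' An 1 b ⊆ (B.K j)ᶜ := (hB.en j).dis.subset_compl_left
  have hNl : ∀ l, l ≠ j → C.N b l = g '' B.N b l := fun l hl => by
    rw [Cfg.N, Cfg.N, hCl l hl, hCe, image_union, image_comp]
  have hNj : C.N b j = closedBall c r ∪ g '' (B.e j '' An 1 b) := by
    rw [Cfg.N, hCj, hCe, image_comp]
  have hdj : ∀ l, l ≠ j → Disjoint (C.N b l) (C.N b j) := fun l hl => by
    rw [hNl l hl, hNj, disjoint_union_right]
    refine ⟨subset_compl_iff_disjoint_right.1 (him ▸ image_mono (hN l hl)), ?_⟩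
    exact ((hB.dis hl).mono_right subset_union_right).image hi (hN l hl) hcol
  have hok : C.Ok b := by
    refine ⟨fun l => ?_, fun l l' hll => ?_, fun l => ?_, fun l => ?_⟩
    · by_cases hl : l = j
      · subst hl
        rw [hCj, hCe]
        exact (hB.en l).swap (isCompact_closedBall c r) (convex_closedBall c r).isPreconnected
          ⟨c, mem_closedBall_self hr.le⟩ hd hi him hn
      · rw [hCl l hl, hCe]
        exact (hB.en l).map (hd.mono (hN l hl)) (hi.mono (hN l hl))
    · by_cases hl : l = j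
      · subst hl
        exact (hdj l' hll.symm).symm
      · by_cases hl' : l' = j
        · subst hl'
          exact hdj l hl
        · show Disjoint (C.N b l) (C.N b l')
          rw [hNl l hl, hNl l' hl']
          exact (hB.dis hll).image hi (hN l hl) (hN l' hl')
    · by_cases hl : l = j
      · subst hl
        rw [hCj]
        exact ⟨c, mem_interior_iff_mem_nhds.2 (closedBall_mem_nhds c hr)⟩
      · obtain ⟨q, hq⟩ := hB.int l
        rw [hCl l hl]
        exact ⟨g q, interior_maximal (image_mono interior_subset)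
          (open_image hK.isClosed.isOpen_compl hd hi isOpen_interior
            (interior_subset.trans (hKl l hl))) (mem_image_of_mem g hq)⟩
    · have h1 := hn.bdd hK.isBounded hd hi (hB.bd l)
      by_cases hl : l = j
      · subst hl
        rw [hNj]
        exact isBounded_closedBall.union
          (h1.subset (image_mono fun x hx => ⟨Or.inr hx, hcol hx⟩))
      · rw [hNl l hl]
        exact h1.subset (image_mono fun x hx => ⟨hx, hN l hl hx⟩)
  obtain ⟨T, hTj, hTl⟩ : ∃ T : ι → Set ℂ, T j = B.K j ∧ ∀ l, l ≠ j → T l = ∅ :=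
    ⟨fun l => if l = j then B.K j else ∅, if_pos rfl, fun l hl => if_neg hl⟩
  have hsub : ∀ l, T l ⊆ B.K l := fun l => by
    by_cases hl : l = j
    · rw [hl, hTj]
    · rw [hTl l hl]
      exact empty_subset _
  have hT : ⋃ l, T l = B.K j := by
    refine subset_antisymm (iUnion_subset fun l => ?_) (hTj ▸ subset_iUnion T j)
    by_cases hl : l = j
    · rw [hl, hTj]
    · rw [hTl l hl]
      exact empty_subset _
  refine ⟨C, g, c, r, hr, hok, hCj, T, g, fun l => ?_, hsub, fun l hl => hTl l hl,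
    fun l => lay_zero ((hsub l).trans subset_union_left), hT ▸ hd, hT ▸ hi, hn,
    fun l => by rw [hCe]; exact eqOn_refl _ _, fun l hl => (hCl l hl).symm, fun l => ?_, ?_,
    eqOn_refl _ _⟩
  · by_cases hl : l = j
    · rw [hl, hTj]
      exact hK
    · rw [hTl l hl]
      exact isCompact_empty
  · by_cases hl : l = j
    · rw [hl, hTj, Set.diff_self, image_empty]
      exact empty_subset _
    · rw [hCl l hl]
      exact image_mono diff_subset
  · refine subset_antisymm ?_ fun y hy => ?_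
    · rintro _ ⟨x, hx, rfl⟩ hy
      have hxj : x ∈ (B.K j)ᶜ := fun h => hx (mem_iUnion.2 ⟨j, h⟩)
      obtain ⟨l, hy⟩ := mem_iUnion.1 hy
      by_cases hl : l = j
      · rw [hl, hCj] at hy
        have h1 : g x ∈ (closedBall c r)ᶜ := him ▸ mem_image_of_mem g hxj
        exact h1 hy
      · rw [hCl l hl] at hy
        obtain ⟨x', hx', he⟩ := hy
        rw [← hi (hKl l hl hx') hxj he] at hx
        exact hx (mem_iUnion.2 ⟨l, hx'⟩)
    · have h1 : y ∈ g '' (B.K j)ᶜ := by
        rw [him]
        exact fun h => hy (mem_iUnion.2 ⟨j, hCj ▸ h⟩)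
      obtain ⟨x, hx, rfl⟩ := h1
      refine ⟨x, fun hm => ?_, rfl⟩
      obtain ⟨l, hm⟩ := mem_iUnion.1 hm
      by_cases hl : l = j
      · exact hx (hl ▸ hm)
      · exact hy (mem_iUnion.2 ⟨l, hCl l hl ▸ mem_image_of_mem g hm⟩)

end Vale.Agent.P116.F
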