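import Vale.Agent.P116.F.Cf
import Vale.Agent.P116.F.Ref1

/-! P116 F/StA (block of helper24). Helper names start with `fsta_`.
Plan. `step_phi`: `refl_ext` for `u = G' ∘ G` and `⋃ T`. Outside `⋃ T ∪ A.K j` we have `G z ∉ B.K j = G (A.K j)` (injectivity, `TrD.N_sub`), then `TrD.img_compl`. Boundary: `End.small` for `C` gives `t`; `A.K j ∪ A.e j (An 1 t)` is open and contains the closed ball, so it contains `ball c (r + δ)` (`IsCompact.exists_thickening_subset_open`, `thickening_closedBall`); `u ∘ A.e j = C.e j` by `col`. `step_lay`: `Lay.union` with `Ω l = if l = j then ∅ else A.N b l` (`lay_empty`), `Lay.rf`, `rf_mem`, `Lay.add`; compactness by `rf_cont`.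
-/

open Metric Set Filter Function Topology Complex MeasureTheory
open scoped ComplexConjugate Real

noncomputable section

namespace Vale.Agent.P116.F

open Vale.Agent.P116.W

variable {ι : Type} [Fintype ι] {A B C : Cfg ι} {b r r' R : ℝ} {c c' p : ℂ} {S : Set ι} {j : ι}
  {m n : ℕ} {e f g g' G G' h : ℂ → ℂ} {K K' T Ω : Set ℂ}

theorem step_phi {T T' : ι → Set ℂ} (hA : A.Ok b) (hB : B.Ok b) (hC : C.Ok b) (hr : 0 < r)
    (hr' : 0 < r') (h1 : A.K j = closedBall c r) (h2 : C.K j = closedBall c' r')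
    (h : TrD A B b S m g T G) (hj : j ∉ S) (h' : TrD B C b {j} n g' T' G') :
    ∃ Φ : ℂ → ℂ, DifferentiableOn ℂ Φ (A.N b j \ rf c r '' ⋃ l, T l) ∧
      InjOn Φ (A.K j \ rf c r '' ⋃ l, T l) ∧ MapsTo Φ (A.K j \ rf c r '' ⋃ l, T l) (C.K j) ∧
        EqOn (C.e j) (Φ ∘ A.e j) (An 1 b) := by
  have hN := h.N_sub hA hj
  have hK : A.K j ⊆ (⋃ l, T l)ᶜ := subset_union_left.trans hN
  have hc := h'.img_compl hB hC
  have hs : ((⋃ l, T l) ∪ closedBall c r)ᶜ ⊆ (⋃ l, T l)ᶜ := compl_subset_compl.2 subset_union_left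
  have key : MapsTo G ((⋃ l, T l) ∪ closedBall c r)ᶜ (B.K j)ᶜ := fun z hz hB => by
    rw [← h.img j hj] at hB
    obtain ⟨y, hy, e⟩ := hB
    rw [h.inj (hK hy) (hs hz) e, h1] at hy
    exact hz (Or.inr hy)
  have hu : ∀ w ∈ An 1 b, (G' ∘ G) (A.e j w) = C.e j w := fun w hw => by
    rw [h'.col j hw, comp_apply, comp_apply, h.col j hw, comp_apply]
  obtain ⟨Φ, k1, k2, k3, k4⟩ := refl_ext (u := G' ∘ G) (c := c) (c' := c') hr hr'
    (isCompact_iUnion h.cpt) (disjoint_left.2 fun z hz hz' => hK (h1 ▸ hz') hz)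
    ((h'.hol.mono hc.1).comp (h.hol.mono hs) key) ((h'.inj.mono hc.1).comp (h.inj.mono hs) key)
    (fun z hz => by
      rw [← h2, ← hc.2]
      exact mem_image_of_mem G' (key hz))
    (h'.nm.inf.comp h.nm.inf) fun ε hε => by
      obtain ⟨t, t1, t2, t3⟩ := (hC.en j).small (Ω := ball c' (r' + ε)) isOpen_ball (by
        rw [h2]
        exact closedBall_subset_ball (by linarith))
      obtain ⟨δ, hδ, hδ'⟩ := (isCompact_closedBall c r).exists_thickening_subset_open
        ((hA.en j).op t t1 t2.le) (h1 ▸ subset_union_left)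
      rw [thickening_closedBall hδ hr.le] at hδ'
      refine ⟨δ, hδ, fun z z1 z2 => ?_⟩
      rcases hδ' (mem_ball_iff_norm.2 (by linarith : ‖z - c‖ < δ + r)) with h3 | ⟨w, hw, rfl⟩
      · rw [h1] at h3
        exact absurd (mem_closedBall_iff_norm.1 h3) z1.not_ge
      · rw [hu w (An_mono_bas t2.le hw)]
        exact mem_ball_iff_norm.1 (t3 (mem_image_of_mem _ hw))
  refine ⟨Φ, k1.mono fun z hz h3 => h3.elim (hN hz.1) hz.2,
    k2.mono fun z hz h3 => Or.elim h3 (hK hz.1) hz.2, ?_, fun w hw => ?_⟩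
  · rw [h1, h2]
    exact k4
  · have h3 : A.e j w ∈ A.e j '' An 1 b := mem_image_of_mem _ hw
    rw [← hu w hw]
    exact (k3 fun h4 => h4.elim (hN (Or.inr h3))
      fun h5 => disjoint_left.1 (hA.en j).dis (h1 ▸ h5) h3).symm

theorem step_lay {T : ι → Set ℂ} (hA : A.Ok b) (hr : 0 < r) (h1 : A.K j = closedBall c r)
    (h : TrD A B b S m g T G) (hj : j ∉ S) : IsCompact (rf c r '' ⋃ l, T l) ∧
      (rf c r '' ⋃ l, T l) ⊆ A.K j ∧ Lay b (m + 1) (rf c r '' ⋃ l, T l) (A.N b j) := by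
  classical
  have hK : ∀ z ∈ ⋃ l, T l, z ∉ closedBall c r := fun z hz hz' =>
    h.N_sub hA hj (Or.inl (h1 ▸ hz')) hz
  have hΩ : ∀ z ∈ ⋃ l, (if l = j then ∅ else A.N b l), z ∉ closedBall c r := fun z hz hz' => by
    obtain ⟨l, hl⟩ := mem_iUnion.1 hz
    by_cases e : l = j
    · rw [if_pos e] at hl
      exact hl
    · rw [if_neg e] at hl
      exact disjoint_left.1 (hA.dis e) hl (Or.inl (h1 ▸ hz'))
  have hL : Lay b m (⋃ l, T l) (⋃ l, if l = j then ∅ else A.N b l) := by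
    refine Lay.union (fun l => ?_) fun i l hil => ?_
    · by_cases e : l = j
      · rw [h.emp l (e ▸ hj)]
        exact lay_empty
      · rw [if_neg e]
        exact h.lay l
    · refine (hA.dis hil).mono ?_ ?_ <;> split_ifs <;> simp
  refine ⟨(isCompact_iUnion h.cpt).image_of_continuousOn fun z hz =>
    (rf_cont (ne_of_mem_of_not_mem (mem_closedBall_self hr.le) (hK z hz)).symm).continuousWithinAt, ?_,
    (hL.rf hr fun h2 => hΩ c h2 (mem_closedBall_self hr.le)).add (hA.en j) ?_⟩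
  · rintro _ ⟨z, hz, rfl⟩
    exact h1 ▸ ball_subset_closedBall (rf_mem hr (hK z hz)).1
  · rintro _ ⟨z, hz, rfl⟩
    exact h1 ▸ ball_subset_closedBall (rf_mem hr (hΩ z hz)).1

end Vale.Agent.P116.F
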